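import Vale.Agent.P036.Free

/-! The sample space: residue data and free indices. -/

namespace Vale.Agent.P036

open Finset

/-- The `i`-th element of a residue class to the right of `lo`. -/
def fr (lo : ℤ) (W : ℕ) (r : ℤ) (i : ℕ) : ℤ := lo + (r - lo) % W + W * i

theorem fr_mem (lo : ℤ) {W X : ℕ} (hW : 0 < W) (r : ℤ) (i : Fin X) :
    fr lo W r i ∈ Cl lo W X r := by
  have hW' : (0 : ℤ) < W := by exact_mod_cast hW
  have h1 := Int.emod_nonneg (r - lo) hW'.ne'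
  have h2 := Int.emod_lt_of_pos (r - lo) hW'
  have h3 : ((i : ℕ) : ℤ) + 1 ≤ X := by exact_mod_cast i.2
  have h4 : (0 : ℤ) ≤ ((i : ℕ) : ℤ) := Int.natCast_nonneg _
  rw [mem_Cl]
  unfold fr
  refine ⟨⟨by nlinarith, by nlinarith⟩, ⟨(i : ℕ) - (r - lo) / W, ?_⟩⟩
  have := Int.emod_add_mul_ediv (r - lo) W
  linear_combination this

theorem fr_inj (lo : ℤ) {W X : ℕ} (hW : 0 < W) (r : ℤ) {i i' : Fin X}
    (h : fr lo W r i = fr lo W r i') : i = i' := by
  have hW' : (0 : ℤ) < W := by exact_mod_cast hW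
  unfold fr at h
  have h1 : (W : ℤ) * (i : ℕ) = W * (i' : ℕ) := by linarith
  have h2 := mul_left_cancel₀ hW'.ne' h1
  exact Fin.ext (by exact_mod_cast h2)

section
variable {D : Type} (W X X₂ X₃ : ℕ) (rx ry rz : D → ℤ)

/-- First coordinate. -/
def px (ω : D × Fin X × Fin X₂ × Fin X₃) : ℤ := fr (W * X) W (rx ω.1) ω.2.1
/-- Second coordinate. -/
def py (ω : D × Fin X × Fin X₂ × Fin X₃) : ℤ := fr 0 W (ry ω.1) ω.2.2.1
/-- Third coordinate. -/
def pz (ω : D × Fin X × Fin X₂ × Fin X₃) : ℤ := fr 0 W (rz ω.1) ω.2.2.2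

/-- Bad triples of sample points. -/
def B3 (T : ℕ) (w : Fin 3 → D × Fin X × Fin X₂ × Fin X₃) : Prop :=
  BadT T (fun t => px W X X₂ X₃ rx (w t), fun t => py W X X₂ X₃ ry (w t),
    fun t => pz W X X₂ X₃ rz (w t))

/-- Bad pairs of sample points. -/
def B2 (w : Fin 2 → D × Fin X × Fin X₂ × Fin X₃) : Prop :=
  px W X X₂ X₃ rx (w 0) * py W X X₂ X₃ ry (w 1) = px W X X₂ X₃ rx (w 1) * py W X X₂ X₃ ry (w 0)

open Classical in
theorem count_triples [Fintype D] (hW : 0 < W) (T : ℕ) :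
    ((Finset.univ.filter (B3 W X X₂ X₃ rx ry rz T)).card : ℝ) ≤ ∑ δ : Fin 3 → D,
      (((Row (W * X) W X (fun t => rx (δ t)) ×ˢ (Row 0 W X₂ (fun t => ry (δ t)) ×ˢ
        Row 0 W X₃ (fun t => rz (δ t)))).filter (BadT T)).card : ℝ) := by
  rw [Finset.card_eq_sum_card_fiberwise (f := fun w t => (w t).1) (t := Finset.univ)
    (fun _ _ => Finset.mem_univ _)]
  push_cast
  refine Finset.sum_le_sum fun δ _ => Nat.cast_le.mpr ?_
  apply Finset.card_le_card_of_injOn (fun w => (fun t => px W X X₂ X₃ rx (w t),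
    fun t => py W X X₂ X₃ ry (w t), fun t => pz W X X₂ X₃ rz (w t)))
  · intro w hw
    rw [Finset.mem_coe, Finset.mem_filter, Finset.mem_filter] at hw
    obtain ⟨⟨-, a⟩, rfl⟩ := hw
    rw [Finset.mem_coe, Finset.mem_filter, Finset.mem_product, Finset.mem_product]
    refine ⟨⟨?_, ?_, ?_⟩, a⟩
    · exact mem_Row.mpr fun t => mem_Cl.mp (fr_mem _ hW _ _)
    · exact mem_Row.mpr fun t => mem_Cl.mp (fr_mem _ hW _ _)
    · exact mem_Row.mpr fun t => mem_Cl.mp (fr_mem _ hW _ _)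
  · intro w hw w' hw' e
    rw [Finset.mem_coe, Finset.mem_filter] at hw hw'
    simp only [Prod.mk.injEq] at e
    obtain ⟨e1, e2, e3⟩ := e
    funext t
    have d : (w t).1 = (w' t).1 := (congrFun hw.2 t).trans (congrFun hw'.2 t).symm
    have f1 := congrFun e1 t
    have f2 := congrFun e2 t
    have f3 := congrFun e3 t
    simp only [px, py, pz] at f1 f2 f3
    rw [d] at f1 f2 f3
    exact Prod.ext d (Prod.ext (fr_inj _ hW _ f1) (Prod.ext (fr_inj _ hW _ f2) (fr_inj _ hW _ f3)))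

open Classical in
theorem count_pairs [Fintype D] (hW : 0 < W) (hX : 0 < X) (hX₂ : W * X ≤ X₂)
    (hlog : 1 + Real.log (2 * W * X) ≤ 16 * (W : ℝ) ^ 2) (hr : ∀ d, IsCoprime (rx d) (W : ℤ)) :
    ((Finset.univ.filter (B2 W X X₂ X₃ rx ry)).card : ℝ)
      ≤ ((Fintype.card D : ℝ) * X₃) ^ 2 * (80 * W * X * X₂) := by
  have h := card_le_mul_of_fibers (Finset.univ.filter (B2 W X X₂ X₃ rx ry))
    (Finset.univ : Finset ((Fin 2 → D) × (Fin 2 → Fin X₃)))
    (fun w => (fun t => (w t).1, fun t => (w t).2.2.2)) (80 * W * X * X₂)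
    (fun _ _ => Finset.mem_univ _) ?_
  · refine h.trans (le_of_eq ?_)
    rw [Finset.card_univ]
    simp only [Fintype.card_prod, Fintype.card_fun, Fintype.card_fin]
    push_cast
    ring
  · rintro ⟨δ, z⟩ _
    refine le_trans (Nat.cast_le.mpr ?_) (pair_count W X X₂ hW hX hX₂ hlog (rx (δ 0)) (rx (δ 1))
      (ry (δ 0)) (ry (δ 1)) (hr _) (hr _))
    apply Finset.card_le_card_of_injOn (fun w => ((px W X X₂ X₃ rx (w 0), px W X X₂ X₃ rx (w 1)),
      (py W X X₂ X₃ ry (w 0), py W X X₂ X₃ ry (w 1))))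
    · intro w hw
      rw [Finset.mem_coe, Finset.mem_filter, Finset.mem_filter] at hw
      obtain ⟨⟨-, a⟩, b⟩ := hw
      simp only [Prod.mk.injEq] at b
      obtain ⟨rfl, -⟩ := b
      rw [Finset.mem_coe, Finset.mem_filter, Finset.mem_product, Finset.mem_product,
        Finset.mem_product]
      exact ⟨⟨⟨fr_mem _ hW _ _, fr_mem _ hW _ _⟩, fr_mem _ hW _ _, fr_mem _ hW _ _⟩, a⟩
    · intro w hw w' hw' e
      rw [Finset.mem_coe, Finset.mem_filter] at hw hw'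
      simp only [Prod.mk.injEq] at e hw hw'
      obtain ⟨⟨e1, e2⟩, e3, e4⟩ := e
      have d : ∀ t, (w t).1 = (w' t).1 := fun t =>
        (congrFun hw.2.1 t).trans (congrFun hw'.2.1 t).symm
      have d' : ∀ t, (w t).2.2.2 = (w' t).2.2.2 := fun t =>
        (congrFun hw.2.2 t).trans (congrFun hw'.2.2 t).symm
      simp only [px, py] at e1 e2 e3 e4
      rw [d] at e1 e2 e3 e4
      funext t
      revert t
      rw [Fin.forall_fin_two]
      exact ⟨Prod.ext (d 0) (Prod.ext (fr_inj _ hW _ e1) (Prod.ext (fr_inj _ hW _ e3) (d' 0))),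
        Prod.ext (d 1) (Prod.ext (fr_inj _ hW _ e2) (Prod.ext (fr_inj _ hW _ e4) (d' 1)))⟩

end

theorem sum_five {D₁ D₂ D₃ D₄ D₅ : Type} [Fintype D₁] [Fintype D₂] [Fintype D₃] [Fintype D₄]
    [Fintype D₅] (F : (Fin 3 → D₁ × D₂ × D₃ × D₄ × D₅) → ℝ) :
    ∑ δ, F δ = ∑ ζ : Fin 3 → D₁, ∑ f : Fin 3 → D₂, ∑ g : Fin 3 → D₃,
      ∑ x : (Fin 3 → D₄) × (Fin 3 → D₅), F (fun t => (ζ t, f t, g t, x.1 t, x.2 t)) := by
  let e : (Fin 3 → D₁) × (Fin 3 → D₂) × (Fin 3 → D₃) × ((Fin 3 → D₄) × (Fin 3 → D₅)) ≃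
      (Fin 3 → D₁ × D₂ × D₃ × D₄ × D₅) :=
    { toFun := fun y t => (y.1 t, y.2.1 t, y.2.2.1 t, y.2.2.2.1 t, y.2.2.2.2 t)
      invFun := fun δ => (fun t => (δ t).1, fun t => (δ t).2.1, fun t => (δ t).2.2.1,
        fun t => (δ t).2.2.2.1, fun t => (δ t).2.2.2.2)
      left_inv := fun _ => rfl
      right_inv := fun _ => rfl }
  rw [← Equiv.sum_comp e, Fintype.sum_prod_type]
  refine Finset.sum_congr rfl fun ζ _ => ?_
  rw [Fintype.sum_prod_type]
  refine Finset.sum_congr rfl fun f _ => ?_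
  rw [Fintype.sum_prod_type]
  rfl

end Vale.Agent.P036
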