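import Vale.Agent.P036.AvgXi
import Vale.Agent.P036.Space

/-! The average number of bad triples. -/

namespace Vale.Agent.P036

open Finset

/-- Residue data of one sample point. -/
abbrev Dat (q k h Q : ℕ) : Type := Fin q × (Fin k → Fin h) × (Fin k → Fin h) × (ZMod Q)ˣ × ZMod Q

/-- The first coordinate modulo `M ^ k`. -/
def nA {p : ℕ} (M : ℤ) (k : ℕ) (α : ℕ → ZMod p) : ℤ := num M k (fun i => ((α i).val : ℤ))

/-- Three distinct labels. -/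
def Dist {q : ℕ} (ζ : Fin 3 → Fin q) : Prop := ζ 0 ≠ ζ 1 ∧ ζ 1 ≠ ζ 2 ∧ ζ 2 ≠ ζ 0

open Classical in
theorem count_not_dist (q : ℕ) :
    ((Finset.univ.filter (fun ζ : Fin 3 → Fin q => ¬ Dist ζ)).card : ℝ) ≤ 3 * (q : ℝ) ^ 2 := by
  have key : ∀ i j l : Fin 3, (∀ s, s = i ∨ s = j ∨ s = l) →
      ((Finset.univ.filter (fun ζ : Fin 3 → Fin q => ζ i = ζ j)).card : ℝ) ≤ (q : ℝ) ^ 2 := by
    intro i j l hall
    have := Finset.card_le_card_of_injOn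
      (s := Finset.univ.filter (fun ζ : Fin 3 → Fin q => ζ i = ζ j))
      (t := Finset.univ) (fun ζ => (ζ j, ζ l)) (fun _ _ => Finset.mem_univ _) ?_
    · rw [Finset.card_univ, Fintype.card_prod, Fintype.card_fin, ← sq] at this
      exact_mod_cast this
    · intro x hx y hy e
      rw [Finset.mem_coe, Finset.mem_filter] at hx hy
      simp only [Prod.mk.injEq] at e
      exact fun3_ext hall (by rw [hx.2, hy.2, e.1]) e.1 e.2
  have h := card_le_sum_of_cover (Finset.univ.filter (fun ζ : Fin 3 → Fin q => ¬ Dist ζ))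
    Finset.univ (fun t : Fin 3 => Finset.univ.filter (fun ζ : Fin 3 → Fin q => ζ t = ζ (t + 1)))
    ?_
  · rw [Fin.sum_univ_three] at h
    have k0 := key 0 1 2 (by decide)
    have k1 := key 1 2 0 (by decide)
    have k2 := key 2 0 1 (by decide)
    have e0 : (0 : Fin 3) + 1 = 1 := rfl
    have e1 : (1 : Fin 3) + 1 = 2 := rfl
    have e2 : (2 : Fin 3) + 1 = 0 := rfl
    rw [e0, e1, e2] at h
    linarith
  · intro ζ hζ
    rw [Finset.mem_filter] at hζ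
    by_contra hc
    push Not at hc
    apply hζ.2
    have a0 := hc 0 (Finset.mem_univ _)
    have a1 := hc 1 (Finset.mem_univ _)
    have a2 := hc 2 (Finset.mem_univ _)
    simp only [Finset.mem_filter, Finset.mem_univ, true_and] at a0 a1 a2
    exact ⟨a0, a1, a2⟩

section
variable {p q k h Q : ℕ} (crt : ℤ → ZMod Q → ℤ) (M : ℕ) (α β γ : Fin q → ℕ → ZMod p)
  (ν : ZMod Q)

/-- Residue of the first coordinate. -/
def rX (d : Dat q k h Q) : ℤ := crt (nA M k (α d.1)) (d.2.2.2.1 : ZMod Q)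
/-- Residue of the second coordinate. -/
def rY (lam : ℤ) (d : Dat q k h Q) : ℤ :=
  crt (num M k (dg (β d.1) d.2.1) + lam * num M k (dg (γ d.1) d.2.2.1)) d.2.2.2.2
/-- Residue of the third coordinate. -/
def rZ (d : Dat q k h Q) : ℤ :=
  crt (num M k (dg (γ d.1) d.2.2.1)) ((d.2.2.2.1 : ZMod Q) ^ 2 - ν * d.2.2.2.2 ^ 2)

variable [NeZero p] [Fact Q.Prime]

open Classical in
theorem sum_xi_le
    (hcrt : ∀ A u, ((M ^ k : ℕ) : ℤ) ∣ crt A u - A ∧ ((crt A u : ℤ) : ZMod Q) = u)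
    (hh : 0 < h) (hMp : M.Prime) (hM : (p : ℤ) * h ≤ M) (h2 : (2 : ZMod Q) ≠ 0)
    (hν : ¬ IsSquare ν) (j : ℕ) (hj0 : 0 < j) (hj : j ≤ k)
    (hA : ∀ ζ, (M : ℤ) ^ j ∣ nA M k (α ζ) - 1)
    (hQ : M ^ j ≤ Q) (ε : ℝ) (hε0 : 0 ≤ ε)
    (hε : ∀ i ≤ k, (M : ℝ) ^ i ≤ ε * (h : ℝ) ^ k * ((M : ℝ) ^ j) ^ 2 * ((h : ℝ) ^ i) ^ 2)
    (X S : ℕ) (hX : X < 2 ^ S) (lam : ℤ) :
    ∑ δ : Fin 3 → Dat q k h Q, ∑ ξ ∈ (Box X).filter (XiP (M ^ k * Q) (fun t => rX crt M α (δ t))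
      (fun t => rY crt M β γ lam (δ t)) (fun t => rZ crt M γ ν (δ t))), 1 / (nrm ξ : ℝ) ^ 3
      ≤ (q : ℝ) ^ 3 * (8 * ((54 * (Q : ℝ) ^ 2 + 150 * (k + 1) * (Q : ℝ) ^ 3 * ε)
        * ((h : ℝ) ^ k) ^ 6) * S) := by
  rw [sum_five]
  calc _ ≤ ∑ _ζ : Fin 3 → Fin q, (8 * ((54 * (Q : ℝ) ^ 2 + 150 * (k + 1) * (Q : ℝ) ^ 3 * ε)
        * ((h : ℝ) ^ k) ^ 6) * S) := by
        refine Finset.sum_le_sum fun ζ _ => ?_
        refine le_trans ?_ (xi_total (A := fun t => nA M k (α (ζ t))) hh hMp hM h2 hν j hj0 hj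
          (fun t => hA (ζ t)) hQ ε hε0 hε (fun t => β (ζ t)) (fun t => γ (ζ t)) X S hX)
        refine Finset.sum_le_sum fun f _ => Finset.sum_le_sum fun g _ => ?_
        exact sum_x_xi (lam := lam) X (fun x t => hcrt _ _) (fun x t => hcrt _ _)
          (fun x t => hcrt _ _)
    _ = _ := by
        rw [Finset.sum_const, Finset.card_univ, Fintype.card_fun, Fintype.card_fin,
          Fintype.card_fin, nsmul_eq_mul]
        push_cast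
        ring

open Classical in
theorem sum_solv_le
    (hcrt : ∀ A u, ((M ^ k : ℕ) : ℤ) ∣ crt A u - A ∧ ((crt A u : ℤ) : ZMod Q) = u)
    (hh : 0 < h) (hMp : M.Prime) (hM : (p : ℤ) * h ≤ M) (hM4 : M ≤ h ^ 4) (hν : ν ≠ 0)
    (hA : ∀ ζ, IsCoprime (nA M k (α ζ)) (M : ℤ)) (T : ℕ) (hT : 2 * T < M ^ k)
    (hno : ∀ ζ : Fin 3 → Fin q, Dist ζ → ∀ (f g : Fin 3 → Fin k → Fin h) (s : ℤ),
      ¬ SolvM ((M ^ k : ℕ) : ℤ) T (fun t => nA M k (α (ζ t))) (nB M (fun t => β (ζ t)) f)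
        (nB M (fun t => γ (ζ t)) g) s) :
    ∑ lam ∈ Finset.range (M ^ k), ∑ δ : Fin 3 → Dat q k h Q,
      (if Solv (M ^ k * Q) T (fun t => rX crt M α (δ t)) (fun t => rY crt M β γ lam (δ t))
        (fun t => rZ crt M γ ν (δ t)) then
        sig (M ^ k * Q) (fun t => rX crt M α (δ t)) (fun t => rY crt M β γ lam (δ t)) else 0)
      ≤ (3 * (q : ℝ) ^ 2) * ((2 * ((k : ℝ) + 1) ^ 2 * (M : ℝ) ^ k * ((h : ℝ) ^ k) ^ 6)
        * (4 * (Q : ℝ) ^ 5)) := by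
  simp only [sum_five]
  rw [Finset.sum_comm]
  calc _ ≤ ∑ ζ : Fin 3 → Fin q, if ¬ Dist ζ then
        ((2 * ((k : ℝ) + 1) ^ 2 * (M : ℝ) ^ k * ((h : ℝ) ^ k) ^ 6) * (4 * (Q : ℝ) ^ 5))
        else 0 := by
        refine Finset.sum_le_sum fun ζ _ => ?_
        refine le_trans (Finset.sum_le_sum fun lam _ => Finset.sum_le_sum fun f _ =>
          Finset.sum_le_sum fun g _ => sum_x_solv (A := fun t => nA M k (α (ζ t)))
            (B := nB M (fun t => β (ζ t)) f) (C := nB M (fun t => γ (ζ t)) g) (lam := lam)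
            hMp hT hν (fun x t => hcrt _ _) (fun x t => hcrt _ _) (fun x t => hcrt _ _)) ?_
        by_cases hd : Dist ζ
        · rw [if_neg (not_not.mpr hd)]
          apply le_of_eq
          refine Finset.sum_eq_zero fun lam _ => Finset.sum_eq_zero fun f _ =>
            Finset.sum_eq_zero fun g _ => ?_
          rw [if_neg]
          rintro ⟨s, hs⟩
          exact hno ζ hd f g s hs
        · rw [if_pos hd]
          refine le_trans ?_ (mul_le_mul_of_nonneg_right (sig_total (k := k)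
            (A := fun t => nA M k (α (ζ t))) hh hMp hM hM4 (hA _) (fun t => β (ζ t))
            (fun t => γ (ζ t))) (by positivity))
          simp only [Finset.sum_mul]
          refine Finset.sum_le_sum fun lam _ => Finset.sum_le_sum fun f _ =>
            Finset.sum_le_sum fun g _ => ?_
          split_ifs
          · exact le_rfl
          · exact mul_nonneg (sigM_nonneg _ _ _ _) (by positivity)
    _ ≤ _ := by
        rw [← Finset.sum_filter, Finset.sum_const, nsmul_eq_mul]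
        exact mul_le_mul_of_nonneg_right (count_not_dist q) (by positivity)

omit [NeZero p] in
theorem rX_coprime
    (hcrt : ∀ A u, ((M ^ k : ℕ) : ℤ) ∣ crt A u - A ∧ ((crt A u : ℤ) : ZMod Q) = u)
    (hA : ∀ ζ, IsCoprime (nA M k (α ζ)) (M : ℤ)) (d : Dat q k h Q) :
    IsCoprime (rX crt M α d) ((M ^ k * Q : ℕ) : ℤ) := by
  obtain ⟨⟨c, hc⟩, h2⟩ := hcrt (nA M k (α d.1)) (d.2.2.2.1 : ZMod Q)
  push_cast
  apply IsCoprime.mul_right
  · obtain ⟨a, b, hab⟩ := (hA d.1).pow_right (n := k)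
    push_cast at hc
    exact ⟨a, b - a * c, by unfold rX; linear_combination hab + a * hc⟩
  · apply IsCoprime.symm
    rw [← ZMod.coe_int_isUnit_iff_isCoprime]
    unfold rX
    rw [h2]
    exact Units.isUnit _

end

theorem theta_numeric {q m Q H X X₂ X₃ S κ N : ℝ} (hq : 1 ≤ q) (hm : q ≤ m) (hQ : q * m ^ 2 ≤ Q)
    (hH : 0 < H) (hX : 0 < X) (hX₂ : X * (m * Q) ^ 3 ≤ X₂) (hX₃ : 0 < X₃) (hS : 1 ≤ S)
    (hκ : 1 ≤ κ) (hN : q ^ 3 * H ^ 6 * Q ^ 6 ≤ 8 * N) :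
    N * (X ^ 3 * X₂ * X₃ ^ 2) + 1728 * (X ^ 2 * X₂ ^ 2 * X₃ ^ 2) *
      (q ^ 3 * (8 * ((54 * Q ^ 2 + 150 * κ * Q ^ 3 * (1 / (q * m ^ 2))) * H ^ 6) * S))
      + S * 153600 * (X ^ 2 * X₂ ^ 2 * X₃ ^ 2) / (m * Q) ^ 2 *
        ((3 * q ^ 2) * ((2 * κ ^ 2 * H ^ 6) * (4 * Q ^ 5)))
      ≤ 60000000 * S * κ ^ 2 / (q * m ^ 2 * Q ^ 3 * (X * X₂ * X₃)) * (N * (X * X₂ * X₃) ^ 3) := by
  have hq0 : 0 < q := by linarith
  have hm0 : 0 < m := by linarith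
  have hQ0 : 0 < Q := lt_of_lt_of_le (by positivity) hQ
  have hX₂0 : 0 < X₂ := lt_of_lt_of_le (by positivity) hX₂
  have hN0 : 0 < N := by
    have : 0 < q ^ 3 * H ^ 6 * Q ^ 6 := by positivity
    linarith
  set U := X ^ 2 * X₂ ^ 2 * X₃ ^ 2 with hU
  have hU0 : 0 < U := by positivity
  set E := U * N / (q * m ^ 2 * Q ^ 3) with hE
  have hE0 : 0 < E := by positivity
  have e0 : 60000000 * S * κ ^ 2 / (q * m ^ 2 * Q ^ 3 * (X * X₂ * X₃)) * (N * (X * X₂ * X₃) ^ 3)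
      = 60000000 * (S * κ ^ 2 * E) := by
    rw [hE, hU]; field_simp
  have hG : U * (q ^ 2 * H ^ 6 * Q ^ 3) / m ^ 2 ≤ 8 * E := by
    have : U * (q ^ 2 * H ^ 6 * Q ^ 3) / m ^ 2
        = U * (q ^ 3 * H ^ 6 * Q ^ 6) / (q * m ^ 2 * Q ^ 3) := by field_simp
    rw [this, hE]
    calc _ ≤ U * (8 * N) / (q * m ^ 2 * Q ^ 3) := by gcongr
      _ = _ := by ring
  have t1 : N * (X ^ 3 * X₂ * X₃ ^ 2) ≤ E := by
    rw [hE, le_div_iff₀ (by positivity), hU]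
    calc N * (X ^ 3 * X₂ * X₃ ^ 2) * (q * m ^ 2 * Q ^ 3)
        ≤ N * (X ^ 3 * X₂ * X₃ ^ 2) * (m * m ^ 2 * Q ^ 3) := by gcongr
      _ = N * (X ^ 2 * X₂ * X₃ ^ 2) * (X * (m * Q) ^ 3) := by ring
      _ ≤ N * (X ^ 2 * X₂ * X₃ ^ 2) * X₂ := by gcongr
      _ = _ := by ring
  have t2 : 54 * Q ^ 2 + 150 * κ * Q ^ 3 * (1 / (q * m ^ 2))
      ≤ 204 * κ * (Q ^ 3 / (q * m ^ 2)) := by
    have a1 : Q ^ 2 ≤ Q ^ 3 / (q * m ^ 2) := by
      rw [le_div_iff₀ (by positivity)]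
      calc _ ≤ Q ^ 2 * Q := by gcongr
        _ = _ := by ring
    have a2 : Q ^ 3 / (q * m ^ 2) ≤ κ * (Q ^ 3 / (q * m ^ 2)) :=
      le_mul_of_one_le_left (by positivity) hκ
    have a3 : 150 * κ * Q ^ 3 * (1 / (q * m ^ 2)) = 150 * (κ * (Q ^ 3 / (q * m ^ 2))) := by ring
    linarith
  have t3 : 1728 * U * (q ^ 3 * (8 * ((54 * Q ^ 2 + 150 * κ * Q ^ 3 * (1 / (q * m ^ 2)))
      * H ^ 6) * S)) ≤ 22560768 * (S * κ * E) := by
    calc _ ≤ 1728 * U * (q ^ 3 * (8 * ((204 * κ * (Q ^ 3 / (q * m ^ 2))) * H ^ 6) * S)) := by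
          gcongr
      _ = 2820096 * (S * κ) * (U * (q ^ 2 * H ^ 6 * Q ^ 3) / m ^ 2) := by field_simp; ring
      _ ≤ 2820096 * (S * κ) * (8 * E) := by gcongr
      _ = _ := by ring
  have t4 : S * 153600 * U / (m * Q) ^ 2 * ((3 * q ^ 2) * ((2 * κ ^ 2 * H ^ 6) * (4 * Q ^ 5)))
      ≤ 29491200 * (S * κ ^ 2 * E) := by
    calc _ = 3686400 * (S * κ ^ 2) * (U * (q ^ 2 * H ^ 6 * Q ^ 3) / m ^ 2) := by field_simp; ring
      _ ≤ 3686400 * (S * κ ^ 2) * (8 * E) := by gcongr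
      _ = _ := by ring
  have t5 : S * κ * E ≤ S * κ ^ 2 * E := by
    have : κ ≤ κ ^ 2 := by nlinarith
    gcongr
  have t6 : E ≤ S * κ * E := le_mul_of_one_le_left hE0.le (by nlinarith)
  rw [e0]
  linarith

theorem card_Dat (q k h Q : ℕ) [Fact Q.Prime] :
    (q : ℝ) ^ 3 * ((h : ℝ) ^ k) ^ 6 * (Q : ℝ) ^ 6 ≤ 8 * (Fintype.card (Dat q k h Q) : ℝ) ^ 3 := by
  have hQ : 2 ≤ Q := (Fact.out : Q.Prime).two_le
  have e : (Fintype.card (Dat q k h Q) : ℝ)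
      = q * ((h : ℝ) ^ k * ((h : ℝ) ^ k * ((Q - 1) * Q))) := by
    simp only [Fintype.card_prod, Fintype.card_fun, Fintype.card_fin, ZMod.card_units, ZMod.card]
    push_cast [Nat.cast_sub (by omega : 1 ≤ Q)]
    ring
  have h2 : (2 : ℝ) ≤ Q := by exact_mod_cast hQ
  have h3 : (Q : ℝ) ≤ 2 * (Q - 1) := by linarith
  rw [e]
  calc _ = (q : ℝ) ^ 3 * ((h : ℝ) ^ k) ^ 6 * (Q : ℝ) ^ 3 * (Q : ℝ) ^ 3 := by ring
    _ ≤ (q : ℝ) ^ 3 * ((h : ℝ) ^ k) ^ 6 * (Q : ℝ) ^ 3 * (2 * (Q - 1)) ^ 3 := by gcongr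
    _ = _ := by ring

open Classical in
theorem exists_lam {p q k h Q : ℕ} [NeZero p] [Fact Q.Prime] (crt : ℤ → ZMod Q → ℤ) (M : ℕ)
    (α β γ : Fin q → ℕ → ZMod p) (ν : ZMod Q)
    (hcrt : ∀ A u, ((M ^ k : ℕ) : ℤ) ∣ crt A u - A ∧ ((crt A u : ℤ) : ZMod Q) = u)
    (hh : 0 < h) (hMp : M.Prime) (hM : (p : ℤ) * h ≤ M) (hM4 : M ≤ h ^ 4)
    (h2 : (2 : ZMod Q) ≠ 0) (hν : ¬ IsSquare ν) (j : ℕ) (hj0 : 0 < j) (hj : j ≤ k)
    (hA : ∀ ζ, (M : ℤ) ^ j ∣ nA M k (α ζ) - 1)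
    (hq0 : 0 < q) (hq : q ≤ M ^ k) (hQ : q * (M ^ k) ^ 2 ≤ Q)
    (hε : ∀ i ≤ k, q * (M ^ k) ^ 2 * M ^ i ≤ h ^ k * (M ^ j) ^ 2 * (h ^ i) ^ 2)
    (T : ℕ) (hT : 2 * T < M ^ k)
    (hno : ∀ ζ : Fin 3 → Fin q, Dist ζ → ∀ (f g : Fin 3 → Fin k → Fin h) (s : ℤ),
      ¬ SolvM ((M ^ k : ℕ) : ℤ) T (fun t => nA M k (α (ζ t))) (nB M (fun t => β (ζ t)) f)
        (nB M (fun t => γ (ζ t)) g) s)
    (W X X₂ S : ℕ) (hW : W = M ^ k * Q) (hX : 59 * W ^ 10 ≤ X) (hX₂ : X * W ^ 3 ≤ X₂)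
    (hS : 4 * (W * X) * (W * X₂) < 2 ^ S) :
    ∃ lam : ℤ, ((Finset.univ.filter (B3 W X X₂ (W * X₂) (rX (k := k) (h := h) crt M α)
      (rY crt M β γ lam) (rZ crt M γ ν) T)).card : ℝ)
      ≤ 60000000 * S * ((k : ℝ) + 1) ^ 2 /
        (q * ((M : ℝ) ^ k) ^ 2 * (Q : ℝ) ^ 3 * (X * X₂ * ((W : ℝ) * X₂))) *
        (Fintype.card (Dat q k h Q × Fin X × Fin X₂ × Fin (W * X₂)) : ℝ) ^ 3 := by
  have hQ2 : 2 ≤ Q := (Fact.out : Q.Prime).two_le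
  have hm0 : 0 < M ^ k := by omega
  have hW2 : 2 ≤ W := by rw [hW]; nlinarith
  have hX0 : 0 < X := lt_of_lt_of_le (by positivity) hX
  have hWX : W * X ≤ X₂ := by
    refine le_trans ?_ hX₂
    rw [mul_comm]
    exact Nat.mul_le_mul_left _ (Nat.le_self_pow (by norm_num) W)
  have hX₂0 : 0 < X₂ := lt_of_lt_of_le (by positivity) hWX
  have hTW : 2 * T < W := by rw [hW]; nlinarith
  have hXS : X < 2 ^ S := by
    refine lt_of_le_of_lt ?_ hS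
    calc X = 1 * (1 * X) * 1 := by ring
      _ ≤ 4 * (W * X) * (W * X₂) := by
        gcongr
        · norm_num
        · omega
        · exact Nat.mul_pos (by omega) hX₂0
  have hS1 : 1 ≤ S := by
    rcases Nat.eq_zero_or_pos S with rfl | h0
    · simp at hXS; omega
    · exact h0
  have hA0 : ∀ ζ, IsCoprime (nA M k (α ζ)) (M : ℤ) := by
    intro ζ
    obtain ⟨c, hc⟩ := (dvd_pow_self (M : ℤ) hj0.ne').trans (hA ζ)
    exact ⟨1, -c, by linear_combination hc⟩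
  have hMjQ : M ^ j ≤ Q := by
    refine le_trans ?_ hQ
    calc M ^ j ≤ M ^ k := Nat.pow_le_pow_right hMp.pos hj
      _ ≤ (M ^ k) ^ 2 := Nat.le_self_pow (by norm_num) _
      _ ≤ _ := Nat.le_mul_of_pos_left _ hq0
  have hqr : (1 : ℝ) ≤ q := by exact_mod_cast hq0
  have hmr : (0 : ℝ) < (M : ℝ) ^ k := by exact_mod_cast hm0
  have hε' : ∀ i ≤ k, (M : ℝ) ^ i ≤ (1 / (q * ((M : ℝ) ^ k) ^ 2)) * (h : ℝ) ^ k
      * ((M : ℝ) ^ j) ^ 2 * ((h : ℝ) ^ i) ^ 2 := by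
    intro i hi
    have h1 : (q : ℝ) * ((M : ℝ) ^ k) ^ 2 * (M : ℝ) ^ i
        ≤ (h : ℝ) ^ k * ((M : ℝ) ^ j) ^ 2 * ((h : ℝ) ^ i) ^ 2 := by exact_mod_cast hε i hi
    calc (M : ℝ) ^ i = (1 / (q * ((M : ℝ) ^ k) ^ 2)) * (q * ((M : ℝ) ^ k) ^ 2 * (M : ℝ) ^ i) := by
          field_simp
      _ ≤ (1 / (q * ((M : ℝ) ^ k) ^ 2)) *
          ((h : ℝ) ^ k * ((M : ℝ) ^ j) ^ 2 * ((h : ℝ) ^ i) ^ 2) := by gcongr
      _ = _ := by ring
  set N : ℝ := (Fintype.card (Dat q k h Q) : ℝ) ^ 3 with hN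
  set U : ℝ := (X : ℝ) ^ 2 * (X₂ : ℝ) ^ 2 * ((W : ℝ) * X₂) ^ 2 with hU
  have hnum := theta_numeric (q := q) (m := (M : ℝ) ^ k) (Q := Q) (H := (h : ℝ) ^ k) (X := X)
    (X₂ := X₂) (X₃ := (W : ℝ) * X₂) (S := S) (κ := (k : ℝ) + 1) (N := N) hqr
    (by exact_mod_cast hq) (by exact_mod_cast hQ) (by positivity) (by positivity)
    (by rw [hW] at hX₂; exact_mod_cast hX₂) (by positivity) (by exact_mod_cast hS1)
    (by have : (0 : ℝ) ≤ k := Nat.cast_nonneg _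
        linarith) (card_Dat q k h Q)
  have hWr : (W : ℝ) = (M : ℝ) ^ k * Q := by rw [hW]; push_cast; ring
  have hcard : (Fintype.card (Dat q k h Q × Fin X × Fin X₂ × Fin (W * X₂)) : ℝ) ^ 3
      = N * (X * X₂ * ((W : ℝ) * X₂)) ^ 3 := by
    rw [Fintype.card_prod, hN]
    simp only [Fintype.card_prod (Fin _), Fintype.card_fin]
    push_cast
    ring
  rw [hcard]
  have hsum : ∑ lam ∈ Finset.range (M ^ k), ((Finset.univ.filter (B3 W X X₂ (W * X₂)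
      (rX (k := k) (h := h) crt M α) (rY crt M β γ (lam : ℕ)) (rZ crt M γ ν) T)).card : ℝ)
      ≤ ∑ _lam ∈ Finset.range (M ^ k), 60000000 * S * ((k : ℝ) + 1) ^ 2 /
        (q * ((M : ℝ) ^ k) ^ 2 * (Q : ℝ) ^ 3 * (X * X₂ * ((W : ℝ) * X₂))) *
        (N * (X * X₂ * ((W : ℝ) * X₂)) ^ 3) := by
    have s1 := sum_solv_le crt M α β γ ν hcrt hh hMp hM hM4 (ne_zero_of_nonsq hν) hA0 T hT hno
    have s2 := fun lam : ℕ => sum_xi_le crt M α β γ ν hcrt hh hMp hM h2 hν j hj0 hj hA hMjQ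
      (1 / (q * ((M : ℝ) ^ k) ^ 2)) (by positivity) hε' X S hXS lam
    rw [← hW] at s1 s2
    have s3 : ∀ lam : ℕ, ((Finset.univ.filter (B3 W X X₂ (W * X₂)
        (rX (k := k) (h := h) crt M α) (rY crt M β γ (lam : ℕ)) (rZ crt M γ ν) T)).card : ℝ)
        ≤ N * ((X : ℝ) ^ 3 * X₂ * ((W : ℝ) * X₂) ^ 2) + 1728 * U * ((q : ℝ) ^ 3 *
          (8 * ((54 * (Q : ℝ) ^ 2 + 150 * (k + 1) * (Q : ℝ) ^ 3 * (1 / (q * ((M : ℝ) ^ k) ^ 2)))
          * ((h : ℝ) ^ k) ^ 6) * S)) + S * 153600 * U / (W : ℝ) ^ 2 *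
          ∑ δ : Fin 3 → Dat q k h Q, (if Solv W T (fun t => rX crt M α (δ t))
            (fun t => rY crt M β γ lam (δ t)) (fun t => rZ crt M γ ν (δ t)) then
            sig W (fun t => rX crt M α (δ t)) (fun t => rY crt M β γ lam (δ t)) else 0) := by
      intro lam
      refine (count_triples W X X₂ (W * X₂) _ _ _ (by omega) T).trans ?_
      refine (Finset.sum_le_sum fun δ _ => free_count W X X₂ T S hW2 hX hWX hTW hS _ _ _
        (fun t => by rw [hW]; exact rX_coprime crt M α hcrt hA0 (δ t))).trans ?_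
      rw [Finset.sum_add_distrib, Finset.sum_add_distrib, Finset.sum_const, ← Finset.mul_sum,
        ← Finset.mul_sum, Finset.card_univ, Fintype.card_fun, Fintype.card_fin, nsmul_eq_mul]
      have := mul_le_mul_of_nonneg_left (s2 lam) (show 0 ≤ 1728 * U by positivity)
      push_cast
      rw [← hU, ← hN]
      linarith
    refine (Finset.sum_le_sum fun lam _ => s3 lam).trans ?_
    rw [Finset.sum_add_distrib, ← Finset.mul_sum, Finset.sum_const, Finset.sum_const,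
      Finset.card_range, nsmul_eq_mul, nsmul_eq_mul]
    have s4 := mul_le_mul_of_nonneg_left s1
      (show 0 ≤ S * 153600 * U / (W : ℝ) ^ 2 by positivity)
    have s5 := mul_le_mul_of_nonneg_left hnum hmr.le
    rw [← hWr, ← hU] at s5
    push_cast
    linarith
  obtain ⟨lam, -, hl⟩ := Finset.exists_le_of_sum_le ⟨0, Finset.mem_range.mpr hm0⟩ hsum
  exact ⟨lam, hl⟩

end Vale.Agent.P036
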