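import Vale.Agent.P036.AvgQ

/-! Averaging over the free digits and over the shear. -/

namespace Vale.Agent.P036

open Finset

theorem dyadic (w : (Fin 3 → ℤ) → ℝ) (hw : ∀ ξ, 0 ≤ w ξ) (Bc : ℝ)
    (h : ∀ Y : ℕ, 1 ≤ Y → ∑ ξ ∈ Box Y, w ξ ≤ Bc * (Y : ℝ) ^ 3) (X S : ℕ) (hX : X < 2 ^ S) :
    ∑ ξ ∈ Box X, w ξ / (nrm ξ : ℝ) ^ 3 ≤ 8 * Bc * S := by
  classical
  calc _ ≤ ∑ ξ ∈ Box X, ∑ s ∈ Finset.range S,
        (if ξ ∈ Box (2 ^ (s + 1)) then w ξ * (8 / ((2 ^ (s + 1) : ℕ) : ℝ) ^ 3) else 0) := by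
        apply Finset.sum_le_sum
        intro ξ hξ
        have hnn : ∀ s ∈ Finset.range S, 0 ≤ (if ξ ∈ Box (2 ^ (s + 1)) then
            w ξ * (8 / ((2 ^ (s + 1) : ℕ) : ℝ) ^ 3) else 0) := by
          intro s _
          have := hw ξ
          split_ifs <;> positivity
        rcases (nrm_nonneg ξ).eq_or_lt with h0 | h0
        · rw [← h0]
          simpa using Finset.sum_nonneg hnn
        obtain ⟨n, hn⟩ := Int.eq_ofNat_of_zero_le h0.le
        have hn0 : n ≠ 0 := by
          rintro rfl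
          simp [hn] at h0
        have hnX : n ≤ X := by
          have := mem_Box.mp hξ
          rw [hn] at this
          exact_mod_cast this
        have h1 : n < 2 ^ (Nat.log 2 n + 1) := Nat.lt_pow_succ_log_self (by norm_num) n
        have h2 : 2 ^ Nat.log 2 n ≤ n := Nat.pow_log_le_self 2 hn0
        have h3 : Nat.log 2 n < S := by
          apply (Nat.pow_lt_pow_iff_right (a := 2) (by norm_num)).mp
          omega
        refine le_trans ?_ (Finset.single_le_sum hnn (Finset.mem_range.mpr h3))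
        rw [if_pos (mem_Box.mpr (by rw [hn]; exact_mod_cast h1.le)), hn, div_eq_mul_one_div]
        apply mul_le_mul_of_nonneg_left _ (hw ξ)
        have h4 : ((2 ^ (Nat.log 2 n + 1) : ℕ) : ℝ) ≤ 2 * n := by
          have : 2 ^ (Nat.log 2 n + 1) ≤ 2 * n := by rw [pow_succ]; omega
          exact_mod_cast this
        have h5 : (0 : ℝ) < n := by positivity
        rw [div_le_div_iff₀ (by positivity) (by positivity)]
        push_cast at h4 ⊢
        calc _ = ((2 : ℝ) ^ (Nat.log 2 n + 1)) ^ 3 := by ring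
          _ ≤ (2 * n) ^ 3 := by gcongr
          _ = _ := by ring
    _ ≤ ∑ _s ∈ Finset.range S, 8 * Bc := by
        rw [Finset.sum_comm]
        apply Finset.sum_le_sum
        intro s _
        have hY : 1 ≤ 2 ^ (s + 1) := Nat.one_le_two_pow
        have hY' : (0 : ℝ) < ((2 ^ (s + 1) : ℕ) : ℝ) := by positivity
        rw [← Finset.sum_filter, ← Finset.sum_mul]
        have h1 : ∑ ξ ∈ (Box X).filter (fun ξ => ξ ∈ Box (2 ^ (s + 1))), w ξ
            ≤ ∑ ξ ∈ Box (2 ^ (s + 1)), w ξ :=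
          Finset.sum_le_sum_of_subset_of_nonneg (fun ξ hξ => (Finset.mem_filter.mp hξ).2)
            (fun ξ _ _ => hw ξ)
        calc _ ≤ (Bc * ((2 ^ (s + 1) : ℕ) : ℝ) ^ 3) * (8 / ((2 ^ (s + 1) : ℕ) : ℝ) ^ 3) :=
              mul_le_mul_of_nonneg_right (h1.trans (h _ hY)) (by positivity)
          _ = _ := by field_simp
    _ = _ := by
        rw [Finset.sum_const, Finset.card_range, nsmul_eq_mul]; ring

theorem card_dig (k h : ℕ) :
    ((Finset.univ : Finset (Fin 3 → Fin k → Fin h)).card : ℝ) = ((h : ℝ) ^ k) ^ 3 := by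
  rw [Finset.card_univ]
  simp only [Fintype.card_fun, Fintype.card_fin]
  push_cast
  ring

section
variable {p k h : ℕ} [NeZero p] {M : ℕ} {A : Fin 3 → ℤ}

open Classical in
theorem sum_sigM (hh : 0 < h) (hM : (p : ℤ) * h ≤ M) (hA : IsCoprime (A 0) (M : ℤ))
    (β : Fin 3 → ℕ → ZMod p) (δ : ℝ) (hδ : ∀ i ≤ k, (M : ℝ) ^ i ≤ δ * ((h : ℝ) ^ i) ^ 2) :
    ∑ f : Fin 3 → Fin k → Fin h, sigM M k A (nB M β f) ≤ (k + 1) * δ * ((h : ℝ) ^ k) ^ 3 := by
  unfold sigM
  rw [Finset.sum_comm]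
  have hh' : (0 : ℝ) < h := by exact_mod_cast hh
  calc _ ≤ ∑ _i ∈ Finset.range (k + 1), δ * ((h : ℝ) ^ k) ^ 3 := by
        apply Finset.sum_le_sum
        intro i hi
        have hik : i ≤ k := by simpa [Nat.lt_succ_iff] using hi
        rw [← Finset.sum_filter, Finset.sum_const, nsmul_eq_mul]
        calc _ ≤ (((h : ℝ) ^ k) ^ 3 / ((h : ℝ) ^ i) ^ 2) * (δ * ((h : ℝ) ^ i) ^ 2) :=
              mul_le_mul (count_cr hh M hM A hA β i hik) (hδ i hik) (by positivity)
                (by positivity)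
          _ = _ := by field_simp
    _ = _ := by
        rw [Finset.sum_const, Finset.card_range, nsmul_eq_mul]; push_cast; ring

open Classical in
theorem sig_total (hh : 0 < h) (hMp : M.Prime) (hM : (p : ℤ) * h ≤ M) (hM4 : M ≤ h ^ 4)
    (hA : IsCoprime (A 0) (M : ℤ)) (β γ : Fin 3 → ℕ → ZMod p) :
    ∑ lam ∈ Finset.range (M ^ k), ∑ f : Fin 3 → Fin k → Fin h, ∑ g : Fin 3 → Fin k → Fin h,
      sigM M k A (fun t => nB M β f t + (lam : ℤ) * nB M γ g t)
      ≤ 2 * ((k : ℝ) + 1) ^ 2 * (M : ℝ) ^ k * ((h : ℝ) ^ k) ^ 6 := by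
  have hh' : (0 : ℝ) < h := by exact_mod_cast hh
  have hM' : (0 : ℝ) < M := by exact_mod_cast hMp.pos
  have hM4' : (M : ℝ) ≤ (h : ℝ) ^ 4 := by exact_mod_cast hM4
  have step : ∀ B C : Fin 3 → ℤ, ∑ lam ∈ Finset.range (M ^ k),
      sigM M k A (fun t => B t + (lam : ℤ) * C t) ≤ ((k : ℝ) + 1) * (2 * (M : ℝ) ^ k) *
        ∑ i' ∈ Finset.range (k + 1), (if DvdCr ((M : ℤ) ^ i') A B then 1 else 0) *
          ((if DvdCr ((M : ℤ) ^ i') A C then 1 else 0) * (M : ℝ) ^ i') := by
    intro B C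
    unfold sigM
    rw [Finset.sum_comm]
    calc _ ≤ ∑ _i ∈ Finset.range (k + 1), 2 * (M : ℝ) ^ k * ∑ i' ∈ Finset.range (k + 1),
          (if DvdCr ((M : ℤ) ^ i') A B ∧ DvdCr ((M : ℤ) ^ i') A C then (M : ℝ) ^ i' else 0) := by
          apply Finset.sum_le_sum
          intro i hi
          have hik : i ≤ k := by simpa [Nat.lt_succ_iff] using hi
          rw [← Finset.sum_filter, Finset.sum_const, nsmul_eq_mul]
          exact shear_count M hMp k i hik A B C
      _ = _ := by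
          rw [Finset.sum_const, Finset.card_range, nsmul_eq_mul, ← mul_assoc]
          push_cast
          congr 1
          apply Finset.sum_congr rfl
          intro i _
          by_cases a : DvdCr ((M : ℤ) ^ i) A B <;> by_cases b : DvdCr ((M : ℤ) ^ i) A C <;>
            simp [a, b]
  rw [Finset.sum_comm]
  calc _ ≤ ∑ f : Fin 3 → Fin k → Fin h, ∑ g : Fin 3 → Fin k → Fin h,
        ((k : ℝ) + 1) * (2 * (M : ℝ) ^ k) * ∑ i' ∈ Finset.range (k + 1),
          (if DvdCr ((M : ℤ) ^ i') A (nB M β f) then 1 else 0) *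
          ((if DvdCr ((M : ℤ) ^ i') A (nB M γ g) then 1 else 0) * (M : ℝ) ^ i') := by
        apply Finset.sum_le_sum
        intro f _
        rw [Finset.sum_comm]
        exact Finset.sum_le_sum (fun g _ => step _ _)
    _ = ((k : ℝ) + 1) * (2 * (M : ℝ) ^ k) * ∑ i' ∈ Finset.range (k + 1),
          ((Finset.univ.filter (fun f : Fin 3 → Fin k → Fin h =>
            DvdCr ((M : ℤ) ^ i') A (nB M β f))).card : ℝ) *
          (((Finset.univ.filter (fun g : Fin 3 → Fin k → Fin h =>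
            DvdCr ((M : ℤ) ^ i') A (nB M γ g))).card : ℝ) * (M : ℝ) ^ i') := by
        simp only [← Finset.mul_sum]
        congr 1
        simp only [Finset.card_filter]
        push_cast
        simp only [Finset.sum_mul, Finset.mul_sum]
        rw [Finset.sum_comm]
        conv_rhs => rw [Finset.sum_comm]
        apply Finset.sum_congr rfl
        intro g _
        rw [Finset.sum_comm]
    _ ≤ ((k : ℝ) + 1) * (2 * (M : ℝ) ^ k) * ∑ _i ∈ Finset.range (k + 1), ((h : ℝ) ^ k) ^ 6 := by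
        apply mul_le_mul_of_nonneg_left _ (by positivity)
        apply Finset.sum_le_sum
        intro i hi
        have hik : i ≤ k := by simpa [Nat.lt_succ_iff] using hi
        have k1 := count_cr hh M hM A hA β i hik
        have k2 := count_cr hh M hM A hA γ i hik
        have k3 : (M : ℝ) ^ i ≤ ((h : ℝ) ^ 4) ^ i := by gcongr
        calc _ ≤ (((h : ℝ) ^ k) ^ 3 / ((h : ℝ) ^ i) ^ 2) *
              ((((h : ℝ) ^ k) ^ 3 / ((h : ℝ) ^ i) ^ 2) * ((h : ℝ) ^ 4) ^ i) := by gcongr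
          _ = _ := by
              rw [← pow_mul (h : ℝ) 4 i, mul_comm 4 i, pow_mul]
              field_simp
    _ = _ := by
        rw [Finset.sum_const, Finset.card_range, nsmul_eq_mul]; push_cast; ring

end

end Vale.Agent.P036
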