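import Vale.Agent.P036.Split

/-! Averaging over the residues modulo `Q`. -/

namespace Vale.Agent.P036

open Finset

open Classical in
/-- The number of residues modulo `Q` compatible with the relation vector `ξ`. -/
noncomputable def rho {Q : ℕ} [Fact Q.Prime] (ν : ZMod Q) (ξ : Fin 3 → ℤ) : ℝ :=
  ((Finset.univ.filter (Rel ν (red Q ξ))).card : ℝ)

theorem rho_nonneg {Q : ℕ} [Fact Q.Prime] (ν : ZMod Q) (ξ : Fin 3 → ℤ) : 0 ≤ rho ν ξ :=
  Nat.cast_nonneg _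

theorem red_ne_zero {Q : ℕ} [Fact Q.Prime] {ξ : Fin 3 → ℤ} (h : Prim ξ) :
    ∃ t, red Q ξ t ≠ 0 := by
  by_contra hc
  push Not at hc
  obtain ⟨y, hy⟩ := h
  have h1 := dot_red Q y ξ
  rw [hy] at h1
  simp [dot, hc] at h1

theorem ne_zero_of_nonsq {F : Type} [Field F] {ν : F} (hν : ¬ IsSquare ν) : ν ≠ 0 := by
  rintro rfl
  exact hν ⟨0, by simp⟩

open Classical in
theorem rho_le {Q : ℕ} [Fact Q.Prime] (h2 : (2 : ZMod Q) ≠ 0) {ν : ZMod Q} (hν : ¬ IsSquare ν)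
    {ξ : Fin 3 → ℤ} (h : Prim ξ) (h0 : ∀ t, ξ t ≠ 0) :
    rho ν ξ ≤ (if Bad2 Q ξ then (Q : ℝ) ^ 4 else 0) + 2 * (Q : ℝ) ^ 3 := by
  have hQ : (0 : ℝ) ≤ Q := Nat.cast_nonneg _
  split_ifs with hb
  · have := count_rel_any ν (red Q ξ) (red_ne_zero h)
    rw [ZMod.card] at this
    have h3 : 0 ≤ 2 * (Q : ℝ) ^ 3 := by positivity
    unfold rho
    linarith
  · have := count_rel_good h2 ν (ne_zero_of_nonsq hν) (red Q ξ) (red_ne_zero h) ?_
    · rw [ZMod.card] at this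
      unfold rho
      linarith
    · rintro ⟨t, a, b⟩
      apply hb
      refine ⟨h0, t, (ZMod.intCast_zmod_eq_zero_iff_dvd _ _).mp a, ?_⟩
      apply (ZMod.intCast_zmod_eq_zero_iff_dvd _ _).mp
      push_cast
      exact b

theorem rho_inv {Q : ℕ} [Fact Q.Prime] {ν : ZMod Q} (hν : ¬ IsSquare ν)
    {ξ : Fin 3 → ℤ} (h0 : ∀ t, ξ t ≠ 0) (hQ : nrm ξ < Q) (hs : ξ 0 + ξ 1 + ξ 2 = 0) :
    rho ν ξ ≤ (Q : ℝ) ^ 2 := by
  have := count_rel_inv ν hν (red Q ξ) ?_ ?_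
  · rw [ZMod.card] at this
    exact this
  · intro t ht
    apply h0 t
    exact Int.eq_zero_of_abs_lt_dvd ((ZMod.intCast_zmod_eq_zero_iff_dvd _ _).mp ht)
      ((abs_le_nrm ξ t).trans_lt hQ)
  · have := congrArg (fun z : ℤ => (z : ZMod Q)) hs
    simpa [red] using this

section
variable {Q : ℕ} [Fact Q.Prime] {ν : ZMod Q} {A B C : Fin 3 → ℤ} {lam : ℤ}
  {r₁ r₂ r₃ : (Fin 3 → (ZMod Q)ˣ) × (Fin 3 → ZMod Q) → Fin 3 → ℤ}

open Classical in
theorem sum_x_xi {m : ℕ} (X : ℕ) (h₁ : ∀ x, Lift m Q (r₁ x) A (uu x))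
    (h₂ : ∀ x, Lift m Q (r₂ x) (fun t => B t + lam * C t) x.2)
    (h₃ : ∀ x, Lift m Q (r₃ x) C (cq ν (uu x) x.2)) :
    ∑ x, ∑ ξ ∈ (Box X).filter (XiP (m * Q) (r₁ x) (r₂ x) (r₃ x)), 1 / (nrm ξ : ℝ) ^ 3
      ≤ ∑ ξ ∈ Box X, (if XiM m A B C ξ then rho ν ξ else 0) / (nrm ξ : ℝ) ^ 3 := by
  simp only [Finset.sum_filter]
  rw [Finset.sum_comm]
  apply Finset.sum_le_sum
  intro ξ _
  have hn : (0 : ℝ) ≤ 1 / (nrm ξ : ℝ) ^ 3 := by
    have : (0 : ℝ) ≤ (nrm ξ : ℝ) := by exact_mod_cast nrm_nonneg ξ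
    positivity
  rw [← Finset.sum_filter, Finset.sum_const, nsmul_eq_mul, div_eq_mul_one_div (ite _ _ _)]
  apply mul_le_mul_of_nonneg_right _ hn
  split_ifs with hM
  · unfold rho
    apply Nat.cast_le.mpr
    apply Finset.card_le_card
    intro x hx
    rw [Finset.mem_filter] at hx ⊢
    exact ⟨hx.1, (xi_split (h₁ x) (h₂ x) (h₃ x) hx.2).2⟩
  · rw [Finset.filter_false_of_mem]
    · simp
    · intro x _ hx
      exact hM (xi_split (h₁ x) (h₂ x) (h₃ x) hx).1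

open Classical in
theorem sum_x_solv {M k T : ℕ} (hM : M.Prime) (hT : 2 * T < M ^ k) (hν : ν ≠ 0)
    (h₁ : ∀ x, Lift (M ^ k) Q (r₁ x) A (uu x))
    (h₂ : ∀ x, Lift (M ^ k) Q (r₂ x) (fun t => B t + lam * C t) x.2)
    (h₃ : ∀ x, Lift (M ^ k) Q (r₃ x) C (cq ν (uu x) x.2)) :
    ∑ x, (if Solv (M ^ k * Q) T (r₁ x) (r₂ x) (r₃ x) then sig (M ^ k * Q) (r₁ x) (r₂ x) else 0)
      ≤ if ∃ s, SolvM ((M ^ k : ℕ) : ℤ) T A B C s then
          sigM M k A (fun t => B t + lam * C t) * (4 * (Q : ℝ) ^ 5) else 0 := by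
  split_ifs with hs
  · obtain ⟨s, hs1, hs2⟩ := hs
    have hσ := sigM_nonneg M k A (fun t => B t + lam * C t)
    have hQ : (0 : ℝ) ≤ Q := Nat.cast_nonneg _
    calc _ ≤ ∑ x : (Fin 3 → (ZMod Q)ˣ) × (Fin 3 → ZMod Q), sigM M k A (fun t => B t + lam * C t)
            * ((if DetEq ν (s : ZMod Q) x then 1 else 0) + if CrZero x then (Q : ℝ) else 0) := by
          apply Finset.sum_le_sum
          intro x _
          by_cases hx : Solv (M ^ k * Q) T (r₁ x) (r₂ x) (r₃ x)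
          · obtain ⟨s', ⟨a1, a2⟩, a3⟩ := solv_split (h₁ x) (h₂ x) (h₃ x) hx
            have e : s = s' := by
              apply eq_of_small hT hs1 a1
              have := dvd_sub a2 hs2
              simpa using this
            rw [if_pos hx, e, if_pos a3]
            exact sig_split hM (h₁ x) (h₂ x)
          · rw [if_neg hx]
            apply mul_nonneg hσ
            split_ifs <;> positivity
      _ ≤ _ := by
          rw [← Finset.mul_sum]
          apply mul_le_mul_of_nonneg_left _ hσ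
          rw [Finset.sum_add_distrib, ← Finset.sum_filter, ← Finset.sum_filter, Finset.sum_const,
            Finset.sum_const, nsmul_eq_mul, nsmul_eq_mul]
          have k1 := count_detEq ν (s : ZMod Q) hν
          have k2 := count_crZero (F := ZMod Q)
          rw [ZMod.card] at k1 k2
          have k3 := mul_le_mul_of_nonneg_right k2 hQ
          have e : (Q : ℝ) ^ 4 * Q = (Q : ℝ) ^ 5 := by ring
          linarith
  · apply le_of_eq
    apply Finset.sum_eq_zero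
    intro x _
    rw [if_neg]
    intro hx
    obtain ⟨s', a1, -⟩ := solv_split (h₁ x) (h₂ x) (h₃ x) hx
    exact hs ⟨s', a1⟩

end

end Vale.Agent.P036
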