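import Vale.Agent.P036.AvgM

/-! The average of the sum over relation vectors. -/

namespace Vale.Agent.P036

open Finset

section
variable {p k h : ℕ} [NeZero p] {M Q : ℕ} [Fact Q.Prime] {ν : ZMod Q} {A : Fin 3 → ℤ}

open Classical in
/-- The total weight of a relation vector. -/
noncomputable def wt (k h M : ℕ) (ν : ZMod Q) (A : Fin 3 → ℤ) (β γ : Fin 3 → ℕ → ZMod p)
    (ξ : Fin 3 → ℤ) : ℝ :=
  ∑ f : Fin 3 → Fin k → Fin h, ∑ g : Fin 3 → Fin k → Fin h,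
    if XiM ((M ^ k : ℕ) : ℤ) A (nB M β f) (nB M γ g) ξ then rho ν ξ else 0

omit [NeZero p] in
theorem wt_nonneg (β γ : Fin 3 → ℕ → ZMod p) (ξ : Fin 3 → ℤ) : 0 ≤ wt k h M ν A β γ ξ := by
  unfold wt
  refine Finset.sum_nonneg fun f _ => Finset.sum_nonneg fun g _ => ?_
  have := rho_nonneg ν ξ
  split_ifs <;> positivity

omit [NeZero p] in
theorem scale_small (hν : ¬ IsSquare ν) (j : ℕ) (hj : j ≤ k) (hA : ∀ t, (M : ℤ) ^ j ∣ A t - 1)
    (hQ : M ^ j ≤ Q) (β γ : Fin 3 → ℕ → ZMod p) (Y : ℕ) (hY : 1 ≤ Y) (hs : 3 * Y < M ^ j) :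
    ∑ ξ ∈ Box Y, wt k h M ν A β γ ξ ≤ 27 * (Q : ℝ) ^ 2 * ((h : ℝ) ^ k) ^ 6 * (Y : ℝ) ^ 3 := by
  have hY' : (1 : ℝ) ≤ Y := by exact_mod_cast hY
  calc _ ≤ ∑ _ξ ∈ Box Y, ((h : ℝ) ^ k) ^ 6 * (Q : ℝ) ^ 2 := by
        apply Finset.sum_le_sum
        intro ξ hξ
        unfold wt
        calc _ ≤ ∑ _f : Fin 3 → Fin k → Fin h, ∑ _g : Fin 3 → Fin k → Fin h, (Q : ℝ) ^ 2 := by
              refine Finset.sum_le_sum fun f _ => Finset.sum_le_sum fun g _ => ?_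
              split_ifs with hx
              · obtain ⟨-, a2, a3, -⟩ := hx
                have hn := mem_Box.mp hξ
                have hs' : 3 * (Y : ℤ) < (M : ℤ) ^ j := by exact_mod_cast hs
                have hQ' : (M : ℤ) ^ j ≤ Q := by exact_mod_cast hQ
                have hY0 : (0 : ℤ) ≤ Y := Int.natCast_nonneg _
                apply rho_inv hν a2 (by linarith)
                have b1 : (M : ℤ) ^ j ∣ dot ξ A := by
                  refine Dvd.dvd.trans ?_ a3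
                  push_cast
                  exact pow_dvd_pow _ hj
                have b2 : (M : ℤ) ^ j ∣ dot ξ A - dot ξ (fun _ => 1) :=
                  dot_congr (fun i => by simp) hA
                have b3 : (M : ℤ) ^ j ∣ ξ 0 + ξ 1 + ξ 2 := by
                  have := dvd_sub b1 b2
                  simpa [dot] using this
                apply Int.eq_zero_of_abs_lt_dvd b3
                have c0 := abs_le.mp (abs_le_nrm ξ 0)
                have c1 := abs_le.mp (abs_le_nrm ξ 1)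
                have c2 := abs_le.mp (abs_le_nrm ξ 2)
                rw [abs_lt]
                constructor <;> linarith [c0.1, c0.2, c1.1, c1.2, c2.1, c2.2]
              · positivity
          _ = _ := by
              rw [Finset.sum_const, Finset.sum_const, nsmul_eq_mul, nsmul_eq_mul, card_dig]
              ring
    _ ≤ _ := by
        rw [Finset.sum_const, nsmul_eq_mul, card_Box]
        have : (2 * (Y : ℝ) + 1) ^ 3 ≤ (3 * Y) ^ 3 := by gcongr; linarith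
        calc _ ≤ (3 * (Y : ℝ)) ^ 3 * (((h : ℝ) ^ k) ^ 6 * (Q : ℝ) ^ 2) := by gcongr
          _ = _ := by ring

open Classical in
theorem wt_le (hh : 0 < h) (hMp : M.Prime) (hM : (p : ℤ) * h ≤ M) (h2 : (2 : ZMod Q) ≠ 0)
    (hν : ¬ IsSquare ν) (β γ : Fin 3 → ℕ → ZMod p) (ξ : Fin 3 → ℤ) :
    wt k h M ν A β γ ξ ≤ ((h : ℝ) ^ k) ^ 6 * (if Bad2 Q ξ then (Q : ℝ) ^ 4 else 0)
      + 2 * (Q : ℝ) ^ 3 * ((h : ℝ) ^ k) ^ 2 * ∑ f : Fin 3 → Fin k → Fin h,
        if Perp2 ((M : ℤ) ^ k) A (nB M β f) ξ then 1 else 0 := by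
  have hb : (0 : ℝ) ≤ if Bad2 Q ξ then (Q : ℝ) ^ 4 else 0 := by split_ifs <;> positivity
  by_cases hξ : Prim ξ
  · unfold wt
    calc _ ≤ ∑ f : Fin 3 → Fin k → Fin h, ∑ g : Fin 3 → Fin k → Fin h,
          ((if Bad2 Q ξ then (Q : ℝ) ^ 4 else 0) + 2 * (Q : ℝ) ^ 3 *
            (if Perp2 ((M : ℤ) ^ k) A (nB M β f) ξ then 1 else 0) *
            (if (M : ℤ) ^ k ∣ dot ξ (nB M γ g) then 1 else 0)) := by
          refine Finset.sum_le_sum fun f _ => Finset.sum_le_sum fun g _ => ?_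
          by_cases hx : XiM ((M ^ k : ℕ) : ℤ) A (nB M β f) (nB M γ g) ξ
          · rw [if_pos hx]
            obtain ⟨a1, a2, a3, a4, a5⟩ := hx
            push_cast at a3 a4 a5
            rw [if_pos (show Perp2 ((M : ℤ) ^ k) A (nB M β f) ξ from ⟨a3, a4⟩), if_pos a5]
            have := rho_le h2 hν a1 a2
            linarith
          · rw [if_neg hx]
            apply add_nonneg hb
            split_ifs <;> positivity
      _ ≤ ∑ f : Fin 3 → Fin k → Fin h,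
          (((h : ℝ) ^ k) ^ 3 * (if Bad2 Q ξ then (Q : ℝ) ^ 4 else 0) + 2 * (Q : ℝ) ^ 3 *
            (if Perp2 ((M : ℤ) ^ k) A (nB M β f) ξ then 1 else 0) * ((h : ℝ) ^ k) ^ 2) := by
          refine Finset.sum_le_sum fun f _ => ?_
          rw [Finset.sum_add_distrib, Finset.sum_const, nsmul_eq_mul, card_dig, ← Finset.mul_sum]
          have k1 := count_dot (k := k) hh M hMp hM ξ hξ γ
          rw [Finset.card_filter] at k1
          push_cast at k1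
          have k2 : (0 : ℝ) ≤ 2 * (Q : ℝ) ^ 3 *
            (if Perp2 ((M : ℤ) ^ k) A (nB M β f) ξ then 1 else 0) := by
            split_ifs <;> positivity
          have := mul_le_mul_of_nonneg_left k1 k2
          linarith
      _ = _ := by
          rw [Finset.sum_add_distrib, Finset.sum_const, nsmul_eq_mul, card_dig, ← Finset.sum_mul,
            ← Finset.mul_sum]
          ring
  · have e : wt k h M ν A β γ ξ = 0 := by
      unfold wt
      refine Finset.sum_eq_zero fun f _ => Finset.sum_eq_zero fun g _ => ?_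
      rw [if_neg (fun hx => hξ hx.1)]
    rw [e]
    apply add_nonneg (by positivity)
    apply mul_nonneg (by positivity)
    refine Finset.sum_nonneg fun f _ => ?_
    split_ifs <;> positivity

theorem scale_large (hh : 0 < h) (hMp : M.Prime) (hM : (p : ℤ) * h ≤ M) (h2 : (2 : ZMod Q) ≠ 0)
    (hν : ¬ IsSquare ν) (hA : IsCoprime (A 0) (M : ℤ)) (j : ℕ) (hj : j ≤ k) (ε : ℝ) (hε0 : 0 ≤ ε)
    (hε : ∀ i ≤ k, (M : ℝ) ^ i ≤ ε * (h : ℝ) ^ k * ((M : ℝ) ^ j) ^ 2 * ((h : ℝ) ^ i) ^ 2)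
    (β γ : Fin 3 → ℕ → ZMod p) (Y : ℕ) (hY : 1 ≤ Y) (hs : M ^ j ≤ 3 * Y) :
    ∑ ξ ∈ Box Y, wt k h M ν A β γ ξ ≤ (54 * (Q : ℝ) ^ 2 + 150 * (k + 1) * (Q : ℝ) ^ 3 * ε)
      * ((h : ℝ) ^ k) ^ 6 * (Y : ℝ) ^ 3 := by
  classical
  have hY' : (1 : ℝ) ≤ Y := by exact_mod_cast hY
  have hQ0 : 0 < Q := (Fact.out : Q.Prime).pos
  have hQ' : (0 : ℝ) < Q := by exact_mod_cast hQ0
  have hM1 : (1 : ℝ) ≤ M := by exact_mod_cast hMp.one_le
  have hh' : (0 : ℝ) < h := by exact_mod_cast hh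
  refine (Finset.sum_le_sum fun ξ _ => wt_le hh hMp hM h2 hν β γ ξ).trans ?_
  rw [Finset.sum_add_distrib, ← Finset.mul_sum, ← Finset.mul_sum, Finset.sum_comm,
    ← Finset.sum_filter, Finset.sum_const, nsmul_eq_mul]
  have k1 := count_bad2 Q Y hQ0
  have k2 : ∑ f : Fin 3 → Fin k → Fin h, ∑ ξ ∈ Box Y,
      (if Perp2 ((M : ℤ) ^ k) A (nB M β f) ξ then (1 : ℝ) else 0)
      ≤ (3 * Y) * (5 * Y / (M : ℝ) ^ j) ^ 2 *
        ((k + 1) * (ε * (h : ℝ) ^ k * ((M : ℝ) ^ j) ^ 2) * ((h : ℝ) ^ k) ^ 3) := by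
    refine le_trans ?_ (mul_le_mul_of_nonneg_left (sum_sigM hh hM hA β _ hε) (by positivity))
    rw [Finset.mul_sum]
    refine Finset.sum_le_sum fun f _ => ?_
    have k3 := count_perp M hMp k Y A (nB M β f) hA
    rw [Finset.card_filter] at k3
    push_cast at k3
    refine k3.trans ?_
    apply mul_le_mul_of_nonneg_right _ (sigM_nonneg M k A (nB M β f))
    have a1 : 2 * (Y : ℝ) / (M : ℝ) ^ k ≤ 2 * Y / (M : ℝ) ^ j := by
      apply div_le_div_of_nonneg_left (by positivity) (by positivity)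
      exact pow_le_pow_right₀ hM1 hj
    have a2 : 1 ≤ 3 * (Y : ℝ) / (M : ℝ) ^ j := by
      rw [le_div_iff₀ (by positivity), one_mul]
      exact_mod_cast hs
    have a3 : 5 * (Y : ℝ) / (M : ℝ) ^ j = 2 * Y / (M : ℝ) ^ j + 3 * (Y : ℝ) / (M : ℝ) ^ j := by
      ring
    gcongr <;> linarith
  calc _ ≤ ((h : ℝ) ^ k) ^ 6 * ((54 * (Y : ℝ) ^ 3 / (Q : ℝ) ^ 2) * (Q : ℝ) ^ 4)
        + 2 * (Q : ℝ) ^ 3 * ((h : ℝ) ^ k) ^ 2 * ((3 * Y) * (5 * Y / (M : ℝ) ^ j) ^ 2 *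
        ((k + 1) * (ε * (h : ℝ) ^ k * ((M : ℝ) ^ j) ^ 2) * ((h : ℝ) ^ k) ^ 3)) := by gcongr
    _ = _ := by field_simp; ring

open Classical in
theorem xi_total (hh : 0 < h) (hMp : M.Prime) (hM : (p : ℤ) * h ≤ M) (h2 : (2 : ZMod Q) ≠ 0)
    (hν : ¬ IsSquare ν) (j : ℕ) (hj0 : 0 < j) (hj : j ≤ k) (hA : ∀ t, (M : ℤ) ^ j ∣ A t - 1)
    (hQ : M ^ j ≤ Q) (ε : ℝ) (hε0 : 0 ≤ ε)
    (hε : ∀ i ≤ k, (M : ℝ) ^ i ≤ ε * (h : ℝ) ^ k * ((M : ℝ) ^ j) ^ 2 * ((h : ℝ) ^ i) ^ 2)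
    (β γ : Fin 3 → ℕ → ZMod p) (X S : ℕ) (hX : X < 2 ^ S) :
    ∑ f : Fin 3 → Fin k → Fin h, ∑ g : Fin 3 → Fin k → Fin h, ∑ ξ ∈ Box X,
      (if XiM ((M ^ k : ℕ) : ℤ) A (nB M β f) (nB M γ g) ξ then rho ν ξ else 0) / (nrm ξ : ℝ) ^ 3
      ≤ 8 * ((54 * (Q : ℝ) ^ 2 + 150 * (k + 1) * (Q : ℝ) ^ 3 * ε) * ((h : ℝ) ^ k) ^ 6) * S := by
  have hA0 : IsCoprime (A 0) (M : ℤ) := by
    obtain ⟨c, hc⟩ := (dvd_pow_self (M : ℤ) hj0.ne').trans (hA 0)
    exact ⟨1, -c, by linear_combination hc⟩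
  refine le_trans (le_of_eq ?_) (dyadic (wt k h M ν A β γ) (wt_nonneg β γ) _ ?_ X S hX)
  · unfold wt
    simp only [Finset.sum_div]
    conv_rhs => rw [Finset.sum_comm]
    apply Finset.sum_congr rfl
    intro f _
    rw [Finset.sum_comm]
  · intro Y hY
    rcases lt_or_ge (3 * Y) (M ^ j) with hs | hs
    · refine (scale_small hν j hj hA hQ β γ Y hY hs).trans ?_
      have : (0 : ℝ) ≤ 150 * (k + 1) * (Q : ℝ) ^ 3 * ε := by positivity
      have : (0 : ℝ) ≤ (Q : ℝ) ^ 2 := by positivity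
      gcongr
      linarith
    · exact scale_large hh hMp hM h2 hν hA0 j hj ε hε0 hε β γ Y hY hs

end

end Vale.Agent.P036
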