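import Mathlib

/-! Integer vectors in dimension three, and lattice point counts on planes. -/

namespace Vale.Agent.P036

open Finset

/-- Dot product. -/
def dot {R : Type} [CommRing R] (a b : Fin 3 → R) : R := a 0 * b 0 + a 1 * b 1 + a 2 * b 2

/-- Cross product. -/
def cr {R : Type} [CommRing R] (a b : Fin 3 → R) : Fin 3 → R :=
  ![a 1 * b 2 - a 2 * b 1, a 2 * b 0 - a 0 * b 2, a 0 * b 1 - a 1 * b 0]

@[simp] theorem cr_0 {R : Type} [CommRing R] (a b : Fin 3 → R) :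
    cr a b 0 = a 1 * b 2 - a 2 * b 1 := rfl
@[simp] theorem cr_1 {R : Type} [CommRing R] (a b : Fin 3 → R) :
    cr a b 1 = a 2 * b 0 - a 0 * b 2 := rfl
@[simp] theorem cr_2 {R : Type} [CommRing R] (a b : Fin 3 → R) :
    cr a b 2 = a 0 * b 1 - a 1 * b 0 := rfl

theorem forall3 {P : Fin 3 → Prop} : (∀ i, P i) ↔ P 0 ∧ P 1 ∧ P 2 := by
  constructor
  · intro h; exact ⟨h 0, h 1, h 2⟩
  · rintro ⟨h0, h1, h2⟩ i
    fin_cases i
    · exact h0
    · exact h1
    · exact h2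

theorem exists3 {P : Fin 3 → Prop} : (∃ i, P i) ↔ P 0 ∨ P 1 ∨ P 2 := by
  constructor
  · rintro ⟨i, hi⟩
    fin_cases i
    · exact Or.inl hi
    · exact Or.inr (Or.inl hi)
    · exact Or.inr (Or.inr hi)
  · rintro (h | h | h)
    · exact ⟨0, h⟩
    · exact ⟨1, h⟩
    · exact ⟨2, h⟩

/-- Sup norm. -/
def nrm (v : Fin 3 → ℤ) : ℤ := max |v 0| (max |v 1| |v 2|)

theorem abs_le_nrm (v : Fin 3 → ℤ) (i : Fin 3) : |v i| ≤ nrm v := by
  revert i
  rw [forall3]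
  unfold nrm
  refine ⟨le_max_left _ _, ?_, ?_⟩
  · exact le_trans (le_max_left _ _) (le_max_right _ _)
  · exact le_trans (le_max_right _ _) (le_max_right _ _)

theorem nrm_le_iff {v : Fin 3 → ℤ} {Z : ℤ} : nrm v ≤ Z ↔ ∀ i, |v i| ≤ Z := by
  rw [forall3]
  unfold nrm
  simp only [max_le_iff]

theorem nrm_lt_iff {v : Fin 3 → ℤ} {Z : ℤ} : nrm v < Z ↔ ∀ i, |v i| < Z := by
  rw [forall3]
  unfold nrm
  simp only [max_lt_iff]

theorem exists_nrm (v : Fin 3 → ℤ) : ∃ i, |v i| = nrm v := by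
  unfold nrm
  rcases le_total |v 0| (max |v 1| |v 2|) with h | h
  · rw [max_eq_right h]
    rcases le_total |v 1| |v 2| with h' | h'
    · exact ⟨2, (max_eq_right h').symm⟩
    · exact ⟨1, (max_eq_left h').symm⟩
  · exact ⟨0, (max_eq_left h).symm⟩

theorem nrm_nonneg (v : Fin 3 → ℤ) : 0 ≤ nrm v := le_trans (abs_nonneg _) (abs_le_nrm v 0)

theorem one_le_nrm {v : Fin 3 → ℤ} (hv : v ≠ 0) : 1 ≤ nrm v := by
  by_contra h
  push Not at h
  apply hv
  funext i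
  have := abs_le_nrm v i
  have h2 : |v i| < 1 := lt_of_le_of_lt this h
  simpa using (Int.abs_lt_one_iff.mp h2)

theorem nrm_mul (g : ℤ) (v : Fin 3 → ℤ) : nrm (fun i => g * v i) = |g| * nrm v := by
  apply le_antisymm
  · rw [nrm_le_iff]
    intro i
    rw [abs_mul]
    exact mul_le_mul_of_nonneg_left (abs_le_nrm v i) (abs_nonneg _)
  · obtain ⟨i, hi⟩ := exists_nrm v
    rw [← hi, ← abs_mul]
    exact abs_le_nrm (fun i => g * v i) i

theorem nrm_cr_le (a b : Fin 3 → ℤ) : nrm (cr a b) ≤ 2 * nrm a * nrm b := by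
  have key : ∀ i j k l : Fin 3, |a i * b j - a k * b l| ≤ 2 * nrm a * nrm b := by
    intro i j k l
    have h1 : |a i * b j| ≤ nrm a * nrm b := by
      rw [abs_mul]
      exact mul_le_mul (abs_le_nrm a i) (abs_le_nrm b j) (abs_nonneg _) (nrm_nonneg a)
    have h2 : |a k * b l| ≤ nrm a * nrm b := by
      rw [abs_mul]
      exact mul_le_mul (abs_le_nrm a k) (abs_le_nrm b l) (abs_nonneg _) (nrm_nonneg a)
    have := abs_sub (a i * b j) (a k * b l)
    linarith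
  rw [nrm_le_iff, forall3]
  exact ⟨key _ _ _ _, key _ _ _ _, key _ _ _ _⟩

/-- Primitive vectors. -/
def Prim (v : Fin 3 → ℤ) : Prop := ∃ y : Fin 3 → ℤ, dot y v = 1

theorem Prim.ne_zero {v : Fin 3 → ℤ} (h : Prim v) : v ≠ 0 := by
  rintro rfl
  obtain ⟨y, hy⟩ := h
  simp [dot] at hy

theorem exists_prim {v : Fin 3 → ℤ} (hv : v ≠ 0) :
    ∃ (g : ℤ) (w : Fin 3 → ℤ), 0 < g ∧ Prim w ∧ ∀ i, v i = g * w i := by
  set g1 : ℤ := (Int.gcd (v 1) (v 2) : ℤ) with hg1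
  set g : ℤ := (Int.gcd (v 0) g1 : ℤ) with hg
  have hd0 : g ∣ v 0 := Int.gcd_dvd_left _ _
  have hdg : g ∣ g1 := Int.gcd_dvd_right _ _
  have hd1 : g ∣ v 1 := hdg.trans (Int.gcd_dvd_left _ _)
  have hd2 : g ∣ v 2 := hdg.trans (Int.gcd_dvd_right _ _)
  have hgne : g ≠ 0 := by
    intro h0
    apply hv
    funext i
    revert i
    rw [forall3]
    rw [h0] at hd0 hd1 hd2
    exact ⟨zero_dvd_iff.mp hd0, zero_dvd_iff.mp hd1, zero_dvd_iff.mp hd2⟩
  have hgpos : 0 < g := lt_of_le_of_ne (Int.natCast_nonneg _) (Ne.symm hgne)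
  obtain ⟨w0, hw0⟩ := hd0
  obtain ⟨w1, hw1⟩ := hd1
  obtain ⟨w2, hw2⟩ := hd2
  have b1 : g1 = v 1 * Int.gcdA (v 1) (v 2) + v 2 * Int.gcdB (v 1) (v 2) := Int.gcd_eq_gcd_ab _ _
  have b0 : g = v 0 * Int.gcdA (v 0) g1 + g1 * Int.gcdB (v 0) g1 := Int.gcd_eq_gcd_ab _ _
  refine ⟨g, ![w0, w1, w2], hgpos, ?_, ?_⟩
  · refine ⟨![Int.gcdA (v 0) g1, Int.gcdB (v 0) g1 * Int.gcdA (v 1) (v 2),
      Int.gcdB (v 0) g1 * Int.gcdB (v 1) (v 2)], ?_⟩
    simp only [dot, Matrix.cons_val_zero, Matrix.cons_val_one, Matrix.cons_val]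
    apply mul_left_cancel₀ hgne
    generalize Int.gcdA (v 0) g1 = A0 at *
    generalize Int.gcdB (v 0) g1 = B0 at *
    generalize Int.gcdA (v 1) (v 2) = A1 at *
    generalize Int.gcdB (v 1) (v 2) = B1 at *
    have : g * (A0 * w0 + B0 * A1 * w1 + B0 * B1 * w2)
        = v 0 * A0 + (v 1 * A1 + v 2 * B1) * B0 := by
      rw [hw0, hw1, hw2]; ring
    rw [this, ← b1, ← b0, mul_one]
  · rw [forall3]
    exact ⟨hw0, hw1, hw2⟩

/-- Two vectors orthogonal to a primitive vector have cross product a multiple of it. -/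
theorem cr_eq_mul {n v w : Fin 3 → ℤ} (hn : Prim n) (hv : dot n v = 0) (hw : dot n w = 0) :
    ∃ κ : ℤ, ∀ i, cr v w i = κ * n i := by
  obtain ⟨y, hy⟩ := hn
  refine ⟨dot y (cr v w), ?_⟩
  simp only [dot] at *
  rw [forall3]
  simp only [cr_0, cr_1, cr_2]
  refine ⟨?_, ?_, ?_⟩
  · linear_combination (-(v 1 * w 2 - v 2 * w 1)) * hy + (y 1 * w 2 - y 2 * w 1) * hv
      - (y 1 * v 2 - y 2 * v 1) * hw
  · linear_combination (-(v 2 * w 0 - v 0 * w 2)) * hy + (y 2 * w 0 - y 0 * w 2) * hv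
      - (y 2 * v 0 - y 0 * v 2) * hw
  · linear_combination (-(v 0 * w 1 - v 1 * w 0)) * hy + (y 0 * w 1 - y 1 * w 0) * hv
      - (y 0 * v 1 - y 1 * v 0) * hw

/-- A vector parallel to a primitive vector is a multiple of it. -/
theorem eq_mul_of_cr {n w : Fin 3 → ℤ} (hn : Prim n) (h : ∀ i, cr n w i = 0) :
    ∃ κ : ℤ, ∀ i, w i = κ * n i := by
  obtain ⟨y, hy⟩ := hn
  refine ⟨dot y w, ?_⟩
  have h0 := h 0
  have h1 := h 1
  have h2 := h 2
  simp only [dot, cr_0, cr_1, cr_2] at *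
  rw [forall3]
  refine ⟨?_, ?_, ?_⟩
  · linear_combination (-(w 0)) * hy - y 1 * h2 + y 2 * h1
  · linear_combination (-(w 1)) * hy + y 0 * h2 - y 2 * h0
  · linear_combination (-(w 2)) * hy - y 0 * h1 + y 1 * h0

/-- Separated points in an interval. -/
theorem card_le_of_sep {α : Type} (S : Finset α) (f : α → ℤ) (D Y : ℝ) (hD : 0 < D)
    (hY : 0 ≤ Y)
    (hsep : ∀ u ∈ S, ∀ v ∈ S, u ≠ v → D ≤ |((f u - f v : ℤ) : ℝ)|)
    (hdiam : ∀ u ∈ S, ∀ v ∈ S, |((f u - f v : ℤ) : ℝ)| ≤ Y) :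
    (S.card : ℝ) ≤ Y / D + 1 := by
  classical
  rcases S.eq_empty_or_nonempty with rfl | hne
  · simp; positivity
  obtain ⟨u0, hu0, hmin⟩ := S.exists_min_image f hne
  let g : α → ℕ := fun u => ⌊((f u - f u0 : ℤ) : ℝ) / D⌋₊
  have hnn : ∀ u ∈ S, (0 : ℝ) ≤ ((f u - f u0 : ℤ) : ℝ) / D := by
    intro u hu
    apply div_nonneg _ hD.le
    have := hmin u hu
    exact_mod_cast sub_nonneg.mpr this
  have hmaps : ∀ u ∈ S, g u ∈ Finset.range (⌊Y / D⌋₊ + 1) := by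
    intro u hu
    rw [Finset.mem_range, Nat.lt_succ_iff]
    apply Nat.floor_le_floor
    apply div_le_div_of_nonneg_right _ hD.le
    exact le_trans (le_abs_self _) (hdiam u hu u0 hu0)
  have hinj : Set.InjOn g S := by
    intro u hu v hv huv
    by_contra hne
    have hs := hsep u hu v hv hne
    have h1 := Nat.floor_le (hnn u hu)
    have h2 := Nat.lt_floor_add_one (((f u - f u0 : ℤ) : ℝ) / D)
    have h3 := Nat.floor_le (hnn v hv)
    have h4 := Nat.lt_floor_add_one (((f v - f u0 : ℤ) : ℝ) / D)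
    have huv' : (⌊((f u - f u0 : ℤ) : ℝ) / D⌋₊ : ℝ) = ⌊((f v - f u0 : ℤ) : ℝ) / D⌋₊ := by
      exact_mod_cast huv
    have hlt : |((f u - f u0 : ℤ) : ℝ) / D - ((f v - f u0 : ℤ) : ℝ) / D| < 1 := by
      rw [abs_lt]; constructor <;> linarith
    rw [← sub_div, abs_div, abs_of_pos hD, div_lt_one hD] at hlt
    have : ((f u - f u0 : ℤ) : ℝ) - ((f v - f u0 : ℤ) : ℝ) = ((f u - f v : ℤ) : ℝ) := by
      push_cast; ring
    rw [this] at hlt
    linarith
  have hc := Finset.card_le_card_of_injOn g hmaps hinj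
  rw [Finset.card_range] at hc
  have h1 : (S.card : ℝ) ≤ (⌊Y / D⌋₊ : ℝ) + 1 := by exact_mod_cast hc
  have h2 : (⌊Y / D⌋₊ : ℝ) ≤ Y / D := Nat.floor_le (div_nonneg hY hD.le)
  linarith

/-- Real-valued fibre counting. -/
theorem card_le_mul_of_fibers {α β : Type} [DecidableEq β] (S : Finset α) (T : Finset β)
    (f : α → β) (B : ℝ) (hmaps : ∀ u ∈ S, f u ∈ T)
    (hfib : ∀ t ∈ T, ((S.filter (fun u => f u = t)).card : ℝ) ≤ B) :
    (S.card : ℝ) ≤ T.card * B := by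
  rw [Finset.card_eq_sum_card_fiberwise hmaps]
  push_cast
  calc ∑ t ∈ T, ((S.filter (fun u => f u = t)).card : ℝ) ≤ ∑ _t ∈ T, B :=
        Finset.sum_le_sum hfib
    _ = T.card * B := by rw [Finset.sum_const, nsmul_eq_mul]

theorem nrm_eq_of_par {v w : Fin 3 → ℤ} {i : Fin 3} (hi : |v i| = nrm v) (hv : v ≠ 0)
    (h : ∀ l, cr v w l = 0) : |w i| = nrm w := by
  have hpos : 0 < |v i| := by rw [hi]; exact lt_of_lt_of_le zero_lt_one (one_le_nrm hv)
  have key : ∀ l, v i * w l = v l * w i := by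
    have h0 := h 0
    have h1 := h 1
    have h2 := h 2
    simp only [cr_0, cr_1, cr_2] at h0 h1 h2
    revert i
    rw [forall3]
    refine ⟨fun _ _ => ?_, fun _ _ => ?_, fun _ _ => ?_⟩ <;> rw [forall3] <;>
      refine ⟨?_, ?_, ?_⟩ <;> linarith
  apply le_antisymm (abs_le_nrm w i)
  rw [nrm_le_iff]
  intro l
  have h1 : |v i| * |w l| = |v l| * |w i| := by rw [← abs_mul, ← abs_mul, key l]
  have h2 : |v l| * |w i| ≤ |v i| * |w i| :=
    mul_le_mul_of_nonneg_right (hi ▸ abs_le_nrm v l) (abs_nonneg _)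
  rw [← h1] at h2
  exact le_of_mul_le_mul_left h2 hpos

/-- Core of the plane count: with a shortest vector `v` of the plane lattice. -/
theorem plane_core (n v : Fin 3 → ℤ) (hn : Prim n) (hv : v ≠ 0) (hnv : dot n v = 0)
    (hshort : ∀ w : Fin 3 → ℤ, w ≠ 0 → dot n w = 0 → nrm v ≤ nrm w)
    (S : Finset (Fin 3 → ℤ)) (Z : ℝ) (hvZ : (nrm v : ℝ) ≤ Z)
    (hperp : ∀ u ∈ S, ∀ u' ∈ S, dot n (u - u') = 0)
    (hdiam : ∀ u ∈ S, ∀ u' ∈ S, (nrm (u - u') : ℝ) ≤ Z) :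
    (S.card : ℝ) ≤ 2 * Z / nrm v + 8 * Z ^ 2 / nrm n := by
  classical
  have hv1 : (1 : ℝ) ≤ nrm v := by exact_mod_cast one_le_nrm hv
  have hn1 : (1 : ℝ) ≤ nrm n := by exact_mod_cast one_le_nrm hn.ne_zero
  have hZ : 0 ≤ Z := by linarith
  rcases S.eq_empty_or_nonempty with rfl | ⟨u0, hu0⟩
  · simp; positivity
  obtain ⟨i, hi⟩ := exists_nrm v
  obtain ⟨l, hl⟩ := exists_nrm n
  -- the line index
  let κ : (Fin 3 → ℤ) → ℤ := fun u => cr v (u - u0) l / n l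
  have hnl : n l ≠ 0 := by
    intro h0
    rw [h0, abs_zero] at hl
    have := one_le_nrm hn.ne_zero
    omega
  have hκ : ∀ u ∈ S, ∀ r, cr v (u - u0) r = κ u * n r := by
    intro u hu
    obtain ⟨c, hc⟩ := cr_eq_mul hn hnv (hperp u hu u0 hu0)
    have : κ u = c := by
      show cr v (u - u0) l / n l = c
      rw [hc l]
      exact Int.mul_ediv_cancel c hnl
    rw [this]; exact hc
  have hκb : ∀ u ∈ S, |(κ u : ℝ)| ≤ 2 * nrm v * Z / nrm n := by
    intro u hu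
    rw [le_div_iff₀ (by linarith)]
    have h1 : |κ u| * nrm n ≤ 2 * nrm v * nrm (u - u0) := by
      rw [← hl, ← abs_mul, ← hκ u hu l]
      exact le_trans (abs_le_nrm _ l) (nrm_cr_le _ _)
    have h2 : (|(κ u : ℝ)|) * nrm n ≤ 2 * nrm v * nrm (u - u0) := by exact_mod_cast h1
    have h3 := hdiam u hu u0 hu0
    nlinarith
  have hT : ((S.image κ).card : ℝ) ≤ (4 * nrm v * Z / nrm n) / 1 + 1 := by
    apply card_le_of_sep (S.image κ) id 1 _ one_pos (by positivity)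
    · intro a _ b _ hab
      have : (1 : ℤ) ≤ |a - b| := Int.one_le_abs (sub_ne_zero.mpr hab)
      simp only [id]
      exact_mod_cast this
    · intro a ha b hb
      obtain ⟨u, hu, rfl⟩ := Finset.mem_image.mp ha
      obtain ⟨u', hu', rfl⟩ := Finset.mem_image.mp hb
      simp only [id]
      have h1 := hκb u hu
      have h2 := hκb u' hu'
      push_cast
      have := abs_sub (κ u : ℝ) (κ u' : ℝ)
      have e : 4 * (nrm v : ℝ) * Z / nrm n = 2 * nrm v * Z / nrm n + 2 * nrm v * Z / nrm n := by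
        ring
      linarith
  have hfib : ∀ t ∈ S.image κ, ((S.filter (fun u => κ u = t)).card : ℝ) ≤ 2 * Z / nrm v := by
    intro t _
    have h := card_le_of_sep (S.filter (fun u => κ u = t)) (fun u => u i) (nrm v) Z
      (by linarith) hZ ?_ ?_
    · have : 1 ≤ Z / nrm v := by rw [le_div_iff₀ (by linarith)]; linarith
      have e : 2 * Z / nrm v = Z / nrm v + Z / nrm v := by ring
      linarith
    · intro u hu u' hu' hne
      rw [Finset.mem_filter] at hu hu'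
      have hpar : ∀ r, cr v (u - u') r = 0 := by
        intro r
        have h1 := hκ u hu.1 r
        have h2 := hκ u' hu'.1 r
        rw [hu.2] at h1
        rw [hu'.2] at h2
        have : cr v (u - u') r = cr v (u - u0) r - cr v (u' - u0) r := by
          revert r
          rw [forall3]
          refine ⟨fun _ _ => ?_, fun _ _ => ?_, fun _ _ => ?_⟩ <;>
            simp only [cr_0, cr_1, cr_2, Pi.sub_apply] <;> ring
        rw [this, h1, h2, sub_self]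
      have h1 := nrm_eq_of_par hi hv hpar
      have h2 := hshort (u - u') (sub_ne_zero.mpr hne) (hperp u hu.1 u' hu'.1)
      rw [← h1] at h2
      simp only [Pi.sub_apply] at h2
      exact_mod_cast h2
    · intro u hu u' hu'
      rw [Finset.mem_filter] at hu hu'
      have h1 := abs_le_nrm (u - u') i
      have h2 := hdiam u hu.1 u' hu'.1
      simp only [Pi.sub_apply] at h1
      have h3 : (|((u i - u' i : ℤ) : ℝ)|) ≤ (nrm (u - u') : ℝ) := by exact_mod_cast h1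
      linarith
  have h := card_le_mul_of_fibers S (S.image κ) κ _ (fun u hu => Finset.mem_image_of_mem κ hu)
    hfib
  have h2 : ((S.image κ).card : ℝ) * (2 * Z / nrm v)
      ≤ ((4 * nrm v * Z / nrm n) / 1 + 1) * (2 * Z / nrm v) :=
    mul_le_mul_of_nonneg_right hT (by positivity)
  have e : ((4 * (nrm v : ℝ) * Z / nrm n) / 1 + 1) * (2 * Z / nrm v)
      = 2 * Z / nrm v + 8 * Z ^ 2 / nrm n := by
    field_simp
    ring
  linarith

theorem exists_shortest (n w : Fin 3 → ℤ) (hw : w ≠ 0) (hnw : dot n w = 0) :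
    ∃ v : Fin 3 → ℤ, v ≠ 0 ∧ dot n v = 0 ∧
      ∀ w : Fin 3 → ℤ, w ≠ 0 → dot n w = 0 → nrm v ≤ nrm w := by
  classical
  have hex : ∃ k : ℕ, ∃ v : Fin 3 → ℤ, v ≠ 0 ∧ dot n v = 0 ∧ nrm v = k :=
    ⟨(nrm w).toNat, w, hw, hnw, (Int.toNat_of_nonneg (nrm_nonneg w)).symm⟩
  obtain ⟨v, hv, hnv, hk⟩ := Nat.find_spec hex
  refine ⟨v, hv, hnv, fun w' hw' hnw' => ?_⟩
  have := Nat.find_min' hex ⟨w', hw', hnw', (Int.toNat_of_nonneg (nrm_nonneg w')).symm⟩
  rw [hk]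
  have h2 : ((Nat.find hex : ℕ) : ℤ) ≤ ((nrm w').toNat : ℤ) := by exact_mod_cast this
  rwa [Int.toNat_of_nonneg (nrm_nonneg w')] at h2

/-- General plane count. -/
theorem plane_count (n : Fin 3 → ℤ) (hn : Prim n) (lam : ℝ) (hlam : 0 < lam)
    (hshort : ∀ w : Fin 3 → ℤ, w ≠ 0 → dot n w = 0 → lam ≤ nrm w)
    (S : Finset (Fin 3 → ℤ)) (Z : ℝ) (hZ : 0 ≤ Z)
    (hperp : ∀ u ∈ S, ∀ u' ∈ S, dot n (u - u') = 0)
    (hdiam : ∀ u ∈ S, ∀ u' ∈ S, (nrm (u - u') : ℝ) ≤ Z) :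
    (S.card : ℝ) ≤ 1 + 2 * Z / lam + 8 * Z ^ 2 / nrm n := by
  have hn1 : (1 : ℝ) ≤ nrm n := by exact_mod_cast one_le_nrm hn.ne_zero
  by_cases h1 : S.card ≤ 1
  · have : (S.card : ℝ) ≤ 1 := by exact_mod_cast h1
    have h2 : 0 ≤ 2 * Z / lam := by positivity
    have h3 : 0 ≤ 8 * Z ^ 2 / nrm n := by positivity
    linarith
  · push Not at h1
    obtain ⟨u, hu, u', hu', hne⟩ := Finset.one_lt_card.mp h1
    obtain ⟨v, hv, hnv, hs⟩ := exists_shortest n (u - u') (sub_ne_zero.mpr hne) (hperp u hu u' hu')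
    have hvZ : (nrm v : ℝ) ≤ Z := by
      have := hs (u - u') (sub_ne_zero.mpr hne) (hperp u hu u' hu')
      have h2 : (nrm v : ℝ) ≤ nrm (u - u') := by exact_mod_cast this
      exact h2.trans (hdiam u hu u' hu')
    have h := plane_core n v hn hv hnv hs S Z hvZ hperp hdiam
    have h2 : 2 * Z / nrm v ≤ 2 * Z / lam :=
      div_le_div_of_nonneg_left (by positivity) hlam (hshort v hv hnv)
    linarith

/-- Sharp plane count, when the plane lattice has two short independent vectors. -/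
theorem plane_sharp (n : Fin 3 → ℤ) (hn : Prim n) (w₁ w₂ : Fin 3 → ℤ)
    (h₁ : dot n w₁ = 0) (h₂ : dot n w₂ = 0) (hind : ∃ i, cr w₁ w₂ i ≠ 0)
    (S : Finset (Fin 3 → ℤ)) (Z : ℝ) (hw₁ : (nrm w₁ : ℝ) ≤ Z) (hw₂ : (nrm w₂ : ℝ) ≤ Z)
    (hperp : ∀ u ∈ S, ∀ u' ∈ S, dot n (u - u') = 0)
    (hdiam : ∀ u ∈ S, ∀ u' ∈ S, (nrm (u - u') : ℝ) ≤ Z) :
    (S.card : ℝ) ≤ 12 * Z ^ 2 / nrm n := by
  have hn1 : (1 : ℝ) ≤ nrm n := by exact_mod_cast one_le_nrm hn.ne_zero
  have hw1ne : w₁ ≠ 0 := by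
    rintro rfl
    obtain ⟨i, hi⟩ := hind
    apply hi
    revert i
    rw [forall3]
    simp
  have hw2ne : w₂ ≠ 0 := by
    rintro rfl
    obtain ⟨i, hi⟩ := hind
    apply hi
    revert i
    rw [forall3]
    simp
  obtain ⟨v, hv, hnv, hs⟩ := exists_shortest n w₁ hw1ne h₁
  have hv1 : (1 : ℝ) ≤ nrm v := by exact_mod_cast one_le_nrm hv
  have hvZ : (nrm v : ℝ) ≤ Z := by
    have h2 : (nrm v : ℝ) ≤ nrm w₁ := by exact_mod_cast hs w₁ hw1ne h₁
    linarith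
  have h := plane_core n v hn hv hnv hs S Z hvZ hperp hdiam
  -- one of the two vectors is not parallel to `v`
  have hex : ∃ w : Fin 3 → ℤ, dot n w = 0 ∧ (nrm w : ℝ) ≤ Z ∧ ∃ r, cr v w r ≠ 0 := by
    by_contra hcon
    push Not at hcon
    have e1 := hcon w₁ h₁ hw₁
    have e2 := hcon w₂ h₂ hw₂
    obtain ⟨i, hi⟩ := hind
    apply hi
    have a0 := e1 0
    have a1 := e1 1
    have a2 := e1 2
    have b0 := e2 0
    have b1 := e2 1
    have b2 := e2 2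
    simp only [cr_0, cr_1, cr_2] at a0 a1 a2 b0 b1 b2
    have hvv : ∃ l, v l ≠ 0 := by
      by_contra hc
      push Not at hc
      exact hv (funext hc)
    obtain ⟨l, hl⟩ := hvv
    apply mul_left_cancel₀ hl
    rw [mul_zero]
    clear hi hl
    revert l i
    rw [forall3]
    refine ⟨?_, ?_, ?_⟩ <;> rw [forall3] <;> simp only [cr_0, cr_1, cr_2] <;>
      refine ⟨?_, ?_, ?_⟩
    · linear_combination (w₂ 2) * a2 + (w₂ 1) * a1 + (w₁ 0) * b0
    · linear_combination (w₁ 1) * b0 - (w₂ 1) * a0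
    · linear_combination (w₁ 2) * b0 - (w₂ 2) * a0
    · linear_combination (w₁ 0) * b1 - (w₂ 0) * a1
    · linear_combination (w₂ 0) * a0 + (w₂ 2) * a2 + (w₁ 1) * b1
    · linear_combination (w₁ 2) * b1 - (w₂ 2) * a1
    · linear_combination (w₁ 0) * b2 - (w₂ 0) * a2
    · linear_combination (w₁ 1) * b2 - (w₂ 1) * a2
    · linear_combination (w₂ 1) * a1 + (w₂ 0) * a0 + (w₁ 2) * b2
  obtain ⟨w, hnw, hwZ, r, hr⟩ := hex
  obtain ⟨c, hc⟩ := cr_eq_mul hn hnv hnw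
  have hc0 : c ≠ 0 := by
    rintro rfl
    exact hr (by rw [hc r, zero_mul])
  have hc1 : 1 ≤ |c| := Int.one_le_abs hc0
  have hcr : nrm (cr v w) = |c| * nrm n := by
    rw [← nrm_mul]; congr 1; funext i; exact hc i
  have h3 : nrm n ≤ 2 * nrm v * nrm w := by
    have := nrm_cr_le v w
    have h4 := nrm_nonneg n
    nlinarith
  have h4 : (nrm n : ℝ) ≤ 2 * nrm v * nrm w := by exact_mod_cast h3
  have hZ : 0 ≤ Z := by linarith
  have h5 : 2 * Z / nrm v ≤ 4 * Z ^ 2 / nrm n := by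
    rw [div_le_div_iff₀ (by linarith) (by linarith)]
    have : (nrm n : ℝ) ≤ 2 * nrm v * Z := by nlinarith
    nlinarith
  have e : 12 * Z ^ 2 / (nrm n : ℝ) = 4 * Z ^ 2 / nrm n + 8 * Z ^ 2 / nrm n := by ring
  linarith

end Vale.Agent.P036
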