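import Mathlib

/-! The deletion method for pairs and triples. -/

namespace Vale.Agent.P036

open Finset

open Classical in
theorem card_comp_le {ι κ Ω : Type} [Fintype ι] [Fintype κ] [Fintype Ω] [DecidableEq ι]
    [DecidableEq κ] (i : ι → κ)
    (hi : Function.Injective i) (B : (ι → Ω) → Prop) :
    ((Finset.univ.filter (fun F : κ → Ω => B (F ∘ i))).card : ℝ)
        * (Fintype.card Ω : ℝ) ^ Fintype.card ι
      ≤ ((Finset.univ.filter B).card : ℝ) * (Fintype.card Ω : ℝ) ^ Fintype.card κ := by
  have h1 := Finset.card_le_card_of_injOn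
    (s := Finset.univ.filter (fun F : κ → Ω => B (F ∘ i)))
    (t := (Finset.univ.filter B) ×ˢ (Finset.univ : Finset ({x // x ∉ Set.range i} → Ω)))
    (fun F => (F ∘ i, fun x => F x.1)) ?_ ?_
  · rw [Finset.card_product, Finset.card_univ, Fintype.card_fun] at h1
    have h2 : Fintype.card {x // x ∉ Set.range i} + Fintype.card ι = Fintype.card κ := by
      rw [Fintype.card_subtype_compl]
      have h3 : Fintype.card {x // x ∈ Set.range i} = Fintype.card ι := by
        convert Set.card_range_of_injective hi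
      have h4 : Fintype.card ι ≤ Fintype.card κ := Fintype.card_le_of_injective i hi
      omega
    rw [← h2, pow_add, ← mul_assoc]
    apply mul_le_mul_of_nonneg_right _ (by positivity)
    exact_mod_cast h1
  · intro F hF
    simp only [Finset.coe_filter, Finset.mem_univ, true_and, Set.mem_ofPred_eq] at hF
    simp [hF]
  · intro F _ G _ e
    simp only [Prod.mk.injEq] at e
    funext x
    by_cases hx : x ∈ Set.range i
    · obtain ⟨y, rfl⟩ := hx
      exact congrFun e.1 y
    · exact congrFun e.2 ⟨x, hx⟩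

/-- Index tuples on which the configuration is bad. -/
def BadI {ι κ Ω : Type} (B : (ι → Ω) → Prop) (F : κ → Ω) (i : ι → κ) : Prop :=
  Function.Injective i ∧ B (F ∘ i)

open Classical in
theorem sum_badI {ι κ Ω : Type} [Fintype ι] [Fintype κ] [Fintype Ω] [Nonempty Ω]
    [DecidableEq ι] [DecidableEq κ]
    (B : (ι → Ω) → Prop) (p : ℝ) (hp : 0 ≤ p)
    (h : ((Finset.univ.filter B).card : ℝ) ≤ p * (Fintype.card Ω : ℝ) ^ Fintype.card ι) :
    ∑ F : κ → Ω, ((Finset.univ.filter (BadI B F)).card : ℝ)
      ≤ (Fintype.card κ : ℝ) ^ Fintype.card ι * p * (Fintype.card Ω : ℝ) ^ Fintype.card κ := by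
  have hΩ : (0 : ℝ) < Fintype.card Ω := by exact_mod_cast Fintype.card_pos
  have e1 : ∑ F : κ → Ω, ((Finset.univ.filter (BadI B F)).card : ℝ)
      = ∑ i : ι → κ, ((Finset.univ.filter (fun F : κ → Ω => BadI B F i)).card : ℝ) := by
    simp only [Finset.card_filter]
    push_cast
    exact Finset.sum_comm
  rw [e1]
  calc _ ≤ ∑ _i : ι → κ, p * (Fintype.card Ω : ℝ) ^ Fintype.card κ := by
        apply Finset.sum_le_sum
        intro i _
        by_cases hi : Function.Injective i
        · have h1 := card_comp_le i hi B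
          have h2 : (Finset.univ.filter (fun F : κ → Ω => BadI B F i))
              = Finset.univ.filter (fun F : κ → Ω => B (F ∘ i)) := by
            apply Finset.filter_congr
            intro F _
            simp [BadI, hi]
          rw [h2]
          have h3 : (0 : ℝ) < (Fintype.card Ω : ℝ) ^ Fintype.card ι := by positivity
          apply le_of_mul_le_mul_right _ h3
          calc _ ≤ _ := h1
            _ ≤ (p * (Fintype.card Ω : ℝ) ^ Fintype.card ι)
                * (Fintype.card Ω : ℝ) ^ Fintype.card κ := by gcongr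
            _ = _ := by ring
        · rw [Finset.filter_false_of_mem (fun F _ hF => hi hF.1)]
          simp only [Finset.card_empty, Nat.cast_zero]
          positivity
    _ = _ := by
        rw [Finset.sum_const, Finset.card_univ, Fintype.card_fun, nsmul_eq_mul]
        push_cast
        ring

open Classical in
theorem deletion {Ω : Type} [Fintype Ω] [Nonempty Ω] (B2 : (Fin 2 → Ω) → Prop)
    (B3 : (Fin 3 → Ω) → Prop) (p2 p3 : ℝ) (hp2 : 0 ≤ p2) (hp3 : 0 ≤ p3)
    (h2 : ((Finset.univ.filter B2).card : ℝ) ≤ p2 * (Fintype.card Ω : ℝ) ^ 2)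
    (h3 : ((Finset.univ.filter B3).card : ℝ) ≤ p3 * (Fintype.card Ω : ℝ) ^ 3)
    (n : ℕ) (hn : (2 * n : ℝ) ^ 2 * p2 + (2 * n : ℝ) ^ 3 * p3 ≤ n) :
    ∃ (F : Fin (2 * n) → Ω) (I : Finset (Fin (2 * n))), I.card = n ∧
      (∀ i : Fin 2 → Fin (2 * n), Function.Injective i → (∀ t, i t ∈ I) → ¬ B2 (F ∘ i)) ∧
      (∀ i : Fin 3 → Fin (2 * n), Function.Injective i → (∀ t, i t ∈ I) → ¬ B3 (F ∘ i)) := by
  have k2 := sum_badI (κ := Fin (2 * n)) B2 p2 hp2 (by simpa using h2)
  have k3 := sum_badI (κ := Fin (2 * n)) B3 p3 hp3 (by simpa using h3)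
  simp only [Fintype.card_fin] at k2 k3
  have hΩ : (0 : ℝ) ≤ (Fintype.card Ω : ℝ) ^ (2 * n) := by positivity
  have k4 : ∑ F : Fin (2 * n) → Ω, (((Finset.univ.filter (BadI B2 F)).card : ℝ)
      + ((Finset.univ.filter (BadI B3 F)).card : ℝ)) ≤ ∑ _F : Fin (2 * n) → Ω, (n : ℝ) := by
    rw [Finset.sum_add_distrib, Finset.sum_const, Finset.card_univ, Fintype.card_fun,
      nsmul_eq_mul, Fintype.card_fin]
    push_cast at k2 k3 ⊢
    have := mul_le_mul_of_nonneg_right hn hΩ
    nlinarith
  obtain ⟨F, -, hF⟩ := Finset.exists_le_of_sum_le Finset.univ_nonempty k4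
  set D : Finset (Fin (2 * n)) := ((Finset.univ.filter (BadI B2 F)).image (fun i => i 0)) ∪
    ((Finset.univ.filter (BadI B3 F)).image (fun i => i 0)) with hD
  have hDc : D.card ≤ n := by
    have a1 : D.card ≤ (Finset.univ.filter (BadI B2 F)).card
        + (Finset.univ.filter (BadI B3 F)).card :=
      (Finset.card_union_le _ _).trans (add_le_add Finset.card_image_le Finset.card_image_le)
    have a2 : (Finset.univ.filter (BadI B2 F)).card
        + (Finset.univ.filter (BadI B3 F)).card ≤ n := by exact_mod_cast hF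
    omega
  have hC : n ≤ Dᶜ.card := by
    rw [Finset.card_compl, Fintype.card_fin]
    omega
  obtain ⟨I, hI, hIc⟩ := Finset.exists_subset_card_eq hC
  refine ⟨F, I, hIc, ?_, ?_⟩
  · intro i hi hm hb
    have := Finset.mem_compl.mp (hI (hm 0))
    apply this
    rw [hD, Finset.mem_union]
    left
    exact Finset.mem_image.mpr ⟨i, Finset.mem_filter.mpr ⟨Finset.mem_univ _, hi, hb⟩, rfl⟩
  · intro i hi hm hb
    have := Finset.mem_compl.mp (hI (hm 0))
    apply this
    rw [hD, Finset.mem_union]
    right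
    exact Finset.mem_image.mpr ⟨i, Finset.mem_filter.mpr ⟨Finset.mem_univ _, hi, hb⟩, rfl⟩

end Vale.Agent.P036
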