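import Vale.Agent.P036.Space
import Vale.Agent.P036.Deletion

/-! From the counts to a planar point set. -/

namespace Vale.Agent.P036

open Finset

theorem area_formula (c₂ c₃ x₁ x₂ x₃ y₁ y₂ y₃ z₁ z₂ z₃ : ℝ) (h₁ : x₁ ≠ 0) (h₂ : x₂ ≠ 0)
    (h₃ : x₃ ≠ 0) :
    (c₂ * y₂ / x₂ - c₂ * y₁ / x₁) * (c₃ * z₃ / x₃ - c₃ * z₁ / x₁)
      - (c₃ * z₂ / x₂ - c₃ * z₁ / x₁) * (c₂ * y₃ / x₃ - c₂ * y₁ / x₁)
      = c₂ * c₃ * ((x₂ * y₃ - x₃ * y₂) * z₁ + (x₃ * y₁ - x₁ * y₃) * z₂ + (x₁ * y₂ - x₂ * y₁) * z₃)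
        / (x₁ * x₂ * x₃) := by
  field_simp
  ring

theorem project {κ : Type} (I : Finset κ) (N₁ N₂ N₃ : ℝ) (h₁ : 0 < N₁) (h₂ : 0 < N₂)
    (h₃ : 0 < N₃) (τ : ℝ) (x y z : κ → ℤ) (hx : ∀ i, N₁ ≤ x i ∧ x i ≤ 2 * N₁)
    (hy : ∀ i, 0 ≤ y i ∧ y i ≤ N₂) (hz : ∀ i, 0 ≤ z i ∧ z i ≤ N₃)
    (hp : ∀ i ∈ I, ∀ j ∈ I, i ≠ j → x i * y j ≠ x j * y i)
    (ht : ∀ i ∈ I, ∀ j ∈ I, ∀ l ∈ I, i ≠ j → j ≠ l → i ≠ l → τ ≤
      |((x j * y l - x l * y j) * z i + (x l * y i - x i * y l) * z j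
        + (x i * y j - x j * y i) * z l : ℤ)|) :
    ∃ P : Finset (ℝ × ℝ), P.card = I.card ∧
      (∀ u ∈ P, u.1 ∈ Set.Icc (0 : ℝ) 1 ∧ u.2 ∈ Set.Icc (0 : ℝ) 1) ∧
      ∀ u ∈ P, ∀ v ∈ P, ∀ w ∈ P, u ≠ v → v ≠ w → u ≠ w → τ / (16 * (N₁ * N₂ * N₃)) ≤
        |(v.1 - u.1) * (w.2 - u.2) - (v.2 - u.2) * (w.1 - u.1)| / 2 := by
  classical
  have hx0 : ∀ i, (0 : ℝ) < x i := fun i => lt_of_lt_of_le h₁ (hx i).1
  refine ⟨I.image (fun i => (N₁ / N₂ * y i / x i, N₁ / N₃ * z i / x i)), ?_, ?_, ?_⟩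
  · apply Finset.card_image_of_injOn
    intro i hi j hj e
    by_contra hne
    apply hp i hi j hj hne
    simp only [Prod.mk.injEq] at e
    have e1 := e.1
    have a := hx0 i
    have b := hx0 j
    field_simp at e1
    have : (x i : ℝ) * y j = x j * y i := by linarith
    exact_mod_cast this
  · intro u hu
    obtain ⟨i, -, rfl⟩ := Finset.mem_image.mp hu
    have a := hx0 i
    have b : (0 : ℝ) ≤ y i := by exact_mod_cast (hy i).1
    have c : (0 : ℝ) ≤ z i := by exact_mod_cast (hz i).1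
    refine ⟨⟨by positivity, ?_⟩, by positivity, ?_⟩
    · rw [div_le_one a]
      calc N₁ / N₂ * y i ≤ N₁ / N₂ * N₂ := by gcongr; exact (hy i).2
        _ = N₁ := by field_simp
        _ ≤ _ := (hx i).1
    · rw [div_le_one a]
      calc N₁ / N₃ * z i ≤ N₁ / N₃ * N₃ := by gcongr; exact (hz i).2
        _ = N₁ := by field_simp
        _ ≤ _ := (hx i).1
  · intro u hu v hv w hw huv hvw huw
    obtain ⟨i, hi, rfl⟩ := Finset.mem_image.mp hu
    obtain ⟨j, hj, rfl⟩ := Finset.mem_image.mp hv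
    obtain ⟨l, hl, rfl⟩ := Finset.mem_image.mp hw
    have k := ht i hi j hj l hl (fun e => huv (by rw [e])) (fun e => hvw (by rw [e]))
      (fun e => huw (by rw [e]))
    push_cast at k
    have a := hx0 i
    have b := hx0 j
    have c := hx0 l
    simp only
    rw [area_formula _ _ _ _ _ _ _ _ _ _ _ a.ne' b.ne' c.ne', abs_div, abs_mul,
      abs_of_pos (show 0 < N₁ / N₂ * (N₁ / N₃) by positivity),
      abs_of_pos (show (0 : ℝ) < x i * x j * x l by positivity)]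
    set t := |((x j : ℝ) * y l - x l * y j) * z i + (x l * y i - x i * y l) * z j
        + (x i * y j - x j * y i) * z l| with htt
    have t0 : 0 ≤ t := abs_nonneg _
    calc _ ≤ t / (16 * (N₁ * N₂ * N₃)) := by gcongr
      _ = N₁ / N₂ * (N₁ / N₃) * t / ((2 * N₁) * (2 * N₁) * (2 * N₁)) / 2 := by
          field_simp; ring
      _ ≤ _ := by
          gcongr
          · exact (hx i).2
          · exact (hx j).2
          · exact (hx l).2

open Classical in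
theorem exists_points {D : Type} [Fintype D] [Nonempty D] (W X X₂ X₃ T : ℕ) (rx ry rz : D → ℤ)
    (hW : 0 < W) (hX : 0 < X) (hX₂ : W * X ≤ X₂) (hX₃ : 0 < X₃)
    (hlog : 1 + Real.log (2 * W * X) ≤ 16 * (W : ℝ) ^ 2) (hr : ∀ d, IsCoprime (rx d) (W : ℤ))
    (p3 : ℝ) (hp3 : 0 ≤ p3)
    (h3 : ((Finset.univ.filter (B3 W X X₂ X₃ rx ry rz T)).card : ℝ)
      ≤ p3 * (Fintype.card (D × Fin X × Fin X₂ × Fin X₃) : ℝ) ^ 3)
    (n : ℕ) (c2 : 640 * n * W ≤ X * X₂) (c3 : 16 * (n : ℝ) ^ 2 * p3 ≤ 1) :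
    ∃ P : Finset (ℝ × ℝ), P.card = n ∧
      (∀ u ∈ P, u.1 ∈ Set.Icc (0 : ℝ) 1 ∧ u.2 ∈ Set.Icc (0 : ℝ) 1) ∧
      ∀ u ∈ P, ∀ v ∈ P, ∀ w ∈ P, u ≠ v → v ≠ w → u ≠ w →
        (T + 1) / (16 * (((W : ℝ) * X) * (W * X₂) * (W * X₃))) ≤
        |(v.1 - u.1) * (w.2 - u.2) - (v.2 - u.2) * (w.1 - u.1)| / 2 := by
  have hX₂0 : 0 < X₂ := lt_of_lt_of_le (by positivity) hX₂
  have : Nonempty (Fin X) := ⟨⟨0, hX⟩⟩
  have : Nonempty (Fin X₂) := ⟨⟨0, hX₂0⟩⟩
  have : Nonempty (Fin X₃) := ⟨⟨0, hX₃⟩⟩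
  have hXr : (0 : ℝ) < X := by exact_mod_cast hX
  have hX₂r : (0 : ℝ) < X₂ := by exact_mod_cast hX₂0
  have hn0 : (0 : ℝ) ≤ n := Nat.cast_nonneg _
  obtain ⟨F, I, hI, k2, k3⟩ := deletion (B2 W X X₂ X₃ rx ry) (B3 W X X₂ X₃ rx ry rz T)
    (80 * W / (X * X₂)) p3 (by positivity) hp3 (by
      refine (count_pairs W X X₂ X₃ rx ry hW hX hX₂ hlog hr).trans (le_of_eq ?_)
      simp only [Fintype.card_prod, Fintype.card_fin]
      push_cast
      field_simp) h3 n (by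
      have a1 : (640 * n * W : ℝ) ≤ X * X₂ := by exact_mod_cast c2
      have a2 : (2 * n : ℝ) ^ 2 * (80 * W / (X * X₂)) ≤ n / 2 := by
        rw [← mul_div_assoc, div_le_iff₀ (by positivity)]
        nlinarith
      have a3 : (2 * n : ℝ) ^ 3 * p3 ≤ n / 2 := by nlinarith
      linarith)
  have hpair : ∀ i ∈ I, ∀ j ∈ I, i ≠ j → px W X X₂ X₃ rx (F i) * py W X X₂ X₃ ry (F j)
      ≠ px W X X₂ X₃ rx (F j) * py W X X₂ X₃ ry (F i) := by
    intro i hi j hj hne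
    refine k2 ![i, j] ?_ ?_
    · intro a b hab
      fin_cases a <;> fin_cases b <;> simp_all
    · intro t
      fin_cases t <;> simpa
  rw [← hI]
  apply project I _ _ _ (by positivity) (by positivity) (by positivity) _
    (fun i => px W X X₂ X₃ rx (F i)) (fun i => py W X X₂ X₃ ry (F i))
    (fun i => pz W X X₂ X₃ rz (F i)) ?_ ?_ ?_ hpair
  · intro i hi j hj l hl hij hjl hil
    have k4 := k3 ![i, j, l] ?_ ?_
    · unfold B3 BadT Small at k4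
      rw [not_and, not_le] at k4
      have k5 := k4 ?_
      · have : (T : ℤ) + 1 ≤ _ := k5
        simp only [dot, cr_0, cr_1, cr_2, Function.comp, Matrix.cons_val_zero,
          Matrix.cons_val_one, Matrix.cons_val] at this
        exact_mod_cast this
      · rw [forall3]
        simp only [cr_0, cr_1, cr_2, Function.comp, Matrix.cons_val_zero,
          Matrix.cons_val_one, Matrix.cons_val]
        exact ⟨sub_ne_zero.mpr (hpair j hj l hl hjl), sub_ne_zero.mpr (hpair l hl i hi hil.symm),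
          sub_ne_zero.mpr (hpair i hi j hj hij)⟩
    · intro a b hab
      fin_cases a <;> fin_cases b <;> simp_all
    · intro t
      fin_cases t <;> simpa
  · intro i
    have := (mem_Cl.mp (fr_mem (W * X) hW (rx (F i).1) (F i).2.1)).1
    constructor
    · exact_mod_cast this.1
    · have h1 : px W X X₂ X₃ rx (F i) ≤ 2 * (W * X) := by unfold px; linarith [this.2]
      exact_mod_cast h1
  · intro i
    have := (mem_Cl.mp (fr_mem 0 hW (ry (F i).1) (F i).2.2.1)).1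
    refine ⟨this.1, ?_⟩
    have h1 : py W X X₂ X₃ ry (F i) ≤ W * X₂ := by unfold py; linarith [this.2]
    exact_mod_cast h1
  · intro i
    have := (mem_Cl.mp (fr_mem 0 hW (rz (F i).1) (F i).2.2.2)).1
    refine ⟨this.1, ?_⟩
    have h1 : pz W X X₂ X₃ rz (F i) ≤ W * X₃ := by unfold pz; linarith [this.2]
    exact_mod_cast h1

end Vale.Agent.P036
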