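import Vale.Agent.P036.Assemble
import Vale.Agent.P036.Points

/-! The construction for admissible parameters. -/

namespace Vale.Agent.P036

open Finset

theorem digits_one {p : ℕ} [Fact p.Prime] (M : ℤ) (j K : ℕ) (α : ℕ → ZMod p)
    (h0 : α 0 = 1) (h1 : ∀ i, 0 < i → i < j → α i = 0) (hj : 0 < j) :
    M ^ j ∣ nA M (j + K) α - 1 := by
  unfold nA num
  obtain ⟨j', rfl⟩ : ∃ j', j = j' + 1 := ⟨j - 1, by omega⟩
  rw [show j' + 1 + K = (j' + K) + 1 by ring, Finset.sum_range_succ']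
  simp only [h0, ZMod.val_one, Nat.cast_one, pow_zero, mul_one, add_sub_cancel_right]
  apply Finset.dvd_sum
  intro i _
  rcases lt_or_ge (i + 1) (j' + 1) with h | h
  · rw [h1 (i + 1) (by omega) h]
    simp
  · exact Dvd.dvd.mul_left (pow_dvd_pow _ h) _

theorem digits_no {p q h : ℕ} [Fact p.Prime] (hh : 0 < h) (M J : ℕ) (hM2 : 2 ≤ M)
    (hM : 12 * (J + 1) ^ 3 * (p * (p * h) * (p * h)) ≤ M) (α β γ : Fin q → ℕ → ZMod p)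
    (htop : ∀ ζ : Fin 3 → Fin q, ζ 0 ≠ ζ 1 → ζ 1 ≠ ζ 2 → ζ 2 ≠ ζ 0 →
      topdet J (fun t => α (ζ t)) (fun t => β (ζ t)) (fun t => γ (ζ t)) ≠ 0)
    (ζ : Fin 3 → Fin q) (hζ : Dist ζ) (f g : Fin 3 → Fin (J + 1) → Fin h) (s : ℤ) :
    ¬ SolvM ((M ^ (J + 1) : ℕ) : ℤ) (M ^ J / 2) (fun t => nA M (J + 1) (α (ζ t)))
      (nB M (fun t => β (ζ t)) f) (nB M (fun t => γ (ζ t)) g) s := by
  rintro ⟨h1, h2⟩
  have hp : NeZero p := ⟨(Fact.out : p.Prime).ne_zero⟩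
  push_cast at h2
  refine not_small_of_topdet M J p (p * h) (fun t i => ((α (ζ t) i).val : ℤ))
    (fun t => dg (β (ζ t)) (f t)) (fun t => dg (γ (ζ t)) (g t)) ?_ ?_ ?_ (by exact_mod_cast hM2)
    (by exact_mod_cast hM) ?_ s ?_ h2
  · intro t i
    exact ⟨Int.natCast_nonneg _, by exact_mod_cast (ZMod.val_lt _).le⟩
  · intro t i
    exact ⟨(dg_bound hh _ _ i).1, (dg_bound hh _ _ i).2.le⟩
  · intro t i
    exact ⟨(dg_bound hh _ _ i).1, (dg_bound hh _ _ i).2.le⟩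
  · intro h0
    apply htop ζ hζ.1 hζ.2.1 hζ.2.2
    have := topdet_cast p J (fun t i => ((α (ζ t) i).val : ℤ))
      (fun t => dg (β (ζ t)) (f t)) (fun t => dg (γ (ζ t)) (g t))
    rw [h0] at this
    simp only [dg_cast, Int.cast_natCast, ZMod.natCast_zmod_val, Int.cast_zero] at this
    exact this.symm
  · have h3 : 2 * (M ^ J / 2) ≤ M ^ J := Nat.mul_div_le _ _
    have h4 : (2 : ℤ) * ((M ^ J / 2 : ℕ) : ℤ) ≤ (M : ℤ) ^ J := by exact_mod_cast h3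
    linarith

theorem log_bound (W : ℕ) (hW : 2 ≤ W) :
    1 + Real.log (2 * W * ((W ^ 12 : ℕ) : ℝ)) ≤ 16 * (W : ℝ) ^ 2 := by
  have hW' : (2 : ℝ) ≤ W := by exact_mod_cast hW
  have h1 : 2 * (W : ℝ) * ((W ^ 12 : ℕ) : ℝ) ≤ (W : ℝ) ^ 14 := by
    push_cast
    calc _ ≤ (W : ℝ) * W * W ^ 12 := by gcongr
      _ = _ := by ring
  have h2 := Real.log_le_log (by positivity) h1
  rw [Real.log_pow] at h2
  have h3 := Real.log_le_sub_one_of_pos (show (0 : ℝ) < W by linarith)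
  push_cast at h2 ⊢
  nlinarith

theorem core {p q h : ℕ} [Fact p.Prime] (hh : 0 < h) (M Q j K : ℕ) (hMp : M.Prime)
    (hQp : Q.Prime) (hj : 0 < j) (J : ℕ) (hJ : J + 1 = j + K)
    (hM : 12 * (J + 1) ^ 3 * (p * (p * h) * (p * h)) ≤ M) (hM4 : M ≤ h ^ 4)
    (α β γ : Fin q → ℕ → ZMod p) (h0 : ∀ ζ, α ζ 0 = 1)
    (h1 : ∀ ζ i, 0 < i → i + K ≤ J → α ζ i = 0)
    (htop : ∀ ζ : Fin 3 → Fin q, ζ 0 ≠ ζ 1 → ζ 1 ≠ ζ 2 → ζ 2 ≠ ζ 0 →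
      topdet J (fun t => α (ζ t)) (fun t => β (ζ t)) (fun t => γ (ζ t)) ≠ 0)
    (hq0 : 0 < q) (hq : q ≤ M ^ (J + 1)) (hQ : (M ^ (J + 1)) ^ 3 < Q)
    (hε : ∀ i ≤ J + 1, q * (M ^ (J + 1)) ^ 2 * M ^ i ≤ h ^ (J + 1) * (M ^ j) ^ 2 * (h ^ i) ^ 2)
    (W X₂ S n : ℕ) (hW : W = M ^ (J + 1) * Q) (hX₂ : W ^ 12 * W ^ 3 ≤ X₂)
    (hS : 4 * (W * W ^ 12) * (W * X₂) < 2 ^ S) (c2 : 640 * n * W ≤ W ^ 12 * X₂)
    (c3 : 960000000 * (J + 2) ^ 2 * S * n ^ 2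
      ≤ q * (M ^ (J + 1)) ^ 2 * Q ^ 3 * (W ^ 12 * W) * X₂ ^ 2) :
    ∃ P : Finset (ℝ × ℝ), P.card = n ∧
      (∀ u ∈ P, u.1 ∈ Set.Icc (0 : ℝ) 1 ∧ u.2 ∈ Set.Icc (0 : ℝ) 1) ∧
      ∀ u ∈ P, ∀ v ∈ P, ∀ w ∈ P, u ≠ v → v ≠ w → u ≠ w →
        (q : ℝ) / (32 * M * ((q * (M ^ (J + 1)) ^ 2 * Q ^ 3 * (W ^ 12 * W) * X₂ ^ 2 : ℕ) : ℝ)) ≤
        |(v.1 - u.1) * (w.2 - u.2) - (v.2 - u.2) * (w.1 - u.1)| / 2 := by
  have hp : NeZero p := ⟨(Fact.out : p.Prime).ne_zero⟩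
  have hp0 : 0 < p := (Fact.out : p.Prime).pos
  have : Fact Q.Prime := ⟨hQp⟩
  have hM2 := hMp.two_le
  have hm2 : 2 ≤ M ^ (J + 1) := le_trans hM2 (Nat.le_self_pow (by omega) _)
  have hQ8 : 8 < Q := lt_of_le_of_lt (Nat.pow_le_pow_left hm2 3) hQ
  have hW16 : 16 ≤ W := by rw [hW]; nlinarith
  have hMQ : M < Q := by
    calc M ≤ M ^ (J + 1) := Nat.le_self_pow (by omega) _
      _ ≤ (M ^ (J + 1)) ^ 3 := Nat.le_self_pow (by omega) _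
      _ < Q := hQ
  have hcop : Nat.Coprime (M ^ (J + 1)) Q :=
    Nat.Coprime.pow_left _ ((Nat.coprime_primes hMp hQp).mpr hMQ.ne)
  obtain ⟨crt, hcrt⟩ := exists_crt (M ^ (J + 1)) Q hcop
  have hchar : ringChar (ZMod Q) ≠ 2 := by rw [ZMod.ringChar_zmod_n]; omega
  obtain ⟨ν, hν⟩ := FiniteField.exists_nonsquare hchar
  have h2 : (2 : ZMod Q) ≠ 0 := Ring.two_ne_zero hchar
  have hph : (p : ℤ) * h ≤ M := by
    have : p * h ≤ M := by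
      refine le_trans ?_ hM
      calc p * h = 1 * (1 * 1 * (p * h)) := by ring
        _ ≤ _ := by
          gcongr
          · exact Nat.succ_le_of_lt (by positivity)
          · exact hp0
          · exact Nat.succ_le_of_lt (by positivity)
    exact_mod_cast this
  have hA : ∀ ζ, (M : ℤ) ^ j ∣ nA M (J + 1) (α ζ) - 1 := by
    intro ζ
    rw [hJ]
    exact digits_one M j K (α ζ) (h0 ζ) (fun i a b => h1 ζ i a (by omega)) hj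
  have hA0 : ∀ ζ, IsCoprime (nA M (J + 1) (α ζ)) (M : ℤ) := by
    intro ζ
    obtain ⟨c, hc⟩ := (dvd_pow_self (M : ℤ) hj.ne').trans (hA ζ)
    exact ⟨1, -c, by linear_combination hc⟩
  have hT : 2 * (M ^ J / 2) < M ^ (J + 1) :=
    lt_of_le_of_lt (Nat.mul_div_le _ _) (Nat.pow_lt_pow_right hM2 (by omega))
  have hX : 59 * W ^ 10 ≤ W ^ 12 := by
    rw [show W ^ 12 = W ^ 2 * W ^ 10 by ring]
    exact Nat.mul_le_mul_right _ (by nlinarith)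
  have hqQ : q * (M ^ (J + 1)) ^ 2 ≤ Q := by
    calc _ ≤ M ^ (J + 1) * (M ^ (J + 1)) ^ 2 := Nat.mul_le_mul_right _ hq
      _ = (M ^ (J + 1)) ^ 3 := by ring
      _ ≤ Q := hQ.le
  obtain ⟨lam, hl⟩ := exists_lam crt M α β γ ν hcrt hh hMp hph hM4 h2 hν j hj (by omega) hA hq0 hq
    hqQ hε (M ^ J / 2) hT (digits_no hh M J hM2 hM α β γ htop) W (W ^ 12) X₂ S hW hX hX₂ hS
  have hW0 : 0 < W := by omega
  have hX₂0 : 0 < X₂ := lt_of_lt_of_le (by positivity) hX₂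
  have hWX : W * W ^ 12 ≤ X₂ := by
    refine le_trans ?_ hX₂
    rw [mul_comm]
    exact Nat.mul_le_mul_left _ (Nat.le_self_pow (by norm_num) W)
  have : Nonempty (Fin q) := ⟨⟨0, hq0⟩⟩
  have : Nonempty (Fin h) := ⟨⟨0, hh⟩⟩
  have hM0 : (0 : ℝ) < M := by exact_mod_cast hMp.pos
  have hQ0 : (0 : ℝ) < Q := by exact_mod_cast hQp.pos
  obtain ⟨P, a1, a2, a3⟩ := exists_points W (W ^ 12) X₂ (W * X₂) (M ^ J / 2) _ _ _ hW0
    (by positivity) hWX (by positivity) (log_bound W (by omega))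
    (fun d => by rw [hW]; exact rX_coprime crt M α hcrt hA0 d) _ (by positivity) hl n c2 (by
      rw [← mul_div_assoc, div_le_one (by positivity)]
      have : (960000000 * (J + 2) ^ 2 * S * n ^ 2 : ℝ)
        ≤ q * ((M : ℝ) ^ (J + 1)) ^ 2 * Q ^ 3 * (W ^ 12 * W) * X₂ ^ 2 := by exact_mod_cast c3
      push_cast
      linarith)
  refine ⟨P, a1, a2, fun u hu v hv w hw b1 b2 b3 => le_trans ?_ (a3 u hu v hv w hw b1 b2 b3)⟩
  have hT2 : (M : ℝ) ^ J ≤ 2 * (((M ^ J / 2 : ℕ) : ℝ) + 1) := by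
    have : M ^ J ≤ 2 * (M ^ J / 2 + 1) := by omega
    exact_mod_cast this
  have hWr : (W : ℝ) = (M : ℝ) ^ (J + 1) * Q := by rw [hW]; push_cast; ring
  rw [div_le_div_iff₀ (by positivity) (by positivity)]
  push_cast
  calc _ = 16 * q * (W : ℝ) ^ 3 * ((W : ℝ) ^ 12 * W) * X₂ ^ 2 := by ring
    _ = (M : ℝ) ^ J * (16 * M * (q * ((M : ℝ) ^ (J + 1)) ^ 2 * Q ^ 3 * ((W : ℝ) ^ 12 * W)
          * X₂ ^ 2)) := by
        conv_lhs => rw [show (W : ℝ) ^ 3 = ((M : ℝ) ^ (J + 1) * Q) ^ 3 by rw [hWr]]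
        ring
    _ ≤ (2 * (((M ^ J / 2 : ℕ) : ℝ) + 1)) * (16 * M * (q * ((M : ℝ) ^ (J + 1)) ^ 2 * Q ^ 3
          * ((W : ℝ) ^ 12 * W) * X₂ ^ 2)) := by gcongr
    _ = _ := by ring

end Vale.Agent.P036
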