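import Vale.Agent.P036.Labels

/-! Base `M` digits, and the top digit of the determinant. -/

namespace Vale.Agent.P036

open Finset

/-- The number with `k` given digits in base `M`. -/
def num (M : ℤ) (k : ℕ) (d : ℕ → ℤ) : ℤ := ∑ i ∈ Finset.range k, d i * M ^ i

/-- The coefficient of degree `J` of a triple product. -/
def top {R : Type} [CommRing R] (J : ℕ) (u v w : ℕ → R) : R :=
  ∑ i ∈ Finset.range (J + 1), ∑ i' ∈ Finset.range (J + 1), ∑ i'' ∈ Finset.range (J + 1),
    if i + i' + i'' = J then u i * v i' * w i'' else 0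

/-- The coefficient of degree `J` of the determinant. -/
def topdet {R : Type} [CommRing R] (J : ℕ) (a b c : Fin 3 → ℕ → R) : R :=
  top J (a 1) (b 2) (c 0) - top J (a 2) (b 1) (c 0) + top J (a 2) (b 0) (c 1)
    - top J (a 0) (b 2) (c 1) + top J (a 0) (b 1) (c 2) - top J (a 1) (b 0) (c 2)

theorem triple_sum_le (k : ℕ) (F : ℕ → ℕ → ℕ → ℤ) (B : ℤ) (h : ∀ i i' i'', F i i' i'' ≤ B) :
    ∑ i ∈ Finset.range k, ∑ i' ∈ Finset.range k, ∑ i'' ∈ Finset.range k, F i i' i''
      ≤ (k : ℤ) ^ 3 * B := by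
  calc _ ≤ ∑ _i ∈ Finset.range k, ∑ _i' ∈ Finset.range k, ∑ _i'' ∈ Finset.range k, B :=
        Finset.sum_le_sum fun i _ => Finset.sum_le_sum fun i' _ =>
          Finset.sum_le_sum fun i'' _ => h i i' i''
    _ = _ := by simp; ring

theorem prod3 (M : ℤ) (hM : 1 ≤ M) (J : ℕ) (u v w : ℕ → ℤ) (B : ℤ)
    (h0 : ∀ i i' i'', 0 ≤ u i * v i' * w i'') (hB : ∀ i i' i'', u i * v i' * w i'' ≤ B) :
    ∃ low : ℤ, 0 ≤ low ∧ M * low ≤ ((J + 1 : ℕ) : ℤ) ^ 3 * B * M ^ J ∧ 0 ≤ top J u v w ∧
      top J u v w ≤ ((J + 1 : ℕ) : ℤ) ^ 3 * B ∧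
      M ^ (J + 1) ∣ num M (J + 1) u * num M (J + 1) v * num M (J + 1) w
        - (low + top J u v w * M ^ J) := by
  have hB0 : 0 ≤ B := (h0 0 0 0).trans (hB 0 0 0)
  have hM0 : 0 ≤ M := by linarith
  refine ⟨∑ i ∈ Finset.range (J + 1), ∑ i' ∈ Finset.range (J + 1),
    ∑ i'' ∈ Finset.range (J + 1),
      if i + i' + i'' < J then u i * v i' * w i'' * M ^ (i + i' + i'') else 0, ?_, ?_, ?_, ?_, ?_⟩
  · refine Finset.sum_nonneg fun i _ => Finset.sum_nonneg fun i' _ =>
      Finset.sum_nonneg fun i'' _ => ?_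
    split_ifs
    · exact mul_nonneg (h0 _ _ _) (by positivity)
    · exact le_rfl
  · simp only [Finset.mul_sum]
    rw [mul_assoc]
    apply triple_sum_le
    intro i i' i''
    split_ifs with h
    · have h1 : M * M ^ (i + i' + i'') ≤ M ^ J := by
        rw [← pow_succ']
        exact pow_le_pow_right₀ hM (by omega)
      calc M * (u i * v i' * w i'' * M ^ (i + i' + i''))
          = (u i * v i' * w i'') * (M * M ^ (i + i' + i'')) := by ring
        _ ≤ B * M ^ J := mul_le_mul (hB _ _ _) h1 (by positivity) hB0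
    · rw [mul_zero]; positivity
  · refine Finset.sum_nonneg fun i _ => Finset.sum_nonneg fun i' _ =>
      Finset.sum_nonneg fun i'' _ => ?_
    split_ifs
    · exact h0 _ _ _
    · exact le_rfl
  · apply triple_sum_le
    intro i i' i''
    split_ifs
    · exact hB _ _ _
    · exact hB0
  · have e : num M (J + 1) u * num M (J + 1) v * num M (J + 1) w
        = ∑ i ∈ Finset.range (J + 1), ∑ i' ∈ Finset.range (J + 1),
          ∑ i'' ∈ Finset.range (J + 1), u i * v i' * w i'' * M ^ (i + i' + i'') := by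
      unfold num
      rw [Finset.sum_mul_sum, Finset.sum_mul]
      refine Finset.sum_congr rfl fun i _ => ?_
      rw [Finset.sum_mul_sum]
      refine Finset.sum_congr rfl fun i' _ => Finset.sum_congr rfl fun i'' _ => by ring
    rw [e, top]
    simp only [Finset.sum_mul, ← Finset.sum_add_distrib, ← Finset.sum_sub_distrib]
    refine Finset.dvd_sum fun i _ => Finset.dvd_sum fun i' _ => Finset.dvd_sum fun i'' _ => ?_
    rcases lt_trichotomy (i + i' + i'') J with h | h | h
    · rw [if_pos h, if_neg h.ne]; simp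
    · rw [if_neg (by omega), if_pos h, h]; simp
    · rw [if_neg (by omega), if_neg h.ne']
      simp only [zero_mul, add_zero, sub_zero]
      exact Dvd.dvd.mul_left (pow_dvd_pow M h) _

theorem top_cast (p J : ℕ) (u v w : ℕ → ℤ) :
    ((top J u v w : ℤ) : ZMod p)
      = top J (fun i => (u i : ZMod p)) (fun i => (v i : ZMod p)) (fun i => (w i : ZMod p)) := by
  unfold top
  push_cast
  rfl

theorem topdet_cast (p J : ℕ) (a b c : Fin 3 → ℕ → ℤ) :
    ((topdet J a b c : ℤ) : ZMod p) = topdet J (fun t i => (a t i : ZMod p))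
      (fun t i => (b t i : ZMod p)) (fun t i => (c t i : ZMod p)) := by
  unfold topdet
  push_cast
  simp only [top_cast]

/-- If the top digit does not vanish, the determinant is not congruent to a small integer. -/
theorem not_small_of_topdet (M : ℤ) (J : ℕ) (P L : ℤ) (a b c : Fin 3 → ℕ → ℤ)
    (ha : ∀ t i, 0 ≤ a t i ∧ a t i ≤ P) (hb : ∀ t i, 0 ≤ b t i ∧ b t i ≤ L)
    (hc : ∀ t i, 0 ≤ c t i ∧ c t i ≤ L) (hM2 : 2 ≤ M)
    (hM : 12 * ((J + 1 : ℕ) : ℤ) ^ 3 * (P * L * L) ≤ M) (htop : topdet J a b c ≠ 0)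
    (s : ℤ) (hs : 2 * |s| ≤ M ^ J) :
    ¬ M ^ (J + 1) ∣ dot (cr (fun t => num M (J + 1) (a t)) (fun t => num M (J + 1) (b t)))
      (fun t => num M (J + 1) (c t)) - s := by
  intro hd
  have hP : 0 ≤ P := (ha 0 0).1.trans (ha 0 0).2
  have hL : 0 ≤ L := (hb 0 0).1.trans (hb 0 0).2
  have key := fun t t' t'' : Fin 3 => prod3 M (by linarith) J (a t) (b t') (c t'') (P * L * L)
    (fun i i' i'' => mul_nonneg (mul_nonneg (ha t i).1 (hb t' i').1) (hc t'' i'').1)
    (fun i i' i'' => mul_le_mul (mul_le_mul (ha t i).2 (hb t' i').2 (hb t' i').1 hP)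
      (hc t'' i'').2 (hc t'' i'').1 (mul_nonneg hP hL))
  obtain ⟨l1, a1, b1, c1, d1, e1⟩ := key 1 2 0
  obtain ⟨l2, a2, b2, c2, d2, e2⟩ := key 2 1 0
  obtain ⟨l3, a3, b3, c3, d3, e3⟩ := key 2 0 1
  obtain ⟨l4, a4, b4, c4, d4, e4⟩ := key 0 2 1
  obtain ⟨l5, a5, b5, c5, d5, e5⟩ := key 0 1 2
  obtain ⟨l6, a6, b6, c6, d6, e6⟩ := key 1 0 2
  clear key
  have hMJ : 0 < M ^ J := by positivity
  set low := l1 - l2 + l3 - l4 + l5 - l6 with hlow
  have hdiv : M ^ (J + 1) ∣ low + topdet J a b c * M ^ J - s := by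
    have h := dvd_sub hd (dvd_sub (dvd_add (dvd_sub (dvd_add (dvd_sub e1 e2) e3) e4) e5) e6)
    obtain ⟨q, hq⟩ := h
    refine ⟨q, ?_⟩
    rw [← hq]
    simp only [dot, cr_0, cr_1, cr_2, topdet, hlow]
    ring
  rw [mul_assoc] at hM
  generalize ((J + 1 : ℕ) : ℤ) ^ 3 * (P * L * L) = B at *
  have hM' : 12 * B ≤ M := hM
  have t1 : |topdet J a b c| ≤ 3 * B := by
    rw [abs_le]; unfold topdet; constructor <;> linarith
  have t2 : 1 ≤ |topdet J a b c| := Int.one_le_abs htop
  have t3 : 4 * |low| ≤ M ^ J := by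
    have h1 : M * |low| ≤ 3 * B * M ^ J := by
      have : |M * low| ≤ 3 * B * M ^ J := by
        have hM0 : 0 ≤ M := by linarith
        have p1 := mul_nonneg hM0 a1
        have p2 := mul_nonneg hM0 a2
        have p3 := mul_nonneg hM0 a3
        have p4 := mul_nonneg hM0 a4
        have p5 := mul_nonneg hM0 a5
        have p6 := mul_nonneg hM0 a6
        rw [abs_le, hlow]; constructor <;> linarith
      rwa [abs_mul, abs_of_nonneg (by linarith : (0 : ℤ) ≤ M)] at this
    have h2 : M * (4 * |low|) ≤ M * M ^ J := by nlinarith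
    exact le_of_mul_le_mul_left h2 (by linarith)
  generalize topdet J a b c = τ at *
  have h3 : |τ * M ^ J| = |τ| * M ^ J := by rw [abs_mul, abs_of_pos hMJ]
  have h4 : |low + τ * M ^ J - s| < M ^ (J + 1) := by
    have h5 := abs_sub (low + τ * M ^ J) s
    have h6 := abs_add_le low (τ * M ^ J)
    have h7 : 4 * (|τ| * M ^ J) ≤ M * M ^ J := by nlinarith
    rw [pow_succ']
    nlinarith
  have h8 := Int.eq_zero_of_abs_lt_dvd hdiv h4
  have h9 : τ * M ^ J = s - low := by linarith
  have h10 := abs_sub s low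
  rw [← h9, h3] at h10
  nlinarith

section system

variable {k : Type} [CommRing k]

theorem sum_delta (n R : ℕ) (φ : ℕ → ℕ) (hφ : ∀ r < R, φ r < n) (F c : ℕ → k) :
    ∑ i ∈ Finset.range n, F i * (∑ r ∈ Finset.range R, if i = φ r then c r else 0)
      = ∑ r ∈ Finset.range R, F (φ r) * c r := by
  simp only [Finset.mul_sum]
  rw [Finset.sum_comm]
  refine Finset.sum_congr rfl fun r hr => ?_
  simp only [mul_ite, mul_zero]
  rw [Finset.sum_ite_eq' (Finset.range n) (φ r) (fun i => F i * c r),
    if_pos (Finset.mem_range.mpr (hφ r (Finset.mem_range.mp hr)))]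

theorem top_system (J R : ℕ) (hJ : R * R ≤ J) (A B C : ℕ → k) :
    top J (fun i => (if i = 0 then 1 else 0) +
        ∑ r ∈ Finset.range R, if i + (R + 1) * r = J then A r else 0)
      (fun i => ∑ r ∈ Finset.range R, if i = r then B r else 0)
      (fun i => ∑ r ∈ Finset.range R, if i = R * r then C r else 0)
      = ∑ r ∈ Finset.range R, A r * B r * C r := by
  set α : ℕ → k := fun i => (if i = 0 then 1 else 0) +
    ∑ r ∈ Finset.range R, if i + (R + 1) * r = J then A r else 0 with hα
  have hb : ∀ r r', r < R → r' < R → r + R * r' < R * R := by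
    intro r r' hr hr'
    have : R * (r' + 1) ≤ R * R := Nat.mul_le_mul_left R hr'
    rw [Nat.mul_add] at this
    omega
  have h1 : ∀ r < R, R * r < J + 1 := by
    intro r hr
    have := hb r r hr hr
    omega
  have h2 : ∀ r < R, r < J + 1 := by
    intro r hr
    have := hb r r hr hr
    omega
  unfold top
  have e1 : ∀ i i' : ℕ, (∑ i'' ∈ Finset.range (J + 1), if i + i' + i'' = J then
      α i * (∑ r ∈ Finset.range R, if i' = r then B r else 0) *
        (∑ r ∈ Finset.range R, if i'' = R * r then C r else 0) else 0)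
      = (∑ r'' ∈ Finset.range R, (if i + i' + R * r'' = J then α i else 0) * C r'') *
        (∑ r ∈ Finset.range R, if i' = r then B r else 0) := by
    intro i i'
    rw [← sum_delta (J + 1) R (fun r => R * r) h1
      (fun i'' => if i + i' + i'' = J then α i else 0) C, Finset.sum_mul]
    refine Finset.sum_congr rfl fun i'' _ => ?_
    split_ifs
    · ring
    · ring
  simp only [e1]
  have e2 : ∀ i : ℕ, ∑ i' ∈ Finset.range (J + 1),
      (∑ r'' ∈ Finset.range R, (if i + i' + R * r'' = J then α i else 0) * C r'') *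
        (∑ r ∈ Finset.range R, if i' = r then B r else 0)
      = ∑ r' ∈ Finset.range R,
        (∑ r'' ∈ Finset.range R, (if i + r' + R * r'' = J then α i else 0) * C r'') * B r' :=
    fun i => sum_delta (J + 1) R (fun r => r) h2
      (fun i' => ∑ r'' ∈ Finset.range R, (if i + i' + R * r'' = J then α i else 0) * C r'') B
  simp only [e2]
  rw [Finset.sum_comm]
  refine Finset.sum_congr rfl fun r' hr' => ?_
  rw [Finset.mem_range] at hr'
  rw [← Finset.sum_mul, Finset.sum_comm]
  have e3 : ∀ r'' ∈ Finset.range R, ∑ i ∈ Finset.range (J + 1),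
      (if i + r' + R * r'' = J then α i else 0) * C r''
      = if r'' = r' then A r' * C r' else 0 := by
    intro r'' hr''
    rw [Finset.mem_range] at hr''
    have hlt := hb r' r'' hr' hr''
    rw [← Finset.sum_mul, Finset.sum_eq_single (J - (r' + R * r''))]
    · rw [if_pos (by omega), hα]
      simp only
      rw [if_neg (by omega), zero_add]
      have hiff : ∀ r < R, (J - (r' + R * r'') + (R + 1) * r = J ↔ r = r' ∧ r'' = r') := by
        intro r hr
        constructor
        · intro h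
          have h3 : r + R * r = r' + R * r'' := by
            have : (R + 1) * r = r + R * r := by ring
            omega
          have h4 : r = r' := by
            have := congrArg (· % R) h3
            simp only [Nat.add_mul_mod_self_left] at this
            rwa [Nat.mod_eq_of_lt hr, Nat.mod_eq_of_lt hr'] at this
          have h5 : R * r = R * r'' := by omega
          have h6 : r = r'' := Nat.eq_of_mul_eq_mul_left (by omega) h5
          exact ⟨h4, by omega⟩
        · rintro ⟨rfl, rfl⟩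
          have : (R + 1) * r'' = r'' + R * r'' := by ring
          omega
      by_cases h : r'' = r'
      · rw [if_pos h, Finset.sum_eq_single r', if_pos ((hiff r' hr').mpr ⟨rfl, h⟩), h]
        · intro r hr hne
          rw [if_neg]
          intro h'
          exact hne ((hiff r (Finset.mem_range.mp hr)).mp h').1
        · intro h'
          exact absurd (Finset.mem_range.mpr hr') h'
      · rw [if_neg h, Finset.sum_eq_zero, zero_mul]
        intro r hr
        rw [if_neg]
        intro h'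
        exact h ((hiff r (Finset.mem_range.mp hr)).mp h').2
    · intro i _ hne
      rw [if_neg (by omega)]
    · intro h
      exact absurd (Finset.mem_range.mpr (by omega)) h
  rw [Finset.sum_congr rfl e3, Finset.sum_ite_eq' (Finset.range R) r',
    if_pos (Finset.mem_range.mpr hr')]
  ring

end system

/-- The digit system. -/
theorem exists_digits (e : ℕ) (he : Odd e) : ∃ K : ℕ, 0 < K ∧ ∀ (p : ℕ) [Fact p.Prime], 5 ≤ p →
    ∀ J : ℕ, K ≤ J → ∃ α β γ : Fin (p ^ e) → ℕ → ZMod p,
      (∀ ζ, α ζ 0 = 1) ∧ (∀ ζ i, 0 < i → i + K ≤ J → α ζ i = 0) ∧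
      ∀ ζ : Fin 3 → Fin (p ^ e), ζ 0 ≠ ζ 1 → ζ 1 ≠ ζ 2 → ζ 2 ≠ ζ 0 →
        topdet J (fun t => α (ζ t)) (fun t => β (ζ t)) (fun t => γ (ζ t)) ≠ 0 := by
  obtain ⟨R, hR, h⟩ := exists_labels e he
  refine ⟨R * R, by positivity, ?_⟩
  intro p _ hp J hJ
  obtain ⟨A, B, C, hABC⟩ := h p hp
  have hb : ∀ r, r < R → (R + 1) * r < R * R := by
    intro r hr
    have : R * (r + 1) ≤ R * R := Nat.mul_le_mul_left R hr
    have h2 : (R + 1) * r = R * r + r := by ring
    rw [Nat.mul_add] at this
    omega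
  refine ⟨fun ζ i => (if i = 0 then 1 else 0) +
      ∑ r ∈ Finset.range R, if i + (R + 1) * r = J then A r ζ else 0,
    fun ζ i => ∑ r ∈ Finset.range R, if i = r then B r ζ else 0,
    fun ζ i => ∑ r ∈ Finset.range R, if i = R * r then C r ζ else 0, ?_, ?_, ?_⟩
  · intro ζ
    simp only [if_true]
    rw [Finset.sum_eq_zero, add_zero]
    intro r hr
    have := hb r (Finset.mem_range.mp hr)
    rw [if_neg (by omega)]
  · intro ζ i hi hiJ
    simp only
    rw [if_neg (by omega), Finset.sum_eq_zero, add_zero]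
    intro r hr
    have := hb r (Finset.mem_range.mp hr)
    rw [if_neg (by omega)]
  · intro ζ h01 h12 h20
    have h1 := hABC ζ h01 h12 h20
    convert h1 using 1
    unfold topdet
    simp only [top_system J R hJ, dot, cr_0, cr_1, cr_2, ← Finset.sum_sub_distrib,
      ← Finset.sum_add_distrib]
    refine Finset.sum_congr rfl fun r _ => by ring

end Vale.Agent.P036
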