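import Vale.Agent.P036.Core

/-! Choice of the parameters. -/

namespace Vale.Agent.P036

open Finset

theorem exists_sq (A Y : ℕ) (hY : 0 < Y) (h : Y ≤ A) :
    ∃ x : ℕ, A ≤ Y * x ^ 2 ∧ Y * x ^ 2 ≤ 4 * A := by
  have h1 : 1 ≤ A / Y := (Nat.le_div_iff_mul_le hY).mpr (by omega)
  have h2 : 1 ≤ Nat.sqrt (A / Y) := Nat.le_sqrt.mpr (by omega)
  have h3 := Nat.sqrt_le' (A / Y)
  have h4 := Nat.lt_succ_sqrt' (A / Y)
  have h5 := Nat.lt_mul_div_succ A hY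
  have h6 := Nat.mul_div_le A Y
  refine ⟨Nat.sqrt (A / Y) + 1, ?_, ?_⟩
  · exact h5.le.trans (Nat.mul_le_mul_left _ h4)
  · calc Y * (Nat.sqrt (A / Y) + 1) ^ 2 ≤ Y * (2 * Nat.sqrt (A / Y)) ^ 2 := by
          gcongr; omega
      _ = 4 * (Y * Nat.sqrt (A / Y) ^ 2) := by ring
      _ ≤ 4 * (Y * (A / Y)) := by gcongr
      _ ≤ _ := by omega

theorem choose_X (W Y D p n : ℕ) (hW : 16 ≤ W) (hY0 : 0 < Y) (hY : Y ≤ W ^ 16) (hD : 0 < D)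
    (hp : 4 * D ≤ p ^ 2) (hn : W ^ 23 ≤ n) :
    ∃ X₂ : ℕ, D * n ^ 2 ≤ Y * X₂ ^ 2 ∧ Y * X₂ ^ 2 ≤ 4 * (D * n ^ 2) ∧ W ^ 12 * W ^ 3 ≤ X₂ ∧
      640 * n * W ≤ W ^ 12 * X₂ ∧ 4 * (W * W ^ 12) * (W * X₂) ≤ 4 * p * n ^ 2 := by
  have hn2 : n ^ 2 ≤ D * n ^ 2 := Nat.le_mul_of_pos_left _ hD
  have h46 : W ^ 46 ≤ n ^ 2 := by
    rw [show W ^ 46 = (W ^ 23) ^ 2 by ring]
    exact Nat.pow_le_pow_left hn 2
  obtain ⟨x, h1, h2⟩ := exists_sq (D * n ^ 2) Y hY0 (by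
    calc Y ≤ W ^ 16 := hY
      _ ≤ W ^ 46 := Nat.pow_le_pow_right (by omega) (by norm_num)
      _ ≤ _ := h46.trans hn2)
  have h3 : n ^ 2 ≤ W ^ 16 * x ^ 2 := hn2.trans (h1.trans (Nat.mul_le_mul_right _ hY))
  have h4 : n ≤ W ^ 8 * x := by
    apply (Nat.pow_le_pow_iff_left (n := 2) (by norm_num)).mp
    calc _ ≤ _ := h3
      _ = _ := by ring
  refine ⟨x, h1, h2, ?_, ?_, ?_⟩
  · apply Nat.le_of_mul_le_mul_left (c := W ^ 8) _ (by positivity)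
    calc _ = W ^ 23 := by ring
      _ ≤ _ := hn.trans h4
  · have h5 : 640 ≤ W ^ 3 := le_trans (by norm_num) (Nat.pow_le_pow_left hW 3)
    calc 640 * n * W ≤ W ^ 3 * (W ^ 8 * x) * W := by gcongr
      _ = _ := by ring
  · have h5 : x ≤ p * n := by
      apply (Nat.pow_le_pow_iff_left (n := 2) (by norm_num)).mp
      calc x ^ 2 ≤ Y * x ^ 2 := Nat.le_mul_of_pos_left _ hY0
        _ ≤ 4 * (D * n ^ 2) := h2
        _ = (4 * D) * n ^ 2 := by ring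
        _ ≤ p ^ 2 * n ^ 2 := by gcongr
        _ = _ := by ring
    have h6 : W ^ 14 ≤ n := le_trans (Nat.pow_le_pow_right (by omega) (by norm_num)) hn
    calc _ = 4 * W ^ 14 * x := by ring
      _ ≤ 4 * n * (p * n) := by gcongr
      _ = _ := by ring

theorem pow_lt_two_pow (B : ℕ) : ∃ p₀ : ℕ, ∀ p ≥ p₀, p ^ B < 2 ^ p := by
  have h := (tendsto_pow_const_div_const_pow_of_one_lt B (r := 2) (by norm_num)).eventually
    (gt_mem_nhds (show (0 : ℝ) < 1 by norm_num))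
  obtain ⟨p₀, hp⟩ := Filter.eventually_atTop.mp h
  refine ⟨p₀, fun p h => ?_⟩
  have := hp p h
  rw [div_lt_one (by positivity)] at this
  exact_mod_cast this

theorem eps_bound (p M K j i : ℕ) (hp : 0 < p) (hM : M ≤ p ^ 14) (hj : 27 * K + 17 ≤ j)
    (hi : i ≤ j + K) :
    p ^ 17 * (M ^ (j + K)) ^ 2 * M ^ i ≤ (p ^ 5) ^ (j + K) * (M ^ j) ^ 2 * ((p ^ 5) ^ i) ^ 2 := by
  calc _ = p ^ 17 * M ^ (2 * K + i) * (M ^ j) ^ 2 := by ring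
    _ ≤ p ^ 17 * (p ^ 14) ^ (2 * K + i) * (M ^ j) ^ 2 := by gcongr
    _ = p ^ (17 + 14 * (2 * K + i)) * (M ^ j) ^ 2 := by ring
    _ ≤ p ^ (5 * (j + K) + 10 * i) * (M ^ j) ^ 2 :=
        Nat.mul_le_mul_right _ (Nat.pow_le_pow_right hp (by omega))
    _ = _ := by ring

theorem for_prime : ∃ B p₀ : ℕ, 0 < B ∧ ∀ p : ℕ, p.Prime → p₀ ≤ p → ∀ n : ℕ, p ^ B ≤ n →
    n ≤ p ^ (2 * B) → ∃ P : Finset (ℝ × ℝ), P.card = n ∧
      (∀ u ∈ P, u.1 ∈ Set.Icc (0 : ℝ) 1 ∧ u.2 ∈ Set.Icc (0 : ℝ) 1) ∧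
      ∀ u ∈ P, ∀ v ∈ P, ∀ w ∈ P, u ≠ v → v ≠ w → u ≠ w → (p : ℝ) / (n : ℝ) ^ 2 ≤
        |(v.1 - u.1) * (w.2 - u.2) - (v.2 - u.2) * (w.1 - u.1)| / 2 := by
  obtain ⟨K, hK0, hK⟩ := exists_digits 17 (by decide)
  obtain ⟨J, hJ⟩ : ∃ J, J + 1 = (27 * K + 17) + K := ⟨28 * K + 16, by ring⟩
  obtain ⟨B, hB⟩ : ∃ B, B = (56 * (J + 1) + 1) * 23 := ⟨_, rfl⟩
  obtain ⟨D₀, hD₀⟩ : ∃ D₀, D₀ = 960000000 * (J + 2) ^ 2 := ⟨_, rfl⟩
  obtain ⟨p₁, hp₁⟩ := pow_lt_two_pow (4 * B + 2)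
  have hD₀0 : 0 < D₀ := by rw [hD₀]; positivity
  refine ⟨B, p₁ + 5 + 24 * (J + 1) ^ 3 + 128 * D₀, by omega, fun p hp hp0 n hn1 hn2 => ?_⟩
  have : Fact p.Prime := ⟨hp⟩
  have hp5 : 5 ≤ p := by omega
  have hpp : 0 < p := by omega
  obtain ⟨α, β, γ, h0, h1, htop⟩ := hK p hp5 J (by omega)
  obtain ⟨M, hMp, hM1, hM2⟩ := Nat.exists_prime_lt_and_le_two_mul
    (12 * (J + 1) ^ 3 * (p * (p * p ^ 5) * (p * p ^ 5))) (by positivity)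
  have hM14 : M ≤ p ^ 14 := by
    calc M ≤ _ := hM2
      _ = (24 * (J + 1) ^ 3) * p ^ 13 := by ring
      _ ≤ p * p ^ 13 := by gcongr; omega
      _ = _ := by ring
  have hpM : p ≤ M := by
    refine le_trans ?_ hM1.le
    calc p = 1 * (p * 1 * 1) := by ring
      _ ≤ _ := by
        gcongr
        · exact Nat.succ_le_of_lt (by positivity)
        · exact Nat.succ_le_of_lt (by positivity)
        · exact Nat.succ_le_of_lt (by positivity)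
  have hM0 := hMp.pos
  obtain ⟨Q, hQp, hQ1, hQ2⟩ := Nat.exists_prime_lt_and_le_two_mul ((M ^ (J + 1)) ^ 3)
    (by positivity)
  have hQ0 := hQp.pos
  have hq : p ^ 17 ≤ M ^ (J + 1) :=
    (Nat.pow_le_pow_left hpM 17).trans (Nat.pow_le_pow_right hM0 (by omega))
  obtain ⟨W, hW⟩ : ∃ W, W = M ^ (J + 1) * Q := ⟨_, rfl⟩
  have hW16 : 16 ≤ W := by
    have a1 : 16 ≤ p ^ 17 := le_trans (by norm_num) (Nat.pow_le_pow_left hp5 17)
    rw [hW]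
    exact (a1.trans hq).trans (Nat.le_mul_of_pos_right _ hQ0)
  have hWn : W ^ 23 ≤ n := by
    refine le_trans ?_ hn1
    rw [hB, pow_mul]
    apply Nat.pow_le_pow_left
    calc W ≤ M ^ (J + 1) * (2 * (M ^ (J + 1)) ^ 3) := by rw [hW]; gcongr
      _ = 2 * (M ^ (J + 1)) ^ 4 := by ring
      _ ≤ p * ((p ^ 14) ^ (J + 1)) ^ 4 := by gcongr; omega
      _ = _ := by ring
  obtain ⟨X₂, c3, c4, hX₂, c2, hS⟩ := choose_X W
    (p ^ 17 * (M ^ (J + 1)) ^ 2 * Q ^ 3 * (W ^ 12 * W)) (D₀ * p) p n hW16 (by positivity) (by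
      calc _ ≤ M ^ (J + 1) * (M ^ (J + 1)) ^ 2 * Q ^ 3 * (W ^ 12 * W) := by gcongr
        _ = (M ^ (J + 1) * Q) ^ 3 * (W ^ 12 * W) := by ring
        _ = _ := by rw [← hW]; ring) (by positivity) (by
      calc 4 * (D₀ * p) = (4 * D₀) * p := by ring
        _ ≤ p * p := by gcongr; omega
        _ = _ := by ring) hWn
  have hS' : 4 * (W * W ^ 12) * (W * X₂) < 2 ^ p := by
    refine lt_of_le_of_lt ?_ (hp₁ p (by omega))
    calc _ ≤ _ := hS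
      _ ≤ p * p * (p ^ (2 * B)) ^ 2 := by gcongr; omega
      _ = _ := by ring
  obtain ⟨P, a1, a2, a3⟩ := core (h := p ^ 5) (by positivity) M Q (27 * K + 17) K hMp hQp
    (by omega) J hJ hM1.le (by
      calc M ≤ p ^ 14 := hM14
        _ ≤ p ^ 20 := Nat.pow_le_pow_right hpp (by norm_num)
        _ = _ := by ring) α β γ h0 h1 htop (by positivity) hq hQ1 (by
      intro i hi
      rw [hJ] at hi ⊢
      exact eps_bound p M K _ i hpp hM14 le_rfl hi) W X₂ p n hW hX₂ hS' c2 (by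
      rw [← hD₀]; exact c3)
  refine ⟨P, a1, a2, fun u hu v hv w hw b1 b2 b3 => le_trans ?_ (a3 u hu v hv w hw b1 b2 b3)⟩
  have hn0 : 0 < n := lt_of_lt_of_le (by positivity) hn1
  have hX₂0 : 0 < X₂ := lt_of_lt_of_le (by positivity) hX₂
  generalize hZ : p ^ 17 * (M ^ (J + 1)) ^ 2 * Q ^ 3 * (W ^ 12 * W) * X₂ ^ 2 = Z at c4 ⊢
  have hZ0 : 0 < Z := by rw [← hZ]; positivity
  rw [div_le_div_iff₀ (by positivity) (by positivity)]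
  have : p * (32 * M * Z) ≤ p ^ 17 * n ^ 2 := by
    calc _ ≤ p * (32 * p ^ 14 * (4 * (D₀ * p * n ^ 2))) := by gcongr
      _ = (128 * D₀) * (p ^ 16 * n ^ 2) := by ring
      _ ≤ p * (p ^ 16 * n ^ 2) := by gcongr; omega
      _ = _ := by ring
  exact_mod_cast this

theorem exists_prime_pow (B n : ℕ) (hB : 0 < B) (hn : 2 ^ B ≤ n) :
    ∃ p : ℕ, p.Prime ∧ p ^ B ≤ n ∧ n ≤ p ^ (2 * B) := by
  classical
  set t := Nat.findGreatest (fun t => (2 * t) ^ B ≤ n) n with ht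
  have hn2 : 1 ≤ n := le_trans Nat.one_le_two_pow hn
  have h1 : 1 ≤ t := Nat.le_findGreatest (P := fun t => (2 * t) ^ B ≤ n) hn2 (by simpa using hn)
  have h2 : (2 * t) ^ B ≤ n :=
    Nat.findGreatest_spec (P := fun t => (2 * t) ^ B ≤ n) hn2 (by simpa using hn)
  have h3 : n < (2 * (t + 1)) ^ B := by
    by_contra hc
    push Not at hc
    have h4 : t + 1 ≤ n := by
      have := Nat.le_self_pow hB.ne' (2 * (t + 1))
      omega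
    have := Nat.le_findGreatest (P := fun t => (2 * t) ^ B ≤ n) h4 hc
    omega
  obtain ⟨p, hp, a, b⟩ := Nat.exists_prime_lt_and_le_two_mul t (by omega)
  refine ⟨p, hp, (Nat.pow_le_pow_left b B).trans h2, h3.le.trans ?_⟩
  rw [pow_mul]
  apply Nat.pow_le_pow_left
  have := hp.two_le
  nlinarith

theorem main : ∃ η : ℝ, 0 < η ∧ ∃ n₀ : ℕ, ∀ n : ℕ, n₀ ≤ n →
    ∃ P : Finset (ℝ × ℝ), P.card = n ∧
      (∀ u ∈ P, u.1 ∈ Set.Icc (0 : ℝ) 1 ∧ u.2 ∈ Set.Icc (0 : ℝ) 1) ∧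
      ∀ u ∈ P, ∀ v ∈ P, ∀ w ∈ P, u ≠ v → v ≠ w → u ≠ w → (n : ℝ) ^ (-2 + η) ≤
        |(v.1 - u.1) * (w.2 - u.2) - (v.2 - u.2) * (w.1 - u.1)| / 2 := by
  obtain ⟨B, p₀, hB, h⟩ := for_prime
  refine ⟨1 / (2 * B : ℕ), by positivity, 2 ^ B + p₀ ^ (2 * B), fun n hn => ?_⟩
  obtain ⟨p, hp, a, b⟩ := exists_prime_pow B n hB (le_trans (Nat.le_add_right _ _) hn)
  have hp0 : p₀ ≤ p := by
    apply (Nat.pow_le_pow_iff_left (n := 2 * B) (by omega)).mp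
    exact le_trans (le_trans (Nat.le_add_left _ _) hn) b
  obtain ⟨P, a1, a2, a3⟩ := h p hp hp0 n a b
  refine ⟨P, a1, a2, fun u hu v hv w hw b1 b2 b3 => le_trans ?_ (a3 u hu v hv w hw b1 b2 b3)⟩
  have hn0 : 0 < n := lt_of_lt_of_le (pow_pos hp.pos B) a
  have hn' : (0 : ℝ) < n := by exact_mod_cast hn0
  rw [Real.rpow_add hn', Real.rpow_neg hn'.le, Real.rpow_two, div_eq_inv_mul (p : ℝ)]
  apply mul_le_mul_of_nonneg_left _ (by positivity)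
  have b' : (n : ℝ) ≤ (p : ℝ) ^ (2 * B) := by exact_mod_cast b
  calc _ ≤ ((p : ℝ) ^ (2 * B)) ^ (1 / ((2 * B : ℕ) : ℝ)) :=
        Real.rpow_le_rpow hn'.le b' (by positivity)
    _ = p := by
        rw [one_div]
        exact Real.pow_rpow_inv_natCast (Nat.cast_nonneg _) (by omega)

end Vale.Agent.P036
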