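import Vale.Agent.P036.Long

/-! The count of bad triples inside fixed residue classes. -/

namespace Vale.Agent.P036

open Finset

/-- Short relation vectors compatible with the residues. -/
def XiP (W : ℕ) (r₁ r₂ r₃ ξ : Fin 3 → ℤ) : Prop :=
  Prim ξ ∧ (∀ i, ξ i ≠ 0) ∧ (W : ℤ) ∣ dot ξ r₁ ∧ (W : ℤ) ∣ dot ξ r₂ ∧ (W : ℤ) ∣ dot ξ r₃

/-- The determinant of the residues is congruent to a small integer. -/
def Solv (W T : ℕ) (r₁ r₂ r₃ : Fin 3 → ℤ) : Prop :=
  ∃ s : ℤ, |s| ≤ T ∧ (W : ℤ) ∣ dot (cr r₁ r₂) r₃ - s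

/-- Bad triples of rows. -/
def BadT (T : ℕ) (t : (Fin 3 → ℤ) × (Fin 3 → ℤ) × (Fin 3 → ℤ)) : Prop :=
  (∀ i, cr t.1 t.2.1 i ≠ 0) ∧ Small T t.1 t.2.1 t.2.2

/-- First type of bad triple. -/
def P1 (W X T : ℕ) (t : (Fin 3 → ℤ) × (Fin 3 → ℤ) × (Fin 3 → ℤ)) : Prop :=
  cr t.1 t.2.1 ≠ 0 ∧ 2 * nrm (cr t.1 t.2.1) < W * X ∧ Small T t.1 t.2.1 t.2.2

/-- Second type of bad triple. -/
def P2 (ξ : Fin 3 → ℤ) (t : (Fin 3 → ℤ) × (Fin 3 → ℤ) × (Fin 3 → ℤ)) : Prop :=
  dot ξ t.1 = 0 ∧ dot ξ t.2.1 = 0 ∧ dot ξ t.2.2 = 0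

open Classical in
theorem p1_count (W X X₂ X₃ T : ℕ) (hW : 0 < W) (hT : 2 * T < W) (r₁ r₂ r₃ : Fin 3 → ℤ) :
    (((Row (W * X) W X r₁ ×ˢ (Row 0 W X₂ r₂ ×ˢ Row 0 W X₃ r₃)).filter (P1 W X T)).card : ℝ)
      ≤ (X : ℝ) ^ 3 * X₂ * (X₃ : ℝ) ^ 2 := by
  have h := card_filter_prod_le (Row (W * X) W X r₁) (Row 0 W X₂ r₂ ×ˢ Row 0 W X₃ r₃)
    (P1 W X T) (fun _ => (X₂ : ℝ) * (X₃ : ℝ) ^ 2) ?_
  · refine h.trans ?_
    rw [Finset.sum_const, nsmul_eq_mul, mul_assoc]
    exact mul_le_mul_of_nonneg_right (card_Row_le _ W X hW r₁) (by positivity)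
  · intro a ha
    have h1 := card_filter_prod_le (Row 0 W X₂ r₂) (Row 0 W X₃ r₃)
      (fun t => P1 W X T (a, t))
      (fun b => if 2 * nrm (cr a b) < W * X then (X₃ : ℝ) ^ 2 else 0) ?_
    · refine h1.trans ?_
      rw [← Finset.sum_filter, Finset.sum_const, nsmul_eq_mul]
      apply mul_le_mul_of_nonneg_right _ (by positivity)
      have h2 := Finset.card_le_card_of_injOn
        (s := (Row 0 W X₂ r₂).filter (fun b => 2 * nrm (cr a b) < W * X))
        (t := Cl 0 W X₂ (r₂ 0)) (fun b => b 0) ?_ ?_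
      · exact le_trans (by exact_mod_cast h2) (card_Cl_le' 0 W X₂ hW (r₂ 0))
      · intro b hb
        rw [Finset.mem_coe, Finset.mem_filter] at hb
        exact Row_mem_Cl hb.1 0
      · intro b hb b' hb' e
        rw [Finset.mem_coe, Finset.mem_filter] at hb hb'
        simp only at e
        have ha0 := (mem_Row.mp ha 0).1.1
        have key : ∀ x : ℤ, |a 0 * x| < W * X → x = 0 := by
          intro x hx
          by_contra hne
          have h3 : 1 ≤ |x| := Int.one_le_abs hne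
          have h4 : (0 : ℤ) ≤ W * X := by positivity
          rw [abs_mul, abs_of_nonneg (by linarith)] at hx
          nlinarith
        have k1 := abs_le_nrm (cr a b) 1
        have k2 := abs_le_nrm (cr a b) 2
        have k3 := abs_le_nrm (cr a b') 1
        have k4 := abs_le_nrm (cr a b') 2
        have e1 : b 1 - b' 1 = 0 := by
          apply key
          have : a 0 * (b 1 - b' 1) = cr a b 2 - cr a b' 2 := by
            simp only [cr_2, e]; ring
          rw [this]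
          have := abs_sub (cr a b 2) (cr a b' 2)
          linarith [hb.2, hb'.2]
        have e2 : b' 2 - b 2 = 0 := by
          apply key
          have : a 0 * (b' 2 - b 2) = cr a b 1 - cr a b' 1 := by
            simp only [cr_1, e]; ring
          rw [this]
          have := abs_sub (cr a b 1) (cr a b' 1)
          linarith [hb.2, hb'.2]
        funext i; revert i; rw [forall3]
        exact ⟨e, by linarith, by linarith⟩
    · intro b hb
      by_cases hs : 2 * nrm (cr a b) < W * X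
      · rw [if_pos hs]
        by_cases h0 : cr a b = 0
        · rw [Finset.filter_false_of_mem]
          · simp
          · intro c _ hc
            exact hc.1 h0
        · apply row_plane_crude (cr a b) h0 0 W X₃ hW r₃ _ (Finset.filter_subset _ _)
          intro c hc c' hc'
          rw [Finset.mem_filter] at hc hc'
          have h5 := eq_of_small hT hc.2.2.2 hc'.2.2.2
            (dot_congr (a := cr a b) (r := cr a b) (by simp)
            (fun i => Cl_dvd (Row_mem_Cl hc.1 i) (Row_mem_Cl hc'.1 i)))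
          rw [dot_sub, h5, sub_self]
      · rw [if_neg hs, Finset.filter_false_of_mem]
        · simp
        · intro c _ hc
          exact hs hc.2.1

theorem row_perp (ξ : Fin 3 → ℤ) (hξ : Prim ξ) (h0 : ξ 0 ≠ 0) (lo : ℤ) (W X : ℕ) (hW : 0 < W)
    (r : Fin 3 → ℤ) (hX : nrm ξ ≤ X) :
    (((Row lo W X r).filter (fun a => dot ξ a = 0)).card : ℝ) ≤ 12 * (X : ℝ) ^ 2 / nrm ξ := by
  apply row_plane_sharp ξ hξ ![ξ 1, -ξ 0, 0] ![ξ 2, 0, -ξ 0] _ _ _ lo W X hW r _
    (Finset.filter_subset _ _)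
  · refine le_trans ?_ hX
    rw [nrm_le_iff, forall3]
    refine ⟨abs_le_nrm ξ 1, ?_, ?_⟩
    · simpa using abs_le_nrm ξ 0
    · simpa using nrm_nonneg ξ
  · refine le_trans ?_ hX
    rw [nrm_le_iff, forall3]
    refine ⟨abs_le_nrm ξ 2, ?_, ?_⟩
    · simpa using nrm_nonneg ξ
    · simpa using abs_le_nrm ξ 0
  · intro u hu u' hu'
    rw [Finset.mem_filter] at hu hu'
    rw [dot_sub, hu.2, hu'.2, sub_self]
  · simp [dot]; ring
  · simp [dot]; ring
  · exact ⟨0, by simpa using h0⟩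

open Classical in
theorem p2_count (W X X₂ X₃ : ℕ) (hW : 0 < W) (h₂ : X ≤ X₂) (h₃ : X ≤ X₃)
    (r₁ r₂ r₃ ξ : Fin 3 → ℤ) (hξ : Prim ξ) (h0 : ξ 0 ≠ 0) (hX : nrm ξ ≤ X) :
    (((Row (W * X) W X r₁ ×ˢ (Row 0 W X₂ r₂ ×ˢ Row 0 W X₃ r₃)).filter (P2 ξ)).card : ℝ)
      ≤ 1728 * ((X : ℝ) ^ 2 * (X₂ : ℝ) ^ 2 * (X₃ : ℝ) ^ 2) * (1 / (nrm ξ : ℝ) ^ 3) := by
  have e : (Row (W * X) W X r₁ ×ˢ (Row 0 W X₂ r₂ ×ˢ Row 0 W X₃ r₃)).filter (P2 ξ)
      = (Row (W * X) W X r₁).filter (fun a => dot ξ a = 0) ×ˢ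
        ((Row 0 W X₂ r₂).filter (fun a => dot ξ a = 0) ×ˢ
          (Row 0 W X₃ r₃).filter (fun a => dot ξ a = 0)) := by
    ext t
    simp only [Finset.mem_filter, Finset.mem_product, P2]
    tauto
  rw [e, Finset.card_product, Finset.card_product]
  push_cast
  have k1 := row_perp ξ hξ h0 (W * X) W X hW r₁ hX
  have k2 := row_perp ξ hξ h0 0 W X₂ hW r₂ (hX.trans (by exact_mod_cast h₂))
  have k3 := row_perp ξ hξ h0 0 W X₃ hW r₃ (hX.trans (by exact_mod_cast h₃))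
  have hn : (0 : ℝ) < nrm ξ := by exact_mod_cast lt_of_lt_of_le zero_lt_one (one_le_nrm hξ.ne_zero)
  calc _ ≤ (12 * (X : ℝ) ^ 2 / nrm ξ) * ((12 * (X₂ : ℝ) ^ 2 / nrm ξ) *
        (12 * (X₃ : ℝ) ^ 2 / nrm ξ)) := by gcongr
    _ = _ := by field_simp; ring

open Classical in
/-- The count of bad triples of rows in fixed residue classes. -/
theorem free_count (W X X₂ T S : ℕ) (hW : 2 ≤ W) (hX : 59 * W ^ 10 ≤ X) (hX₂ : W * X ≤ X₂)
    (hT : 2 * T < W) (hS : 4 * (W * X) * (W * X₂) < 2 ^ S) (r₁ r₂ r₃ : Fin 3 → ℤ)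
    (hr : ∀ i, IsCoprime (r₁ i) (W : ℤ)) :
    (((Row (W * X) W X r₁ ×ˢ (Row 0 W X₂ r₂ ×ˢ Row 0 W (W * X₂) r₃)).filter (BadT T)).card : ℝ)
      ≤ (X : ℝ) ^ 3 * X₂ * ((W : ℝ) * X₂) ^ 2
        + 1728 * ((X : ℝ) ^ 2 * (X₂ : ℝ) ^ 2 * ((W : ℝ) * X₂) ^ 2) *
            ∑ ξ ∈ (Box X).filter (XiP W r₁ r₂ r₃), 1 / (nrm ξ : ℝ) ^ 3
        + S * 153600 * ((X : ℝ) ^ 2 * (X₂ : ℝ) ^ 2 * ((W : ℝ) * X₂) ^ 2) / (W : ℝ) ^ 2 *
            (if Solv W T r₁ r₂ r₃ then sig W r₁ r₂ else 0) := by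
  have hW0 : 0 < W := by omega
  have hX0 : 0 < X := lt_of_lt_of_le (by positivity) hX
  have hXX₂ : X ≤ X₂ := le_trans (Nat.le_mul_of_pos_left X hW0) hX₂
  have hXX₃ : X ≤ W * X₂ := le_trans hXX₂ (Nat.le_mul_of_pos_left X₂ hW0)
  set A := Row (W * X) W X r₁ ×ˢ (Row 0 W X₂ r₂ ×ˢ Row 0 W (W * X₂) r₃) with hA
  set B1 := A.filter (P1 W X T) with hB1
  set B2 := ((Box X).filter (XiP W r₁ r₂ r₃)).biUnion (fun ξ => A.filter (P2 ξ)) with hB2
  set B3 := ((Finset.range S).filter (fun i => X < 2 * 2 ^ i ∧ Solv W T r₁ r₂ r₃)).biUnion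
    (fun i => A.filter (fun t => Scale (2 ^ i) t.1 t.2.1 ∧ Small T t.1 t.2.1 t.2.2)) with hB3
  have hsub : A.filter (BadT T) ⊆ B1 ∪ B2 ∪ B3 := by
    intro t ht
    rw [Finset.mem_filter] at ht
    obtain ⟨htA, hne, hsm⟩ := ht
    have htA' := htA
    rw [hA, Finset.mem_product, Finset.mem_product] at htA'
    obtain ⟨ha, hb, hc⟩ := htA'
    have hcr0 : cr t.1 t.2.1 ≠ 0 := fun h => hne 0 (by rw [h]; rfl)
    rw [Finset.mem_union, Finset.mem_union]
    by_cases h1 : 2 * nrm (cr t.1 t.2.1) < W * X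
    · left; left
      rw [hB1, Finset.mem_filter]
      exact ⟨htA, hcr0, h1, hsm⟩
    obtain ⟨γ, ξ, hγ, hξ, e⟩ := exists_prim hcr0
    have hn : nrm (cr t.1 t.2.1) = γ * nrm ξ := by
      rw [show cr t.1 t.2.1 = fun i => γ * ξ i from funext e, nrm_mul, abs_of_pos hγ]
    have hn1 := one_le_nrm hξ.ne_zero
    by_cases h2 : nrm ξ < X
    · left; right
      have hγT : (T : ℤ) < γ := by
        by_contra hcon
        push Not at hcon h1
        have h3 : (2 * T : ℤ) < W := by exact_mod_cast hT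
        have h4 : (0 : ℤ) < X := by exact_mod_cast hX0
        rw [hn] at h1
        nlinarith
      have d1 := dot_of_mul (c := t.1) e
      have d2 := dot_of_mul (c := t.2.1) e
      have d3 := dot_of_mul (c := t.2.2) e
      rw [dot_cr_left] at d1
      rw [dot_cr_right] at d2
      have z1 : dot ξ t.1 = 0 := (mul_eq_zero.mp d1.symm).resolve_left hγ.ne'
      have z2 : dot ξ t.2.1 = 0 := (mul_eq_zero.mp d2.symm).resolve_left hγ.ne'
      have z3 : dot ξ t.2.2 = 0 := by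
        by_contra hcon
        have h3 : 1 ≤ |dot ξ t.2.2| := Int.one_le_abs hcon
        unfold Small at hsm
        rw [d3, abs_mul, abs_of_pos hγ] at hsm
        nlinarith
      rw [hB2, Finset.mem_biUnion]
      refine ⟨ξ, ?_, ?_⟩
      · rw [Finset.mem_filter, mem_Box]
        refine ⟨h2.le, hξ, ?_, ?_, ?_, ?_⟩
        · intro i hi
          apply hne i
          rw [e i, hi, mul_zero]
        · have := dot_congr (a := ξ) (r := ξ) (by simp) (Row_congr ha)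
          rw [z1, zero_sub, dvd_neg] at this
          exact this
        · have := dot_congr (a := ξ) (r := ξ) (by simp) (Row_congr hb)
          rw [z2, zero_sub, dvd_neg] at this
          exact this
        · have := dot_congr (a := ξ) (r := ξ) (by simp) (Row_congr hc)
          rw [z3, zero_sub, dvd_neg] at this
          exact this
      · rw [Finset.mem_filter]
        exact ⟨htA, z1, z2, z3⟩
    · right
      push Not at h2
      set ν : ℕ := (nrm ξ).toNat with hν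
      have hνz : (ν : ℤ) = nrm ξ := Int.toNat_of_nonneg (nrm_nonneg ξ)
      have hν0 : ν ≠ 0 := by omega
      have l1 : 2 ^ Nat.log 2 ν ≤ ν := Nat.pow_log_le_self 2 hν0
      have l2 : ν < 2 ^ (Nat.log 2 ν + 1) := Nat.lt_pow_succ_log_self one_lt_two ν
      rw [pow_succ] at l2
      rw [hB3, Finset.mem_biUnion]
      refine ⟨Nat.log 2 ν, ?_, ?_⟩
      · rw [Finset.mem_filter, Finset.mem_range]
        refine ⟨?_, by omega, ?_⟩
        · have h3 := nrm_cr_le t.1 t.2.1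
          have h4 := nrm_RowA ha
          have h5 := nrm_Row0 hb
          have h6 : 2 * nrm t.1 * nrm t.2.1 ≤ 2 * (2 * W * X) * (W * X₂) := by
            have := nrm_nonneg t.1
            have := nrm_nonneg t.2.1
            gcongr
          have h7 : (ν : ℤ) ≤ ((4 * (W * X) * (W * X₂) : ℕ) : ℤ) := by
            push_cast
            nlinarith
          have h8 : ν ≤ 4 * (W * X) * (W * X₂) := by exact_mod_cast h7
          exact (Nat.pow_lt_pow_iff_right one_lt_two).mp (by omega)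
        · refine ⟨dot (cr t.1 t.2.1) t.2.2, hsm, ?_⟩
          have := dot_congr (cr_congr (Row_congr ha) (Row_congr hb)) (Row_congr hc)
          rwa [← dvd_neg, neg_sub] at this
      · rw [Finset.mem_filter]
        refine ⟨htA, ⟨ξ, γ, hξ, hγ, e, ?_, ?_⟩, hsm⟩
        · rw [← hνz]; exact_mod_cast l1
        · rw [← hνz]
          have : ν < 2 * 2 ^ Nat.log 2 ν := by omega
          exact_mod_cast this
  have hcard : ((A.filter (BadT T)).card : ℝ) ≤ B1.card + B2.card + B3.card := by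
    have h1 := Finset.card_le_card hsub
    have h2 := Finset.card_union_le (B1 ∪ B2) B3
    have h3 := Finset.card_union_le B1 B2
    have : (A.filter (BadT T)).card ≤ B1.card + B2.card + B3.card := by omega
    exact_mod_cast this
  have c1 : (B1.card : ℝ) ≤ (X : ℝ) ^ 3 * X₂ * ((W : ℝ) * X₂) ^ 2 := by
    have := p1_count W X X₂ (W * X₂) T hW0 hT r₁ r₂ r₃
    push_cast at this
    exact this
  have c2 : (B2.card : ℝ) ≤ 1728 * ((X : ℝ) ^ 2 * (X₂ : ℝ) ^ 2 * ((W : ℝ) * X₂) ^ 2) *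
      ∑ ξ ∈ (Box X).filter (XiP W r₁ r₂ r₃), 1 / (nrm ξ : ℝ) ^ 3 := by
    have h1 : (B2.card : ℝ) ≤ ∑ ξ ∈ (Box X).filter (XiP W r₁ r₂ r₃),
        ((A.filter (P2 ξ)).card : ℝ) := by exact_mod_cast Finset.card_biUnion_le
    refine h1.trans ?_
    rw [Finset.mul_sum]
    apply Finset.sum_le_sum
    intro ξ hξ
    rw [Finset.mem_filter, mem_Box] at hξ
    have := p2_count W X X₂ (W * X₂) hW0 hXX₂ hXX₃ r₁ r₂ r₃ ξ hξ.2.1 (hξ.2.2.1 0) hξ.1
    push_cast at this
    exact this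
  have c3 : (B3.card : ℝ) ≤ S * 153600 * ((X : ℝ) ^ 2 * (X₂ : ℝ) ^ 2 * ((W : ℝ) * X₂) ^ 2)
      / (W : ℝ) ^ 2 * (if Solv W T r₁ r₂ r₃ then sig W r₁ r₂ else 0) := by
    have h1 : (B3.card : ℝ) ≤ ∑ i ∈ (Finset.range S).filter
        (fun i => X < 2 * 2 ^ i ∧ Solv W T r₁ r₂ r₃),
        ((A.filter (fun t => Scale (2 ^ i) t.1 t.2.1 ∧ Small T t.1 t.2.1 t.2.2)).card : ℝ) := by
      exact_mod_cast Finset.card_biUnion_le
    refine h1.trans ?_
    by_cases hs : Solv W T r₁ r₂ r₃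
    · rw [if_pos hs]
      have h2 : ∀ i ∈ (Finset.range S).filter (fun i => X < 2 * 2 ^ i ∧ Solv W T r₁ r₂ r₃),
          ((A.filter (fun t => Scale (2 ^ i) t.1 t.2.1 ∧ Small T t.1 t.2.1 t.2.2)).card : ℝ)
          ≤ 153600 * sig W r₁ r₂ * ((X : ℝ) ^ 2 * (X₂ : ℝ) ^ 2 * ((W : ℝ) * X₂) ^ 2)
            / (W : ℝ) ^ 2 := by
        intro i hi
        rw [Finset.mem_filter] at hi
        exact long_scale W X X₂ T (2 ^ i) hW hX hX₂ hT hi.2.1 r₁ r₂ r₃ hr
      refine (Finset.sum_le_sum h2).trans ?_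
      rw [Finset.sum_const, nsmul_eq_mul]
      have h3 : (((Finset.range S).filter
          (fun i => X < 2 * 2 ^ i ∧ Solv W T r₁ r₂ r₃)).card : ℝ) ≤ S := by
        have := Finset.card_filter_le (Finset.range S) (fun i => X < 2 * 2 ^ i ∧ Solv W T r₁ r₂ r₃)
        rw [Finset.card_range] at this
        exact_mod_cast this
      have hs0 := sig_nonneg W r₁ r₂
      calc _ ≤ (S : ℝ) * (153600 * sig W r₁ r₂ * ((X : ℝ) ^ 2 * (X₂ : ℝ) ^ 2
            * ((W : ℝ) * X₂) ^ 2) / (W : ℝ) ^ 2) :=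
            mul_le_mul_of_nonneg_right h3 (by positivity)
        _ = _ := by ring
    · simp [hs]
  linarith

end Vale.Agent.P036
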