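import Vale.Agent.P036.Rows

/-! Averages of greatest common divisors over a class, and the count of proportional pairs. -/

namespace Vale.Agent.P036

open Finset

theorem tail3 (W X : ℕ) (hW : 0 < W) (hX : 0 < X) (r : Fin 3 → ℤ)
    (hr : ∀ i, IsCoprime (r i) (W : ℤ)) (α : (Fin 3 → ℤ) → ℕ)
    (hα : ∀ a ∈ Row (W * X) W X r, 0 < α a ∧ ∀ i, (α a : ℤ) ∣ a i) (K : ℕ) (hK : 0 < K) :
    ∑ a ∈ (Row (W * X) W X r).filter (fun a => K < α a), (α a : ℝ)
      ≤ 4 * (X : ℝ) ^ 3 / K + 16 * (W : ℝ) ^ 2 * (X : ℝ) ^ 2 := by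
  classical
  have hWX : (0 : ℤ) < W * X := by positivity
  have hmaps : ∀ a ∈ (Row (W * X) W X r).filter (fun a => K < α a),
      α a ∈ Finset.Ioc K (2 * W * X) := by
    intro a ha
    rw [Finset.mem_filter] at ha
    rw [Finset.mem_Ioc]
    refine ⟨ha.2, ?_⟩
    have h1 := (mem_Row.mp ha.1 0).1
    have h2 : (α a : ℤ) ≤ a 0 := Int.le_of_dvd (by linarith [h1.1]) ((hα a ha.1).2 0)
    have h3 : (α a : ℤ) ≤ ((2 * W * X : ℕ) : ℤ) := by push_cast; linarith [h1.2]
    exact_mod_cast h3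
  rw [← Finset.sum_fiberwise_of_maps_to hmaps]
  have hterm : ∀ d ∈ Finset.Ioc K (2 * W * X),
      ∑ a ∈ ((Row (W * X) W X r).filter (fun a => K < α a)).filter (fun a => α a = d), (α a : ℝ)
        ≤ 4 * (X : ℝ) ^ 3 * ((d : ℝ) ^ 2)⁻¹ + 4 * (2 * W * X) := by
    intro d hd
    rw [Finset.mem_Ioc] at hd
    have hd0 : 0 < d := by omega
    have hdr : (0 : ℝ) < d := by exact_mod_cast hd0
    have hsub : ((Row (W * X) W X r).filter (fun a => K < α a)).filter (fun a => α a = d)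
        ⊆ Fintype.piFinset (fun i => (Cl (W * X) W X (r i)).filter (fun u => (d : ℤ) ∣ u)) := by
      intro a ha
      simp only [Finset.mem_filter] at ha
      rw [Fintype.mem_piFinset]
      intro i
      rw [Finset.mem_filter]
      refine ⟨Row_mem_Cl ha.1.1 i, ?_⟩
      rw [← ha.2]
      exact (hα a ha.1.1).2 i
    have hcard : ((((Row (W * X) W X r).filter (fun a => K < α a)).filter
        (fun a => α a = d)).card : ℝ) ≤ ((X : ℝ) / d + 1) ^ 3 := by
      have h1 := Finset.card_le_card hsub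
      rw [Fintype.card_piFinset, Fin.prod_univ_three] at h1
      have h2 : ((((Row (W * X) W X r).filter (fun a => K < α a)).filter
        (fun a => α a = d)).card : ℝ) ≤
          (((Cl (W * X) W X (r 0)).filter (fun u => (d : ℤ) ∣ u)).card : ℝ) *
          (((Cl (W * X) W X (r 1)).filter (fun u => (d : ℤ) ∣ u)).card : ℝ) *
          (((Cl (W * X) W X (r 2)).filter (fun u => (d : ℤ) ∣ u)).card : ℝ) := by
        exact_mod_cast h1
      have h3 := card_Cl_dvd (W * X) W X hW (r 0) (hr 0) d hd0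
      have h4 := card_Cl_dvd (W * X) W X hW (r 1) (hr 1) d hd0
      have h5 := card_Cl_dvd (W * X) W X hW (r 2) (hr 2) d hd0
      calc _ ≤ _ := h2
        _ ≤ ((X : ℝ) / d + 1) * ((X : ℝ) / d + 1) * ((X : ℝ) / d + 1) := by gcongr
        _ = _ := by ring
    have hsum : ∑ a ∈ ((Row (W * X) W X r).filter (fun a => K < α a)).filter
        (fun a => α a = d), (α a : ℝ) = ((((Row (W * X) W X r).filter (fun a => K < α a)).filter
        (fun a => α a = d)).card : ℝ) * d := by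
      rw [Finset.sum_congr rfl (g := fun _ => (d : ℝ))]
      · rw [Finset.sum_const, nsmul_eq_mul]
      · intro a ha
        rw [Finset.mem_filter] at ha
        rw [ha.2]
    rw [hsum]
    have hx : (0 : ℝ) ≤ (X : ℝ) / d := by positivity
    have h6 : ((X : ℝ) / d + 1) ^ 3 ≤ 4 * (((X : ℝ) / d) ^ 3 + 1) := by
      generalize (X : ℝ) / d = t at hx
      nlinarith [mul_nonneg (add_nonneg hx zero_le_one) (sq_nonneg (t - 1))]
    have h7 : (d : ℝ) ≤ 2 * W * X := by exact_mod_cast hd.2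
    have e : 4 * (((X : ℝ) / d) ^ 3 + 1) * d = 4 * (X : ℝ) ^ 3 * ((d : ℝ) ^ 2)⁻¹ + 4 * d := by
      field_simp
    calc _ ≤ 4 * (((X : ℝ) / d) ^ 3 + 1) * d :=
          mul_le_mul_of_nonneg_right (hcard.trans h6) hdr.le
      _ = _ := e
      _ ≤ _ := by linarith
  refine (Finset.sum_le_sum hterm).trans ?_
  rw [Finset.sum_add_distrib, ← Finset.mul_sum, Finset.sum_const, nsmul_eq_mul, Nat.card_Ioc]
  have hKr : (0 : ℝ) < K := by exact_mod_cast hK
  have h1 : ∑ d ∈ Finset.Ioc K (2 * W * X), ((d : ℝ) ^ 2)⁻¹ ≤ (K : ℝ)⁻¹ := by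
    rcases le_or_gt K (2 * W * X) with h | h
    · have := sum_Ioc_inv_sq_le_sub (α := ℝ) hK.ne' h
      have h2 : (0 : ℝ) ≤ ((2 * W * X : ℕ) : ℝ)⁻¹ := by positivity
      linarith
    · rw [Finset.Ioc_eq_empty (by omega)]
      simp
  have h2 : ((2 * W * X - K : ℕ) : ℝ) ≤ 2 * W * X := by
    have : 2 * W * X - K ≤ 2 * W * X := Nat.sub_le _ _
    exact_mod_cast this
  have h3 : 4 * (X : ℝ) ^ 3 * ∑ d ∈ Finset.Ioc K (2 * W * X), ((d : ℝ) ^ 2)⁻¹
      ≤ 4 * (X : ℝ) ^ 3 / K := by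
    rw [div_eq_mul_inv]
    exact mul_le_mul_of_nonneg_left h1 (by positivity)
  have h4 : ((2 * W * X - K : ℕ) : ℝ) * (4 * (2 * W * X)) ≤ 16 * (W : ℝ) ^ 2 * (X : ℝ) ^ 2 := by
    calc _ ≤ (2 * (W : ℝ) * X) * (4 * (2 * W * X)) :=
          mul_le_mul_of_nonneg_right h2 (by positivity)
      _ = _ := by ring
  linarith

/-- Vectors orthogonal to a short vector. -/
def Atyp (W : ℕ) (a : Fin 3 → ℤ) : Prop :=
  ∃ w : Fin 3 → ℤ, w ≠ 0 ∧ dot a w = 0 ∧ nrm w < (W : ℤ) ^ 2

/-- The cube of integer vectors of norm at most `B`. -/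
noncomputable def Box (B : ℕ) : Finset (Fin 3 → ℤ) :=
  Fintype.piFinset (fun _ => Finset.Icc (-(B : ℤ)) B)

theorem mem_Box {B : ℕ} {w : Fin 3 → ℤ} : w ∈ Box B ↔ nrm w ≤ B := by
  rw [nrm_le_iff]
  simp [Box, abs_le]

theorem card_Box (B : ℕ) : ((Box B).card : ℝ) = (2 * B + 1) ^ 3 := by
  unfold Box
  rw [Fintype.card_piFinset, Finset.prod_const, Finset.card_univ, Fintype.card_fin, Int.card_Icc]
  have : ((B : ℤ) + 1 - -(B : ℤ)).toNat = 2 * B + 1 := by omega
  rw [this]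
  push_cast
  ring

theorem dot_comm {R : Type} [CommRing R] (a b : Fin 3 → R) : dot a b = dot b a := by
  simp only [dot]; ring

theorem dot_sub {R : Type} [CommRing R] (a b c : Fin 3 → R) :
    dot a (b - c) = dot a b - dot a c := by
  simp only [dot, Pi.sub_apply]; ring

open Classical in
theorem card_atyp (lo : ℤ) (W X : ℕ) (hW : 0 < W) (r : Fin 3 → ℤ) :
    (((Row lo W X r).filter (Atyp W)).card : ℝ) ≤ 27 * (W : ℝ) ^ 6 * (X : ℝ) ^ 2 := by
  have h := card_le_sum_of_cover ((Row lo W X r).filter (Atyp W))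
    ((Box (W ^ 2)).filter (fun w => w ≠ 0))
    (fun w => (Row lo W X r).filter (fun a => dot a w = 0)) ?_
  · refine h.trans ?_
    have h1 : ∀ w ∈ (Box (W ^ 2)).filter (fun w => w ≠ 0),
        (((Row lo W X r).filter (fun a => dot a w = 0)).card : ℝ) ≤ (X : ℝ) ^ 2 := by
      intro w hw
      rw [Finset.mem_filter] at hw
      apply row_plane_crude w hw.2 lo W X hW r _ (Finset.filter_subset _ _)
      intro u hu u' hu'
      rw [Finset.mem_filter] at hu hu'
      rw [dot_sub, dot_comm w u, dot_comm w u', hu.2, hu'.2, sub_self]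
    refine (Finset.sum_le_sum h1).trans ?_
    rw [Finset.sum_const, nsmul_eq_mul]
    apply mul_le_mul_of_nonneg_right _ (by positivity)
    have h2 : (((Box (W ^ 2)).filter (fun w => w ≠ 0)).card : ℝ) ≤ (Box (W ^ 2)).card := by
      exact_mod_cast Finset.card_filter_le _ _
    rw [card_Box] at h2
    have h3 : (1 : ℝ) ≤ W := by exact_mod_cast hW
    have h4 : (1 : ℝ) ≤ (W : ℝ) ^ 2 := one_le_pow₀ h3
    push_cast at h2
    calc _ ≤ _ := h2
      _ ≤ (3 * (W : ℝ) ^ 2) ^ 3 := by gcongr; linarith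
      _ = _ := by ring
  · intro a ha
    rw [Finset.mem_filter] at ha
    obtain ⟨w, hw0, hw1, hw2⟩ := ha.2
    refine ⟨w, ?_, ?_⟩
    · rw [Finset.mem_filter, mem_Box]
      refine ⟨?_, hw0⟩
      push_cast
      exact hw2.le
    · rw [Finset.mem_filter]
      exact ⟨ha.1, hw1⟩

open Classical in
theorem theta_sum (W X : ℕ) (hW : 0 < W) (hX : 59 * W ^ 10 ≤ X) (r : Fin 3 → ℤ)
    (hr : ∀ i, IsCoprime (r i) (W : ℤ)) (α : (Fin 3 → ℤ) → ℕ)
    (hα : ∀ a ∈ Row (W * X) W X r, 0 < α a ∧ ∀ i, (α a : ℤ) ∣ a i) :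
    ∑ a ∈ Row (W * X) W X r, (α a : ℝ) * (if Atyp W a then (W : ℝ) ^ 2 else 1)
      ≤ 10 * (X : ℝ) ^ 3 := by
  have hX0 : 0 < X := lt_of_lt_of_le (by positivity) hX
  have hW1 : (1 : ℝ) ≤ W := by exact_mod_cast hW
  have hXr : 59 * (W : ℝ) ^ 10 ≤ X := by exact_mod_cast hX
  have t1 := tail3 W X hW hX0 r hr α hα 1 one_pos
  have t2 := tail3 W X hW hX0 r hr α hα (W ^ 2) (by positivity)
  have c1 := card_Row_le (W * X) W X hW r
  have c2 := card_atyp (W * X) W X hW r
  have hpt : ∀ a ∈ Row (W * X) W X r, (α a : ℝ) * (if Atyp W a then (W : ℝ) ^ 2 else 1)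
      ≤ 1 + (if 1 < α a then (α a : ℝ) else 0)
        + (W : ℝ) ^ 4 * (if Atyp W a then 1 else 0)
        + (W : ℝ) ^ 2 * (if W ^ 2 < α a then (α a : ℝ) else 0) := by
    intro a _
    have hα0 : (0 : ℝ) ≤ α a := Nat.cast_nonneg _
    have hW2 : (0 : ℝ) ≤ (W : ℝ) ^ 2 := by positivity
    have hW4 : (0 : ℝ) ≤ (W : ℝ) ^ 4 := by positivity
    by_cases h1 : Atyp W a
    · simp only [h1, if_true]
      by_cases h2 : W ^ 2 < α a
      · simp only [h2, if_true]
        split_ifs <;> nlinarith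
      · simp only [h2, if_false]
        have h3 : (α a : ℝ) ≤ (W : ℝ) ^ 2 := by exact_mod_cast not_lt.mp h2
        split_ifs <;> nlinarith
    · simp only [h1, if_false]
      have h4 : 0 ≤ (W : ℝ) ^ 2 * (if W ^ 2 < α a then (α a : ℝ) else 0) := by
        apply mul_nonneg hW2; split_ifs <;> positivity
      by_cases h2 : 1 < α a
      · simp only [h2, if_true]; linarith
      · simp only [h2, if_false]
        have h3 : (α a : ℝ) ≤ 1 := by exact_mod_cast not_lt.mp h2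
        linarith
  refine (Finset.sum_le_sum hpt).trans ?_
  rw [Finset.sum_add_distrib, Finset.sum_add_distrib, Finset.sum_add_distrib, ← Finset.mul_sum,
    ← Finset.mul_sum, ← Finset.sum_filter, ← Finset.sum_filter, ← Finset.sum_filter,
    Finset.sum_const, Finset.sum_const, nsmul_eq_mul, nsmul_eq_mul, mul_one, mul_one]
  push_cast at t1 t2
  have hW0 : (0 : ℝ) < W := by linarith
  have e2 : (W : ℝ) ^ 2 * (4 * (X : ℝ) ^ 3 / (W : ℝ) ^ 2 + 16 * (W : ℝ) ^ 2 * (X : ℝ) ^ 2)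
      = 4 * (X : ℝ) ^ 3 + 16 * (W : ℝ) ^ 4 * (X : ℝ) ^ 2 := by field_simp
  have t3 := mul_le_mul_of_nonneg_left t2 (show (0 : ℝ) ≤ (W : ℝ) ^ 2 by positivity)
  rw [e2] at t3
  have t4 := mul_le_mul_of_nonneg_left c2 (show (0 : ℝ) ≤ (W : ℝ) ^ 4 by positivity)
  have p1 : (W : ℝ) ^ 2 ≤ (W : ℝ) ^ 10 := pow_le_pow_right₀ hW1 (by norm_num)
  have p2 : (W : ℝ) ^ 4 ≤ (W : ℝ) ^ 10 := pow_le_pow_right₀ hW1 (by norm_num)
  have hX2 : (0 : ℝ) ≤ (X : ℝ) ^ 2 := by positivity
  have q1 := mul_le_mul_of_nonneg_right p1 hX2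
  have q2 := mul_le_mul_of_nonneg_right p2 hX2
  have q3 := mul_le_mul_of_nonneg_right hXr hX2
  nlinarith

/-- Count of proportional pairs. -/
theorem pair_count (W X X₂ : ℕ) (hW : 0 < W) (hX : 0 < X) (hX₂ : W * X ≤ X₂)
    (hlog : 1 + Real.log (2 * W * X) ≤ 16 * (W : ℝ) ^ 2) (r r' s s' : ℤ)
    (hr : IsCoprime r (W : ℤ)) (hr' : IsCoprime r' (W : ℤ)) :
    ((((Cl (W * X) W X r ×ˢ Cl (W * X) W X r') ×ˢ (Cl 0 W X₂ s ×ˢ Cl 0 W X₂ s')).filter
      (fun t => t.1.1 * t.2.2 = t.1.2 * t.2.1)).card : ℝ) ≤ 80 * W * X * X₂ := by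
  classical
  have hWr : (0 : ℝ) < W := by exact_mod_cast hW
  have hXr : (0 : ℝ) < X := by exact_mod_cast hX
  have hWz : (0 : ℤ) < W := by exact_mod_cast hW
  have hWX : (0 : ℤ) < W * X := by positivity
  have hX₂r : (W : ℝ) * X ≤ X₂ := by exact_mod_cast hX₂
  have h1 := card_filter_prod_le (Cl (W * X) W X r ×ˢ Cl (W * X) W X r')
    (Cl 0 W X₂ s ×ˢ Cl 0 W X₂ s') (fun t => t.1.1 * t.2.2 = t.1.2 * t.2.1)
    (fun x => 2 * X₂ / (W * X) * (Int.gcd x.1 x.2 : ℝ)) ?_
  · refine h1.trans ?_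
    rw [← Finset.mul_sum]
    have hmaps : ∀ x ∈ Cl (W * X) W X r ×ˢ Cl (W * X) W X r',
        Int.gcd x.1 x.2 ∈ Finset.Icc 1 (2 * W * X) := by
      intro x hx
      rw [Finset.mem_product] at hx
      have h2 := (mem_Cl.mp hx.1).1
      have hpos : 0 < x.1 := by linarith [h2.1]
      rw [Finset.mem_Icc]
      constructor
      · exact Int.gcd_pos_of_ne_zero_left _ hpos.ne'
      · have h3 : (Int.gcd x.1 x.2 : ℤ) ≤ x.1 := Int.le_of_dvd hpos (Int.gcd_dvd_left _ _)
        have h4 : (Int.gcd x.1 x.2 : ℤ) ≤ ((2 * W * X : ℕ) : ℤ) := by push_cast; linarith [h2.2]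
        exact_mod_cast h4
    have hsum : ∑ x ∈ Cl (W * X) W X r ×ˢ Cl (W * X) W X r', (Int.gcd x.1 x.2 : ℝ)
        ≤ 40 * (W : ℝ) ^ 2 * (X : ℝ) ^ 2 := by
      rw [← Finset.sum_fiberwise_of_maps_to hmaps]
      have hterm : ∀ d ∈ Finset.Icc 1 (2 * W * X),
          ∑ x ∈ (Cl (W * X) W X r ×ˢ Cl (W * X) W X r').filter (fun x => Int.gcd x.1 x.2 = d),
            (Int.gcd x.1 x.2 : ℝ) ≤ 2 * (X : ℝ) ^ 2 * (d : ℝ)⁻¹ + 2 * (2 * W * X) := by
        intro d hd
        rw [Finset.mem_Icc] at hd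
        have hd0 : 0 < d := by omega
        have hdr : (0 : ℝ) < d := by exact_mod_cast hd0
        have hsub : (Cl (W * X) W X r ×ˢ Cl (W * X) W X r').filter (fun x => Int.gcd x.1 x.2 = d)
            ⊆ ((Cl (W * X) W X r).filter (fun u => (d : ℤ) ∣ u)) ×ˢ
              ((Cl (W * X) W X r').filter (fun u => (d : ℤ) ∣ u)) := by
          intro x hx
          simp only [Finset.mem_filter, Finset.mem_product] at hx ⊢
          rw [← hx.2]
          exact ⟨⟨hx.1.1, Int.gcd_dvd_left _ _⟩, ⟨hx.1.2, Int.gcd_dvd_right _ _⟩⟩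
        have hcard : (((Cl (W * X) W X r ×ˢ Cl (W * X) W X r').filter
            (fun x => Int.gcd x.1 x.2 = d)).card : ℝ) ≤ ((X : ℝ) / d + 1) ^ 2 := by
          have h1 := Finset.card_le_card hsub
          rw [Finset.card_product] at h1
          have h2 : (((Cl (W * X) W X r ×ˢ Cl (W * X) W X r').filter
            (fun x => Int.gcd x.1 x.2 = d)).card : ℝ) ≤
              (((Cl (W * X) W X r).filter (fun u => (d : ℤ) ∣ u)).card : ℝ) *
              (((Cl (W * X) W X r').filter (fun u => (d : ℤ) ∣ u)).card : ℝ) := by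
            exact_mod_cast h1
          have h3 := card_Cl_dvd (W * X) W X hW r hr d hd0
          have h4 := card_Cl_dvd (W * X) W X hW r' hr' d hd0
          calc _ ≤ _ := h2
            _ ≤ ((X : ℝ) / d + 1) * ((X : ℝ) / d + 1) := by gcongr
            _ = _ := by ring
        rw [Finset.sum_congr rfl (g := fun _ => (d : ℝ))]
        · rw [Finset.sum_const, nsmul_eq_mul]
          have h6 : ((X : ℝ) / d + 1) ^ 2 ≤ 2 * (((X : ℝ) / d) ^ 2 + 1) := by
            nlinarith [sq_nonneg ((X : ℝ) / d - 1)]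
          have h7 : (d : ℝ) ≤ 2 * W * X := by exact_mod_cast hd.2
          have e : 2 * (((X : ℝ) / d) ^ 2 + 1) * d = 2 * (X : ℝ) ^ 2 * (d : ℝ)⁻¹ + 2 * d := by
            field_simp
          calc _ ≤ 2 * (((X : ℝ) / d) ^ 2 + 1) * d :=
                mul_le_mul_of_nonneg_right (hcard.trans h6) hdr.le
            _ = _ := e
            _ ≤ _ := by linarith
        · intro x hx
          rw [Finset.mem_filter] at hx
          rw [hx.2]
      refine (Finset.sum_le_sum hterm).trans ?_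
      rw [Finset.sum_add_distrib, ← Finset.mul_sum, Finset.sum_const, nsmul_eq_mul, Nat.card_Icc]
      have hh : ∑ d ∈ Finset.Icc 1 (2 * W * X), (d : ℝ)⁻¹ ≤ 16 * (W : ℝ) ^ 2 := by
        have h1 := harmonic_le_one_add_log (2 * W * X)
        rw [harmonic_eq_sum_Icc] at h1
        push_cast at h1
        linarith
      have h2 := mul_le_mul_of_nonneg_left hh (show (0 : ℝ) ≤ 2 * (X : ℝ) ^ 2 by positivity)
      simp only [Nat.add_sub_cancel]
      push_cast
      nlinarith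
    calc _ ≤ 2 * X₂ / (W * X) * (40 * (W : ℝ) ^ 2 * (X : ℝ) ^ 2) :=
          mul_le_mul_of_nonneg_left hsum (by positivity)
      _ = _ := by field_simp; ring
  · intro x hx
    rw [Finset.mem_product] at hx
    have h2 := (mem_Cl.mp hx.1).1
    have hpos : 0 < x.1 := by linarith [h2.1]
    have hg : 0 < Int.gcd x.1 x.2 := Int.gcd_pos_of_ne_zero_left _ hpos.ne'
    have hgr : (0 : ℝ) < Int.gcd x.1 x.2 := by exact_mod_cast hg
    have hg1 : (1 : ℝ) ≤ Int.gcd x.1 x.2 := by exact_mod_cast hg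
    have h3 := card_le_of_sep ((Cl 0 W X₂ s ×ˢ Cl 0 W X₂ s').filter
      (fun b => x.1 * b.2 = x.2 * b.1)) (fun b => b.1) (W * (W * X) / (Int.gcd x.1 x.2 : ℝ))
      (W * X₂) (by positivity) (by positivity) ?_ ?_
    · refine h3.trans ?_
      have e : (W : ℝ) * X₂ / (W * (W * X) / (Int.gcd x.1 x.2 : ℝ))
          = X₂ / (W * X) * (Int.gcd x.1 x.2 : ℝ) := by field_simp
      rw [e]
      have h4 : 1 ≤ (X₂ : ℝ) / (W * X) := by rw [le_div_iff₀ (by positivity)]; linarith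
      have e2 : 2 * (X₂ : ℝ) / (W * X) * (Int.gcd x.1 x.2 : ℝ)
          = X₂ / (W * X) * (Int.gcd x.1 x.2 : ℝ) + X₂ / (W * X) * (Int.gcd x.1 x.2 : ℝ) := by ring
      rw [e2]
      nlinarith
    · intro b hb b' hb' hne
      simp only [Finset.mem_filter, Finset.mem_product] at hb hb'
      obtain ⟨w, hw⟩ := Cl_dvd hb.1.1 hb'.1.1
      obtain ⟨w', hw'⟩ := Cl_dvd hb.1.2 hb'.1.2
      have hw0 : w ≠ 0 := by
        rintro rfl
        apply hne
        have e1 : b.1 = b'.1 := by linarith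
        have e2 : x.1 * b.2 = x.1 * b'.2 := by rw [hb.2, hb'.2, e1]
        exact Prod.ext e1 (mul_left_cancel₀ hpos.ne' e2)
      have hrel : x.1 * w' = x.2 * w := by
        apply mul_left_cancel₀ hWz.ne'
        linear_combination hb.2 - hb'.2 - x.1 * hw' + x.2 * hw
      obtain ⟨a, b₀, hab, ha, hb₀⟩ := Int.exists_gcd_one hg
      generalize Int.gcd x.1 x.2 = g at *
      have hgz : (0 : ℤ) < g := by exact_mod_cast hg
      have hrel2 : a * w' = b₀ * w := by
        apply mul_left_cancel₀ hgz.ne'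
        rw [ha, hb₀] at hrel
        linear_combination hrel
      have hcop : IsCoprime a b₀ := Int.isCoprime_iff_gcd_eq_one.mpr hab
      have hdvd : a ∣ w := hcop.dvd_of_dvd_mul_left ⟨w', hrel2.symm⟩
      have hapos : 0 < a := by
        by_contra hc
        push Not at hc
        have : a * g ≤ 0 := mul_nonpos_of_nonpos_of_nonneg hc hgz.le
        linarith
      have h5 : a ≤ |w| := Int.le_of_dvd (abs_pos.mpr hw0) ((dvd_abs _ _).mpr hdvd)
      have h6 : (W : ℤ) * (W * X) ≤ |b.1 - b'.1| * g := by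
        rw [hw, abs_mul, abs_of_pos hWz]
        have h7 : (W : ℤ) * X ≤ |w| * g := by nlinarith [h2.1]
        nlinarith
      rw [div_le_iff₀ hgr]
      exact_mod_cast h6
    · intro b hb b' hb'
      simp only [Finset.mem_filter, Finset.mem_product] at hb hb'
      exact_mod_cast Cl_diam hb.1.1 hb'.1.1

end Vale.Agent.P036
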