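import Vale.Agent.P036.Basic

/-! An alternating function of bounded tensor rank that does not vanish on distinct triples. -/

namespace Vale.Agent.P036

open Finset

/-- Tensor rank at most `R`. -/
def Rk {Λ k : Type} [CommRing k] (F : Λ → Λ → Λ → k) (R : ℕ) : Prop :=
  ∃ (ι : Type) (_ : Fintype ι), Fintype.card ι ≤ R ∧ ∃ f g h : ι → Λ → k,
    ∀ x y z, F x y z = ∑ r, f r x * g r y * h r z

section
variable {Λ k : Type} [CommRing k]

theorem Rk.single (f g h : Λ → k) : Rk (fun x y z => f x * g y * h z) 1 :=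
  ⟨Unit, inferInstance, by simp, fun _ => f, fun _ => g, fun _ => h, by simp⟩

theorem Rk.congr {F G : Λ → Λ → Λ → k} {R : ℕ} (h : Rk F R) (e : ∀ x y z, G x y z = F x y z) :
    Rk G R := by
  have : G = F := by funext x y z; exact e x y z
  rwa [this]

theorem Rk.mono {F : Λ → Λ → Λ → k} {R R' : ℕ} (h : Rk F R) (e : R ≤ R') : Rk F R' := by
  obtain ⟨ι, hι, hc, r⟩ := h
  exact ⟨ι, hι, hc.trans e, r⟩

theorem Rk.add {F G : Λ → Λ → Λ → k} {R R' : ℕ} (hF : Rk F R) (hG : Rk G R') :
    Rk (fun x y z => F x y z + G x y z) (R + R') := by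
  obtain ⟨ι, hι, hc, f, g, h, e⟩ := hF
  obtain ⟨ι', hι', hc', f', g', h', e'⟩ := hG
  refine ⟨ι ⊕ ι', inferInstance, by simp; omega, Sum.elim f f', Sum.elim g g', Sum.elim h h', ?_⟩
  intro x y z
  simp [e, e']

theorem Rk.mul {F G : Λ → Λ → Λ → k} {R R' : ℕ} (hF : Rk F R) (hG : Rk G R') :
    Rk (fun x y z => F x y z * G x y z) (R * R') := by
  obtain ⟨ι, hι, hc, f, g, h, e⟩ := hF
  obtain ⟨ι', hι', hc', f', g', h', e'⟩ := hG
  refine ⟨ι × ι', inferInstance, by simpa using Nat.mul_le_mul hc hc',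
    fun r x => f r.1 x * f' r.2 x, fun r x => g r.1 x * g' r.2 x,
    fun r x => h r.1 x * h' r.2 x, ?_⟩
  intro x y z
  simp only [e, e', Finset.sum_mul_sum, Fintype.sum_prod_type]
  refine Finset.sum_congr rfl fun i _ => Finset.sum_congr rfl fun j _ => by ring

theorem Rk.sum {β : Type} (s : Finset β) (F : β → Λ → Λ → Λ → k) (R : ℕ)
    (h : ∀ b ∈ s, Rk (F b) R) : Rk (fun x y z => ∑ b ∈ s, F b x y z) (s.card * R) := by
  classical
  induction s using Finset.induction_on with
  | empty => exact ⟨Empty, inferInstance, by simp, fun _ => 0, fun _ => 0, fun _ => 0, by simp⟩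
  | insert a s ha ih =>
    have h1 := (h a (Finset.mem_insert_self _ _)).add
      (ih (fun b hb => h b (Finset.mem_insert_of_mem hb)))
    refine (h1.congr ?_).mono ?_
    · intro x y z; rw [Finset.sum_insert ha]
    · rw [Finset.card_insert_of_notMem ha]; ring_nf; exact le_rfl

theorem Rk.prod {β : Type} (s : Finset β) (F : β → Λ → Λ → Λ → k) (R : ℕ)
    (h : ∀ b ∈ s, Rk (F b) R) : Rk (fun x y z => ∏ b ∈ s, F b x y z) (R ^ s.card) := by
  classical
  induction s using Finset.induction_on with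
  | empty =>
    refine ((Rk.single (fun _ => 1) (fun _ => 1) (fun _ => 1)).congr ?_).mono (by simp)
    intro x y z; simp
  | insert a s ha ih =>
    have h1 := (h a (Finset.mem_insert_self _ _)).mul
      (ih (fun b hb => h b (Finset.mem_insert_of_mem hb)))
    refine (h1.congr ?_).mono ?_
    · intro x y z; rw [Finset.prod_insert ha]
    · rw [Finset.card_insert_of_notMem ha]; ring_nf; exact le_rfl

theorem Rk.det {e : ℕ} (M : Λ → Λ → Λ → Matrix (Fin e) (Fin e) k)
    (h : ∀ i j, Rk (fun x y z => M x y z i j) 2) :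
    Rk (fun x y z => (M x y z).det) (e.factorial * (1 * 2 ^ e)) := by
  have h1 : ∀ σ ∈ (Finset.univ : Finset (Equiv.Perm (Fin e))),
      Rk (fun x y z => ((Equiv.Perm.sign σ : ℤ) : k) * ∏ i, M x y z (σ i) i) (1 * 2 ^ e) := by
    intro σ _
    have h2 := Rk.prod Finset.univ (fun i x y z => M x y z (σ i) i) 2 (fun i _ => h (σ i) i)
    rw [Finset.card_univ, Fintype.card_fin] at h2
    refine ((Rk.single (fun _ => ((Equiv.Perm.sign σ : ℤ) : k)) (fun _ => 1) (fun _ => 1)).mul
      h2).congr ?_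
    intro x y z; simp
  have h3 := Rk.sum Finset.univ _ _ h1
  rw [Finset.card_univ, Fintype.card_perm, Fintype.card_fin] at h3
  refine h3.congr ?_
  intro x y z
  rw [Matrix.det_apply']

theorem Rk.nat {F : Λ → Λ → Λ → k} {R : ℕ} (hF : Rk F R) :
    ∃ f g h : ℕ → Λ → k, ∀ x y z, F x y z = ∑ r ∈ Finset.range R, f r x * g r y * h r z := by
  obtain ⟨ι, hι, hc, f, g, h, e⟩ := hF
  let E := (Fintype.equivFin ι).symm
  refine ⟨fun r x => if hr : r < Fintype.card ι then f (E ⟨r, hr⟩) x else 0,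
    fun r x => if hr : r < Fintype.card ι then g (E ⟨r, hr⟩) x else 0,
    fun r x => if hr : r < Fintype.card ι then h (E ⟨r, hr⟩) x else 0, ?_⟩
  intro x y z
  rw [e, ← Finset.sum_subset (Finset.range_subset_range.mpr hc), Finset.sum_range,
    ← E.sum_comp]
  · refine Finset.sum_congr rfl fun i _ => ?_
    simp
  · intro r _ hr
    rw [Finset.mem_range] at hr
    simp [hr]

end

theorem six_ne_zero (p : ℕ) (hp : p.Prime) (hp5 : 5 ≤ p) : (6 : ZMod p) ≠ 0 := by
  intro h
  have h1 : ((6 : ℕ) : ZMod p) = 0 := by exact_mod_cast h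
  rw [ZMod.natCast_eq_zero_iff] at h1
  have h2 : p ≤ 6 := Nat.le_of_dvd (by norm_num) h1
  interval_cases p
  · norm_num at h1
  · norm_num at hp

/-- The label system. -/
theorem exists_labels (e : ℕ) (he : Odd e) : ∃ R : ℕ, 0 < R ∧ ∀ (p : ℕ) [Fact p.Prime], 5 ≤ p →
    ∃ A B C : ℕ → Fin (p ^ e) → ZMod p, ∀ ζ : Fin 3 → Fin (p ^ e),
      ζ 0 ≠ ζ 1 → ζ 1 ≠ ζ 2 → ζ 2 ≠ ζ 0 →
      ∑ r ∈ Finset.range R,
        dot (cr (fun t => A r (ζ t)) (fun t => B r (ζ t))) (fun t => C r (ζ t)) ≠ 0 := by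
  refine ⟨(e.factorial * (1 * 2 ^ e)) * (e.factorial * (1 * 2 ^ e)) * (e.factorial * (1 * 2 ^ e)),
    by positivity, ?_⟩
  intro p hp hp5
  have he0 : e ≠ 0 := by rintro rfl; simp at he
  let K := GaloisField p e
  let _ : Fintype K := Fintype.ofFinite K
  have hcard : Fintype.card K = p ^ e := by
    rw [← Nat.card_eq_fintype_card]; exact GaloisField.card p e he0
  let E : Fin (p ^ e) ≃ K := (Fintype.equivFinOfCardEq hcard).symm
  have hfr : Module.finrank (ZMod p) K = e := GaloisField.finrank p he0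
  let b : Module.Basis (Fin e) (ZMod p) K := Module.finBasisOfFinrankEq (ZMod p) K hfr
  let L : K → Matrix (Fin e) (Fin e) (ZMod p) := fun x => Algebra.leftMulMatrix b x
  let N : K → ZMod p := fun x => Algebra.norm (ZMod p) x
  have hN : ∀ x y, N (x - y) = (L x - L y).det := by
    intro x y
    show Algebra.norm (ZMod p) (x - y) = _
    rw [Algebra.norm_eq_matrix_det b, map_sub]
  have hneg : ∀ x y, N (y - x) = - N (x - y) := by
    intro x y
    have h1 : y - x = algebraMap (ZMod p) K (-1) * (x - y) := by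
      rw [map_neg, map_one]; ring
    show Algebra.norm (ZMod p) (y - x) = - Algebra.norm (ZMod p) (x - y)
    rw [h1, map_mul, Algebra.norm_algebraMap, hfr, he.neg_one_pow]
    ring
  have hne : ∀ x y, x ≠ y → N (x - y) ≠ 0 := by
    intro x y hxy
    exact Algebra.norm_ne_zero_iff.mpr (sub_ne_zero.mpr hxy)
  have r1 : Rk (fun x y (_ : K) => N (x - y)) (e.factorial * (1 * 2 ^ e)) := by
    refine (Rk.det (fun x y _ => L x - L y) ?_).congr (fun x y _ => hN x y)
    intro i j
    refine ((Rk.single (fun x => L x i j) (fun _ => 1) (fun _ => 1)).add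
      (Rk.single (fun _ => -1) (fun y => L y i j) (fun _ => 1))).congr ?_
    intro x y z; simp [sub_eq_add_neg]
  have r2 : Rk (fun (_ : K) y z => N (y - z)) (e.factorial * (1 * 2 ^ e)) := by
    refine (Rk.det (fun _ y z => L y - L z) ?_).congr (fun _ y z => hN y z)
    intro i j
    refine ((Rk.single (fun _ => 1) (fun y => L y i j) (fun _ => 1)).add
      (Rk.single (fun _ => -1) (fun _ => 1) (fun z => L z i j))).congr ?_
    intro x y z; simp [sub_eq_add_neg]
  have r3 : Rk (fun x (_ : K) z => N (z - x)) (e.factorial * (1 * 2 ^ e)) := by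
    refine (Rk.det (fun x _ z => L z - L x) ?_).congr (fun x _ z => hN z x)
    intro i j
    refine ((Rk.single (fun _ => 1) (fun _ => 1) (fun z => L z i j)).add
      (Rk.single (fun x => L x i j) (fun _ => -1) (fun _ => 1))).congr ?_
    intro x y z; simp [sub_eq_add_neg]
  obtain ⟨f, g, h, hF⟩ := ((r1.mul r2).mul r3).nat
  refine ⟨fun r x => f r (E x), fun r x => g r (E x), fun r x => h r (E x), ?_⟩
  intro ζ h01 h12 h20
  set x := E (ζ 0)
  set y := E (ζ 1)
  set z := E (ζ 2)
  have hxy : x ≠ y := fun h => h01 (E.injective h)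
  have hyz : y ≠ z := fun h => h12 (E.injective h)
  have hzx : z ≠ x := fun h => h20 (E.injective h)
  have key : ∑ r ∈ Finset.range ((e.factorial * (1 * 2 ^ e)) * (e.factorial * (1 * 2 ^ e)) *
        (e.factorial * (1 * 2 ^ e))),
        dot (cr (fun t => f r (E (ζ t))) (fun t => g r (E (ζ t)))) (fun t => h r (E (ζ t)))
      = 6 * (N (x - y) * N (y - z) * N (z - x)) := by
    have e1 := hF x y z
    have e2 := hF y z x
    have e3 := hF z x y
    have e4 := hF y x z
    have e5 := hF z y x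
    have e6 := hF x z y
    rw [hneg x y, hneg z x, hneg y z] at e4 e5 e6
    have : ∀ r, dot (cr (fun t => f r (E (ζ t))) (fun t => g r (E (ζ t))))
        (fun t => h r (E (ζ t))) = f r x * g r y * h r z + f r y * g r z * h r x
          + f r z * g r x * h r y - f r y * g r x * h r z - f r z * g r y * h r x
          - f r x * g r z * h r y := by
      intro r
      simp only [dot, cr_0, cr_1, cr_2]
      ring
    simp only [this, Finset.sum_sub_distrib, Finset.sum_add_distrib]
    rw [← e1, ← e2, ← e3, ← e4, ← e5, ← e6]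
    ring
  rw [key]
  have h6 := six_ne_zero p hp.out hp5
  exact mul_ne_zero h6 (mul_ne_zero (mul_ne_zero (hne _ _ hxy) (hne _ _ hyz)) (hne _ _ hzx))

end Vale.Agent.P036
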