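import Vale.Agent.P036.Gcd

/-! The contribution of long relation vectors. -/

namespace Vale.Agent.P036

open Finset

theorem cr_congr {W : ℤ} {a b r s : Fin 3 → ℤ} (ha : ∀ i, W ∣ a i - r i)
    (hb : ∀ i, W ∣ b i - s i) : ∀ i, W ∣ cr a b i - cr r s i := by
  obtain ⟨x0, h0⟩ := ha 0
  obtain ⟨x1, h1⟩ := ha 1
  obtain ⟨x2, h2⟩ := ha 2
  obtain ⟨y0, k0⟩ := hb 0
  obtain ⟨y1, k1⟩ := hb 1
  obtain ⟨y2, k2⟩ := hb 2
  rw [forall3]
  simp only [cr_0, cr_1, cr_2]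
  refine ⟨⟨x1 * b 2 + r 1 * y2 - x2 * b 1 - r 2 * y1, ?_⟩,
    ⟨x2 * b 0 + r 2 * y0 - x0 * b 2 - r 0 * y2, ?_⟩,
    ⟨x0 * b 1 + r 0 * y1 - x1 * b 0 - r 1 * y0, ?_⟩⟩
  · linear_combination (b 2) * h1 + (r 1) * k2 - (b 1) * h2 - (r 2) * k1
  · linear_combination (b 0) * h2 + (r 2) * k0 - (b 2) * h0 - (r 0) * k2
  · linear_combination (b 1) * h0 + (r 0) * k1 - (b 0) * h1 - (r 1) * k0

theorem dot_congr {W : ℤ} {a b r s : Fin 3 → ℤ} (ha : ∀ i, W ∣ a i - r i)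
    (hb : ∀ i, W ∣ b i - s i) : W ∣ dot a b - dot r s := by
  obtain ⟨x0, h0⟩ := ha 0
  obtain ⟨x1, h1⟩ := ha 1
  obtain ⟨x2, h2⟩ := ha 2
  obtain ⟨y0, k0⟩ := hb 0
  obtain ⟨y1, k1⟩ := hb 1
  obtain ⟨y2, k2⟩ := hb 2
  refine ⟨x0 * b 0 + r 0 * y0 + x1 * b 1 + r 1 * y1 + x2 * b 2 + r 2 * y2, ?_⟩
  simp only [dot]
  linear_combination (b 0) * h0 + (r 0) * k0 + (b 1) * h1 + (r 1) * k1 + (b 2) * h2 + (r 2) * k2

theorem Row_congr {lo : ℤ} {W X : ℕ} {r u : Fin 3 → ℤ} (hu : u ∈ Row lo W X r) :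
    ∀ i, (W : ℤ) ∣ u i - r i := fun i => (mem_Row.mp hu i).2

theorem eq_of_small {W T : ℕ} (hT : 2 * T < W) {t t' : ℤ} (ht : |t| ≤ T) (ht' : |t'| ≤ T)
    (h : (W : ℤ) ∣ t - t') : t = t' := by
  have h1 : |t - t'| < W := by
    have := abs_sub t t'
    have h2 : (2 * T : ℤ) < W := by exact_mod_cast hT
    linarith
  exact sub_eq_zero.mp (Int.eq_zero_of_abs_lt_dvd h h1)

theorem dot_cr_left {R : Type} [CommRing R] (a b : Fin 3 → R) : dot (cr a b) a = 0 := by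
  simp only [dot, cr_0, cr_1, cr_2]; ring

theorem dot_cr_right {R : Type} [CommRing R] (a b : Fin 3 → R) : dot (cr a b) b = 0 := by
  simp only [dot, cr_0, cr_1, cr_2]; ring

theorem dot_of_mul {n ξ c : Fin 3 → ℤ} {γ : ℤ} (h : ∀ i, n i = γ * ξ i) :
    dot n c = γ * dot ξ c := by
  simp only [dot, h]; ring

theorem nrm_RowA {W X : ℕ} {r a : Fin 3 → ℤ} (ha : a ∈ Row (W * X) W X r) :
    nrm a ≤ 2 * W * X := by
  rw [nrm_le_iff]
  intro i
  have := (mem_Row.mp ha i).1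
  have h0 : (0 : ℤ) ≤ W * X := by positivity
  rw [abs_le]; constructor <;> linarith [this.1, this.2]

theorem nrm_Row0 {W X : ℕ} {r a : Fin 3 → ℤ} (ha : a ∈ Row 0 W X r) : nrm a ≤ W * X := by
  rw [nrm_le_iff]
  intro i
  have := (mem_Row.mp ha i).1
  have h0 : (0 : ℤ) ≤ W * X := by positivity
  rw [abs_le]; constructor <;> linarith [this.1, this.2]

/-- The sum of the common divisors of `W` and of the cross product. -/
noncomputable def sig (W : ℕ) (r s : Fin 3 → ℤ) : ℝ :=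
  ∑ g ∈ W.divisors.filter (fun g : ℕ => ∀ i, (g : ℤ) ∣ cr r s i), (g : ℝ)

theorem sig_nonneg (W : ℕ) (r s : Fin 3 → ℤ) : 0 ≤ sig W r s :=
  Finset.sum_nonneg (fun _ _ => Nat.cast_nonneg _)

theorem gcd_sq_sum (W : ℕ) (hW : 0 < W) (r s : Fin 3 → ℤ) (J : ℝ) (hJ : 0 ≤ J) :
    ∑ j ∈ (Finset.Ioc 0 ⌊J⌋₊).filter (fun j => ∀ i, ((Nat.gcd j W : ℕ) : ℤ) ∣ cr r s i),
      ((Nat.gcd j W : ℕ) : ℝ) ^ 2 ≤ J * sig W r s := by
  classical
  have hmaps : ∀ j ∈ (Finset.Ioc 0 ⌊J⌋₊).filter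
      (fun j => ∀ i, ((Nat.gcd j W : ℕ) : ℤ) ∣ cr r s i),
      Nat.gcd j W ∈ W.divisors.filter (fun g : ℕ => ∀ i, (g : ℤ) ∣ cr r s i) := by
    intro j hj
    rw [Finset.mem_filter] at hj ⊢
    exact ⟨Nat.mem_divisors.mpr ⟨Nat.gcd_dvd_right _ _, hW.ne'⟩, hj.2⟩
  rw [← Finset.sum_fiberwise_of_maps_to hmaps, sig, Finset.mul_sum]
  apply Finset.sum_le_sum
  intro g hg
  rw [Finset.mem_filter] at hg
  have hg0 : 0 < g := Nat.pos_of_mem_divisors hg.1
  have hgr : (0 : ℝ) < g := by exact_mod_cast hg0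
  rw [Finset.sum_congr rfl (g := fun _ => (g : ℝ) ^ 2)]
  · rw [Finset.sum_const, nsmul_eq_mul]
    have hsub : ((Finset.Ioc 0 ⌊J⌋₊).filter
        (fun j => ∀ i, ((Nat.gcd j W : ℕ) : ℤ) ∣ cr r s i)).filter (fun j => Nat.gcd j W = g)
        ⊆ (Finset.Ioc 0 ⌊J⌋₊).filter (fun j => g ∣ j) := by
      intro j hj
      simp only [Finset.mem_filter] at hj ⊢
      exact ⟨hj.1.1, hj.2 ▸ Nat.gcd_dvd_left _ _⟩
    have h1 := Finset.card_le_card hsub
    rw [Nat.Ioc_filter_dvd_card_eq_div] at h1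
    have h2 : ((((Finset.Ioc 0 ⌊J⌋₊).filter
        (fun j => ∀ i, ((Nat.gcd j W : ℕ) : ℤ) ∣ cr r s i)).filter
        (fun j => Nat.gcd j W = g)).card : ℝ) ≤ J / g := by
      have h3 : ((⌊J⌋₊ / g : ℕ) : ℝ) ≤ (⌊J⌋₊ : ℝ) / g := Nat.cast_div_le
      have h4 : (⌊J⌋₊ : ℝ) / g ≤ J / g := div_le_div_of_nonneg_right (Nat.floor_le hJ) hgr.le
      have h5 : ((((Finset.Ioc 0 ⌊J⌋₊).filter
        (fun j => ∀ i, ((Nat.gcd j W : ℕ) : ℤ) ∣ cr r s i)).filter
        (fun j => Nat.gcd j W = g)).card : ℝ) ≤ ((⌊J⌋₊ / g : ℕ) : ℝ) := by exact_mod_cast h1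
      linarith
    calc _ ≤ J / g * (g : ℝ) ^ 2 := mul_le_mul_of_nonneg_right h2 (by positivity)
      _ = J * g := by field_simp
  · intro j hj
    rw [Finset.mem_filter] at hj
    rw [hj.2]

/-- The relation vector of `a, b` has size about `R`. -/
def Scale (R : ℕ) (a b : Fin 3 → ℤ) : Prop :=
  ∃ (ξ : Fin 3 → ℤ) (γ : ℤ), Prim ξ ∧ 0 < γ ∧ (∀ i, cr a b i = γ * ξ i) ∧ (R : ℤ) ≤ nrm ξ ∧
    nrm ξ < 2 * R

/-- The determinant is at most `T` in absolute value. -/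
def Small (T : ℕ) (a b c : Fin 3 → ℤ) : Prop := |dot (cr a b) c| ≤ T

/-- `ξ` arises from some `b` of the class. -/
def XiOK (W X₂ : ℕ) (r₂ a' : Fin 3 → ℤ) (j : ℕ) (ξ : Fin 3 → ℤ) : Prop :=
  ∃ b ∈ Row 0 W X₂ r₂, ∀ i, cr a' b i = j * ξ i

/-- `b` gives a relation vector in the box. -/
def BOK (R : ℕ) (a' : Fin 3 → ℤ) (j : ℕ) (b : Fin 3 → ℤ) : Prop :=
  ∃ ξ ∈ Box (2 * R), ∀ i, cr a' b i = j * ξ i

theorem xi_numeric {W X R g α θ lam N : ℝ} (hW1 : 1 ≤ W) (hX3 : W ^ 3 ≤ X) (hα1 : 1 ≤ α)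
    (hRr : X < 2 * R) (hg1 : 1 ≤ g) (hθ : 1 ≤ θ) (hlam : 0 < lam) (hθl : W ^ 2 ≤ θ * lam)
    (l1 : W * X / α ≤ N) :
    1 + 2 * (4 * R * g / W) / lam + 8 * (4 * R * g / W) ^ 2 / N
      ≤ 160 * θ * R ^ 2 * α / (W ^ 2 * (W * X)) * g ^ 2 := by
  have hWr : 0 < W := by linarith
  have hXr : 0 < X := lt_of_lt_of_le (by positivity) hX3
  have hαr : 0 < α := by linarith
  have hR0 : 0 < R := by linarith
  have hZl : 2 * X / W ≤ 4 * R * g / W := by
    apply div_le_div_of_nonneg_right _ hWr.le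
    nlinarith
  have eP : 160 * θ * R ^ 2 * α / (W ^ 2 * (W * X)) * g ^ 2
      = 10 * θ * ((4 * R * g / W) ^ 2 * α / (W * X)) := by field_simp; ring
  rw [eP]
  generalize 4 * R * g / W = Z at *
  have hZ0 : 0 < 2 * X / W := by positivity
  have hZp : 0 < Z := by linarith
  have p1 : 1 ≤ Z ^ 2 * α / (W * X) := by
    rw [le_div_iff₀ (by positivity)]
    have h1 : (2 * X / W) ^ 2 ≤ Z ^ 2 := by gcongr
    have h2 : W * X ≤ (2 * X / W) ^ 2 := by
      rw [div_pow, le_div_iff₀ (by positivity)]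
      nlinarith
    have h3 : Z ^ 2 ≤ Z ^ 2 * α := le_mul_of_one_le_right (by positivity) hα1
    linarith
  have p2 : 2 * Z / lam ≤ θ * (Z ^ 2 * α / (W * X)) := by
    rw [div_le_iff₀ hlam]
    have h1 : θ * (Z ^ 2 * α / (W * X)) * lam = (θ * lam) * Z * (Z * α) / (W * X) := by
      field_simp
    rw [h1, le_div_iff₀ (by positivity)]
    have h2 : 2 * X ≤ Z * W := by rwa [div_le_iff₀ hWr] at hZl
    have h3 : W ^ 2 * Z ≤ θ * lam * Z := by gcongr
    have h2' : W * (2 * X) ≤ W * (Z * W) := mul_le_mul_of_nonneg_left h2 hWr.le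
    have h4 : 2 * (W * X) ≤ θ * lam * Z := by linarith
    have h5 : Z ≤ Z * α := le_mul_of_one_le_right hZp.le hα1
    calc 2 * Z * (W * X) = (2 * (W * X)) * Z := by ring
      _ ≤ (θ * lam * Z) * (Z * α) := by gcongr
  have p3 : 8 * Z ^ 2 / N ≤ 8 * (Z ^ 2 * α / (W * X)) := by
    have h1 : 8 * Z ^ 2 / N ≤ 8 * Z ^ 2 / (W * X / α) :=
      div_le_div_of_nonneg_left (by positivity) (by positivity) l1
    have h2 : 8 * Z ^ 2 / (W * X / α) = 8 * (Z ^ 2 * α / (W * X)) := by field_simp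
    linarith
  generalize Z ^ 2 * α / (W * X) = P at *
  have p4 : P ≤ θ * P := le_mul_of_one_le_left (by linarith) hθ
  linarith

section fixed

variable {W X X₂ : ℕ} {r₁ r₂ r₃ a a' : Fin 3 → ℤ} {α : ℕ}

theorem a'_lower (ha : a ∈ Row (W * X) W X r₁) (hα : 0 < α) (haa : ∀ i, a i = α * a' i) :
    (W : ℝ) * X / α ≤ a' 0 ∧ (W : ℝ) * X / α ≤ nrm a' ∧ (nrm a' : ℝ) ≤ 2 * W * X / α := by
  have hαr : (0 : ℝ) < α := by exact_mod_cast hα
  have h1 : (W : ℝ) * X / α ≤ a' 0 := by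
    rw [div_le_iff₀ hαr]
    have := (mem_Row.mp ha 0).1.1
    rw [haa 0, mul_comm (α : ℤ)] at this
    exact_mod_cast this
  refine ⟨h1, h1.trans ?_, ?_⟩
  · exact_mod_cast (le_abs_self _).trans (abs_le_nrm a' 0)
  · rw [le_div_iff₀ hαr]
    have h2 := nrm_RowA ha
    have e : a = fun i => (α : ℤ) * a' i := funext haa
    rw [e, nrm_mul, abs_of_nonneg (Int.natCast_nonneg _), mul_comm (α : ℤ)] at h2
    exact_mod_cast h2

theorem fiber_b (hW : 0 < W) (hX : 0 < X) (hX₂ : W * X ≤ X₂) (ha : a ∈ Row (W * X) W X r₁)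
    (hα : 0 < α) (hp : Prim a') (haa : ∀ i, a i = α * a' i) (η : Fin 3 → ℤ) :
    (((Row 0 W X₂ r₂).filter (fun b => ∀ i, cr a' b i = η i)).card : ℝ)
      ≤ 2 * X₂ * α / (W * X) := by
  have hWr : (0 : ℝ) < W := by exact_mod_cast hW
  have hXr : (0 : ℝ) < X := by exact_mod_cast hX
  have hαr : (0 : ℝ) < α := by exact_mod_cast hα
  have hα1 : (1 : ℝ) ≤ α := by exact_mod_cast hα
  have hWz : (0 : ℤ) < W := by exact_mod_cast hW
  have hX₂r : (W : ℝ) * X ≤ X₂ := by exact_mod_cast hX₂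
  obtain ⟨l0, -, -⟩ := a'_lower ha hα haa
  have h := card_le_of_sep ((Row 0 W X₂ r₂).filter (fun b => ∀ i, cr a' b i = η i))
    (fun b => b 0) (W * (W * X / α)) (W * X₂) (by positivity) (by positivity) ?_ ?_
  · refine h.trans ?_
    have e : (W : ℝ) * X₂ / (W * (W * X / α)) = X₂ * α / (W * X) := by field_simp
    have e2 : 2 * (X₂ : ℝ) * α / (W * X) = X₂ * α / (W * X) + X₂ * α / (W * X) := by ring
    have h4 : 1 ≤ (X₂ : ℝ) * α / (W * X) := by
      rw [le_div_iff₀ (by positivity)]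
      nlinarith [mul_pos hWr hXr]
    rw [e, e2]
    linarith
  · intro b hb b' hb' hne
    rw [Finset.mem_filter] at hb hb'
    have hd : ∀ i, (W : ℤ) ∣ b i - b' i :=
      fun i => Cl_dvd (Row_mem_Cl hb.1 i) (Row_mem_Cl hb'.1 i)
    choose w hw using hd
    have hpar : ∀ i, cr a' w i = 0 := by
      intro i
      apply mul_left_cancel₀ hWz.ne'
      have h1 := hb.2 i
      have h2 := hb'.2 i
      have h3 : (W : ℤ) * cr a' w i = cr a' b i - cr a' b' i := by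
        clear h1 h2
        revert i
        rw [forall3]
        simp only [cr_0, cr_1, cr_2]
        refine ⟨?_, ?_, ?_⟩
        · linear_combination (-(a' 1)) * hw 2 + (a' 2) * hw 1
        · linear_combination (-(a' 2)) * hw 0 + (a' 0) * hw 2
        · linear_combination (-(a' 0)) * hw 1 + (a' 1) * hw 0
      rw [h3, h1, h2]; ring
    obtain ⟨κ, hκ⟩ := eq_mul_of_cr hp hpar
    have hκ0 : κ ≠ 0 := by
      rintro rfl
      apply hne
      funext i
      have := hw i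
      rw [hκ i] at this
      linarith
    have hκ1 : (1 : ℝ) ≤ |(κ : ℝ)| := by exact_mod_cast Int.one_le_abs hκ0
    have e : ((b 0 - b' 0 : ℤ) : ℝ) = W * (κ * a' 0) := by
      rw [hw 0, hκ 0]; push_cast; ring
    have hpos : (0 : ℝ) < (W : ℝ) * X / α := by positivity
    rw [e, abs_mul, abs_mul, abs_of_pos hWr, abs_of_pos (lt_of_lt_of_le hpos l0)]
    apply mul_le_mul_of_nonneg_left _ hWr.le
    nlinarith
  · intro b hb b' hb'
    rw [Finset.mem_filter] at hb hb'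
    exact_mod_cast Cl_diam (Row_mem_Cl hb.1 0) (Row_mem_Cl hb'.1 0)

open Classical in
theorem count_xi (hW : 0 < W) (hX : W ^ 3 ≤ X) (ha : a ∈ Row (W * X) W X r₁)
    (hα : 0 < α) (hp : Prim a') (haa : ∀ i, a i = α * a' i) (R : ℕ) (hR : X < 2 * R)
    (θ lam : ℝ) (hθ : 1 ≤ θ) (hlam : 0 < lam) (hθl : (W : ℝ) ^ 2 ≤ θ * lam)
    (hshort : ∀ w : Fin 3 → ℤ, w ≠ 0 → dot a' w = 0 → lam ≤ nrm w) (j : ℕ) (hj : 0 < j) :
    (((Box (2 * R)).filter (XiOK W X₂ r₂ a' j)).card : ℝ)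
      ≤ 160 * θ * (R : ℝ) ^ 2 * α / ((W : ℝ) ^ 2 * (W * X)) * ((Nat.gcd j W : ℕ) : ℝ) ^ 2 := by
  have hWr : (0 : ℝ) < W := by exact_mod_cast hW
  have hW1 : (1 : ℝ) ≤ W := by exact_mod_cast hW
  have hX0 : 0 < X := lt_of_lt_of_le (by positivity) hX
  have hXr : (0 : ℝ) < X := by exact_mod_cast hX0
  have hX3 : (W : ℝ) ^ 3 ≤ X := by exact_mod_cast hX
  have hαr : (0 : ℝ) < α := by exact_mod_cast hα
  have hα1 : (1 : ℝ) ≤ α := by exact_mod_cast hα
  have hRr : (X : ℝ) < 2 * R := by exact_mod_cast hR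
  have hR0 : (0 : ℝ) < R := by linarith
  obtain ⟨-, l1, -⟩ := a'_lower ha hα haa
  have hg0 : 0 < Nat.gcd j W := Nat.gcd_pos_of_pos_left _ hj
  obtain ⟨j', D, hcop, hj', hD⟩ := Nat.exists_coprime j W
  generalize Nat.gcd j W = g at *
  have hgr : (0 : ℝ) < g := by exact_mod_cast hg0
  have hg1 : (1 : ℝ) ≤ g := by exact_mod_cast hg0
  have hD0 : 0 < D := by
    rcases Nat.eq_zero_or_pos D with h | h
    · rw [h, zero_mul] at hD; omega
    · exact h
  have hDr : (0 : ℝ) < D := by exact_mod_cast hD0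
  have hDz : (0 : ℤ) < D := by exact_mod_cast hD0
  have hgz : (0 : ℤ) < g := by exact_mod_cast hg0
  have hjz : (0 : ℤ) < j := by exact_mod_cast hj
  have hWD : (W : ℝ) = D * g := by exact_mod_cast hD
  have h := plane_count_div a' hp lam hlam hshort
    ((Box (2 * R)).filter (XiOK W X₂ r₂ a' j))
    D hDz (4 * R / D) (by positivity) ?_ ?_ ?_
  · refine h.trans ?_
    have hZ : 4 * (R : ℝ) / D = 4 * R * g / W := by rw [hWD]; field_simp
    rw [hZ]
    exact xi_numeric hW1 hX3 hα1 hRr hg1 hθ hlam hθl l1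
  · intro ξ hξ ξ' hξ' i
    rw [Finset.mem_filter] at hξ hξ'
    obtain ⟨b, hb, e⟩ := hξ.2
    obtain ⟨b', hb', e'⟩ := hξ'.2
    have h1 := cr_congr (W := (W : ℤ)) (a := a') (r := a') (b := b) (s := b') (by simp)
      (fun i => Cl_dvd (Row_mem_Cl hb i) (Row_mem_Cl hb' i)) i
    rw [e i, e' i] at h1
    have h2 : ((D : ℤ) * g) ∣ (j' * (ξ i - ξ' i)) * g := by
      have e1 : (W : ℤ) = D * g := by exact_mod_cast hD
      have e2 : (j : ℤ) = j' * g := by exact_mod_cast hj'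
      rw [e1, e2] at h1
      convert h1 using 1
      ring
    have h3 : (D : ℤ) ∣ j' * (ξ i - ξ' i) := Int.dvd_of_mul_dvd_mul_right hgz.ne' h2
    exact (Nat.isCoprime_iff_coprime.mpr hcop.symm).dvd_of_dvd_mul_left h3
  · intro ξ hξ ξ' hξ'
    rw [Finset.mem_filter] at hξ hξ'
    obtain ⟨b, hb, e⟩ := hξ.2
    obtain ⟨b', hb', e'⟩ := hξ'.2
    have h1 := dot_of_mul (c := a') e
    have h2 := dot_of_mul (c := a') e'
    rw [dot_cr_left] at h1 h2
    have h3 : dot ξ a' = 0 := (mul_eq_zero.mp h1.symm).resolve_left hjz.ne'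
    have h4 : dot ξ' a' = 0 := (mul_eq_zero.mp h2.symm).resolve_left hjz.ne'
    rw [dot_sub, dot_comm a' ξ, dot_comm a' ξ', h3, h4, sub_self]
  · intro ξ hξ ξ' hξ'
    rw [Finset.mem_filter, mem_Box] at hξ hξ'
    have h1 : nrm (ξ - ξ') ≤ 4 * R := by
      rw [nrm_le_iff]
      intro i
      have h2 := (abs_le_nrm ξ i).trans hξ.1
      have h3 := (abs_le_nrm ξ' i).trans hξ'.1
      have h4 := abs_sub (ξ i) (ξ' i)
      simp only [Pi.sub_apply]
      push_cast at h2 h3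
      linarith
    have e : ((D : ℤ) : ℝ) * (4 * R / D) = 4 * R := by push_cast; field_simp
    rw [e]
    exact_mod_cast h1

open Classical in
theorem count_b (hW : 0 < W) (hX : W ^ 3 ≤ X) (hX₂ : W * X ≤ X₂) (ha : a ∈ Row (W * X) W X r₁)
    (hα : 0 < α) (hp : Prim a') (haa : ∀ i, a i = α * a' i) (R : ℕ) (hR : X < 2 * R)
    (θ lam : ℝ) (hθ : 1 ≤ θ) (hlam : 0 < lam) (hθl : (W : ℝ) ^ 2 ≤ θ * lam)
    (hshort : ∀ w : Fin 3 → ℤ, w ≠ 0 → dot a' w = 0 → lam ≤ nrm w) :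
    (((Row 0 W X₂ r₂).filter (fun b => Scale R a b)).card : ℝ)
      ≤ 1280 * sig W r₁ r₂ * (θ * α) * R * (X₂ : ℝ) ^ 2 / ((W : ℝ) ^ 2 * X) := by
  have hWr : (0 : ℝ) < W := by exact_mod_cast hW
  have hX0 : 0 < X := lt_of_lt_of_le (by positivity) hX
  have hXr : (0 : ℝ) < X := by exact_mod_cast hX0
  have hαr : (0 : ℝ) < α := by exact_mod_cast hα
  have hαz : (0 : ℤ) < α := by exact_mod_cast hα
  have hRr : (X : ℝ) < 2 * R := by exact_mod_cast hR
  have hR0 : (0 : ℝ) < R := by linarith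
  obtain ⟨-, -, l2⟩ := a'_lower ha hα haa
  set J : ℝ := 4 * (W * X) * (W * X₂) / (α * R) with hJ
  have hJ0 : 0 ≤ J := by positivity
  have h := card_le_sum_of_cover ((Row 0 W X₂ r₂).filter (fun b => Scale R a b))
    ((Finset.Ioc 0 ⌊J⌋₊).filter (fun j => ∀ i, ((Nat.gcd j W : ℕ) : ℤ) ∣ cr r₁ r₂ i))
    (fun j => (Row 0 W X₂ r₂).filter (BOK R a' j)) ?_
  · refine h.trans ?_
    have hterm : ∀ j ∈ (Finset.Ioc 0 ⌊J⌋₊).filter
        (fun j => ∀ i, ((Nat.gcd j W : ℕ) : ℤ) ∣ cr r₁ r₂ i),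
        (((Row 0 W X₂ r₂).filter
          (BOK R a' j)).card : ℝ)
        ≤ (160 * θ * (R : ℝ) ^ 2 * α / ((W : ℝ) ^ 2 * (W * X)) * (2 * X₂ * α / (W * X)))
          * ((Nat.gcd j W : ℕ) : ℝ) ^ 2 := by
      intro j hj
      rw [Finset.mem_filter, Finset.mem_Ioc] at hj
      have h1 := card_le_sum_of_cover ((Row 0 W X₂ r₂).filter
          (BOK R a' j))
        ((Box (2 * R)).filter (XiOK W X₂ r₂ a' j))
        (fun ξ => (Row 0 W X₂ r₂).filter (fun b => ∀ i, cr a' b i = (fun i => j * ξ i) i)) ?_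
      · refine h1.trans ?_
        refine (Finset.sum_le_sum (fun ξ _ =>
          fiber_b (r₂ := r₂) hW hX0 hX₂ ha hα hp haa (fun i => j * ξ i))).trans ?_
        rw [Finset.sum_const, nsmul_eq_mul]
        have h2 := count_xi (X₂ := X₂) (r₂ := r₂) hW hX ha hα hp haa R hR θ lam hθ hlam hθl
          hshort j hj.1.1
        calc _ ≤ (160 * θ * (R : ℝ) ^ 2 * α / ((W : ℝ) ^ 2 * (W * X))
              * ((Nat.gcd j W : ℕ) : ℝ) ^ 2) * (2 * X₂ * α / (W * X)) :=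
              mul_le_mul_of_nonneg_right h2 (by positivity)
          _ = _ := by ring
      · intro b hb
        rw [Finset.mem_filter] at hb
        obtain ⟨ξ, hξ, e⟩ := hb.2
        refine ⟨ξ, ?_, ?_⟩
        · rw [Finset.mem_filter]; exact ⟨hξ, b, hb.1, e⟩
        · rw [Finset.mem_filter]; exact ⟨hb.1, e⟩
    refine (Finset.sum_le_sum hterm).trans ?_
    rw [← Finset.mul_sum]
    have h3 := gcd_sq_sum W hW r₁ r₂ J hJ0
    have hθ0 : 0 ≤ θ := by linarith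
    calc _ ≤ (160 * θ * (R : ℝ) ^ 2 * α / ((W : ℝ) ^ 2 * (W * X)) * (2 * X₂ * α / (W * X)))
          * (J * sig W r₁ r₂) := mul_le_mul_of_nonneg_left h3 (by positivity)
      _ = _ := by rw [hJ]; field_simp; ring
  · intro b hb
    rw [Finset.mem_filter] at hb
    obtain ⟨ξ, γ, hξ, hγ, e, hl, hu⟩ := hb.2
    obtain ⟨y, hy⟩ := hξ
    have e1 : ∀ i, cr a b i = α * cr a' b i := by
      rw [forall3]
      simp only [cr_0, cr_1, cr_2, haa]
      refine ⟨by ring, by ring, by ring⟩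
    set j : ℤ := dot y (cr a' b) with hjdef
    have e2 : γ = α * j := by
      have h1 : dot (cr a b) y = γ * dot ξ y := dot_of_mul e
      have h2 : dot (cr a b) y = α * dot (cr a' b) y := dot_of_mul e1
      rw [dot_comm ξ y, hy, mul_one] at h1
      rw [hjdef, dot_comm y, ← h2, h1]
    have hjpos : 0 < j := by
      rw [e2] at hγ
      exact (mul_pos_iff_of_pos_left hαz).mp hγ
    have e3 : ∀ i, cr a' b i = j * ξ i := by
      intro i
      apply mul_left_cancel₀ hαz.ne'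
      rw [← e1 i, e i, e2]; ring
    have hjnat : ((j.toNat : ℕ) : ℤ) = j := Int.toNat_of_nonneg hjpos.le
    refine ⟨j.toNat, ?_, ?_⟩
    · rw [Finset.mem_filter, Finset.mem_Ioc]
      refine ⟨⟨by omega, ?_⟩, ?_⟩
      · apply Nat.le_floor
        have h1 : nrm (cr a' b) = j * nrm ξ := by
          rw [show cr a' b = fun i => j * ξ i from funext e3, nrm_mul, abs_of_pos hjpos]
        have h2 := nrm_cr_le a' b
        have h3 := nrm_Row0 hb.1
        have h4 : j * R ≤ 2 * nrm a' * (W * X₂) := by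
          have h5 : j * R ≤ j * nrm ξ := mul_le_mul_of_nonneg_left hl hjpos.le
          have h6 : 2 * nrm a' * nrm b ≤ 2 * nrm a' * (W * X₂) :=
            mul_le_mul_of_nonneg_left h3 (by have := nrm_nonneg a'; positivity)
          linarith
        have h5 : ((j.toNat : ℕ) : ℝ) * R ≤ 2 * nrm a' * (W * X₂) := by
          rw [← hjnat] at h4
          exact_mod_cast h4
        rw [hJ, le_div_iff₀ (by positivity)]
        rw [le_div_iff₀ hαr] at l2
        have h6 : (0 : ℝ) ≤ W * X₂ := by positivity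
        nlinarith
      · intro i
        have h1 : ((Nat.gcd j.toNat W : ℕ) : ℤ) ∣ j := by
          rw [← hjnat]
          exact_mod_cast Nat.gcd_dvd_left _ _
        have h2 : ((Nat.gcd j.toNat W : ℕ) : ℤ) ∣ (W : ℤ) := by
          exact_mod_cast Nat.gcd_dvd_right _ _
        have h3 : ((Nat.gcd j.toNat W : ℕ) : ℤ) ∣ cr a b i := by
          rw [e1 i, e3 i]
          exact Dvd.dvd.mul_left (Dvd.dvd.mul_right h1 _) _
        have h4 := h2.trans (cr_congr (Row_congr ha) (Row_congr hb.1) i)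
        have h5 := dvd_sub h3 h4
        simpa using h5
    · rw [Finset.mem_filter]
      refine ⟨hb.1, ξ, ?_, ?_⟩
      · rw [mem_Box]; push_cast; exact hu.le
      · rw [hjnat]; exact e3

open Classical in
theorem count_c (hW : 0 < W) (hX₂ : 2 * X ≤ X₂) (ha : a ∈ Row (W * X) W X r₁)
    {b : Fin 3 → ℤ} (hb : b ∈ Row 0 W X₂ r₂) (T : ℕ) (hT : 2 * T < W) (R : ℕ) (hR : 0 < R)
    (hs : Scale R a b) :
    (((Row 0 W (W * X₂) r₃).filter (fun c => Small T a b c)).card : ℝ)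
      ≤ 12 * ((W : ℝ) * X₂) ^ 2 / R := by
  obtain ⟨ξ, γ, hξ, hγ, e, hl, hu⟩ := hs
  have hRr : (0 : ℝ) < R := by exact_mod_cast hR
  have h1 := dot_of_mul (c := a) e
  have h2 := dot_of_mul (c := b) e
  rw [dot_cr_left] at h1
  rw [dot_cr_right] at h2
  have h3 : dot ξ a = 0 := (mul_eq_zero.mp h1.symm).resolve_left hγ.ne'
  have h4 : dot ξ b = 0 := (mul_eq_zero.mp h2.symm).resolve_left hγ.ne'
  have hind : ∃ i, cr a b i ≠ 0 := by
    by_contra hc
    push Not at hc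
    apply hξ.ne_zero
    funext i
    have := e i
    rw [hc i] at this
    exact (mul_eq_zero.mp this.symm).resolve_left hγ.ne'
  have h := row_plane_sharp ξ hξ a b h3 h4 hind 0 W (W * X₂) hW r₃
    ((Row 0 W (W * X₂) r₃).filter (fun c => Small T a b c)) (Finset.filter_subset _ _)
    ?_ ?_ ?_
  · refine h.trans ?_
    push_cast
    apply div_le_div_of_nonneg_left (by positivity) hRr
    exact_mod_cast hl
  · refine (nrm_RowA ha).trans ?_
    have : (2 * X : ℤ) ≤ X₂ := by exact_mod_cast hX₂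
    push_cast
    nlinarith
  · refine (nrm_Row0 hb).trans ?_
    push_cast
    exact le_rfl
  · intro c hc c' hc'
    rw [Finset.mem_filter] at hc hc'
    have h5 := eq_of_small hT hc.2 hc'.2 (dot_congr (a := cr a b) (r := cr a b) (by simp)
      (fun i => Cl_dvd (Row_mem_Cl hc.1 i) (Row_mem_Cl hc'.1 i)))
    rw [dot_of_mul e, dot_of_mul e] at h5
    rw [dot_sub, mul_left_cancel₀ hγ.ne' h5, sub_self]

end fixed

open Classical in
/-- The count at one long scale. -/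
theorem long_scale (W X X₂ T R : ℕ) (hW : 2 ≤ W) (hX : 59 * W ^ 10 ≤ X) (hX₂ : W * X ≤ X₂)
    (hT : 2 * T < W) (hR : X < 2 * R) (r₁ r₂ r₃ : Fin 3 → ℤ)
    (hr : ∀ i, IsCoprime (r₁ i) (W : ℤ)) :
    (((Row (W * X) W X r₁ ×ˢ (Row 0 W X₂ r₂ ×ˢ Row 0 W (W * X₂) r₃)).filter
      (fun t => Scale R t.1 t.2.1 ∧ Small T t.1 t.2.1 t.2.2)).card : ℝ)
      ≤ 153600 * sig W r₁ r₂ * ((X : ℝ) ^ 2 * (X₂ : ℝ) ^ 2 * ((W : ℝ) * X₂) ^ 2) / (W : ℝ) ^ 2 := by
  have hW0 : 0 < W := by omega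
  have hWr : (0 : ℝ) < W := by exact_mod_cast hW0
  have hX0 : 0 < X := lt_of_lt_of_le (by positivity) hX
  have hXr : (0 : ℝ) < X := by exact_mod_cast hX0
  have hR0 : 0 < R := by omega
  have hRr : (0 : ℝ) < R := by exact_mod_cast hR0
  have hX3 : W ^ 3 ≤ X := by
    have : W ^ 3 ≤ W ^ 10 := Nat.pow_le_pow_right hW0 (by norm_num)
    omega
  have h2X : 2 * X ≤ X₂ := le_trans (Nat.mul_le_mul_right X hW) hX₂
  have hdec : ∀ a : Fin 3 → ℤ, ∃ (α : ℕ) (a' : Fin 3 → ℤ), a ∈ Row (W * X) W X r₁ →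
      0 < α ∧ Prim a' ∧ ∀ i, a i = α * a' i := by
    intro a
    by_cases ha : a ∈ Row (W * X) W X r₁
    · have hne : a ≠ 0 := by
        intro h0
        have := (mem_Row.mp ha 0).1.1
        rw [h0] at this
        have h1 : (0 : ℤ) < W * X := by positivity
        simp only [Pi.zero_apply] at this
        linarith
      obtain ⟨g, w, hg, hp, e⟩ := exists_prim hne
      refine ⟨g.toNat, w, fun _ => ⟨by omega, hp, ?_⟩⟩
      rw [Int.toNat_of_nonneg hg.le]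
      exact e
    · exact ⟨0, 0, fun h => absurd h ha⟩
  choose α a' hα using hdec
  have h := card_filter_prod_le (Row (W * X) W X r₁) (Row 0 W X₂ r₂ ×ˢ Row 0 W (W * X₂) r₃)
    (fun t => Scale R t.1 t.2.1 ∧ Small T t.1 t.2.1 t.2.2)
    (fun a => (15360 * sig W r₁ r₂ * (X₂ : ℝ) ^ 2 * ((W : ℝ) * X₂) ^ 2 / ((W : ℝ) ^ 2 * X))
      * ((α a : ℝ) * (if Atyp W a then (W : ℝ) ^ 2 else 1))) ?_
  · refine h.trans ?_
    rw [← Finset.mul_sum]
    have h1 := theta_sum W X hW0 hX r₁ hr α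
      (fun a ha => ⟨(hα a ha).1, fun i => ⟨a' a i, (hα a ha).2.2 i⟩⟩)
    have hs := sig_nonneg W r₁ r₂
    calc _ ≤ (15360 * sig W r₁ r₂ * (X₂ : ℝ) ^ 2 * ((W : ℝ) * X₂) ^ 2 / ((W : ℝ) ^ 2 * X))
          * (10 * (X : ℝ) ^ 3) := mul_le_mul_of_nonneg_left h1 (by positivity)
      _ = _ := by field_simp; ring
  · intro a ha
    obtain ⟨hα0, hp, haa⟩ := hα a ha
    have hW1 : (1 : ℝ) ≤ (W : ℝ) ^ 2 := one_le_pow₀ (by exact_mod_cast hW0)
    have hb : (((Row 0 W X₂ r₂).filter (fun b => Scale R a b)).card : ℝ)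
        ≤ 1280 * sig W r₁ r₂ * ((if Atyp W a then (W : ℝ) ^ 2 else 1) * α a) * R * (X₂ : ℝ) ^ 2
          / ((W : ℝ) ^ 2 * X) := by
      by_cases hat : Atyp W a
      · rw [if_pos hat]
        apply count_b hW0 hX3 hX₂ ha hα0 hp haa R hR _ 1 hW1 one_pos (by rw [mul_one])
        intro w hw _
        exact_mod_cast one_le_nrm hw
      · rw [if_neg hat]
        apply count_b hW0 hX3 hX₂ ha hα0 hp haa R hR _ ((W : ℝ) ^ 2) le_rfl (by positivity)
          (by rw [one_mul])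
        intro w hw hd
        by_contra hc
        apply hat
        refine ⟨w, hw, ?_, ?_⟩
        · rw [dot_of_mul haa, hd, mul_zero]
        · push Not at hc
          exact_mod_cast hc
    have h1 := card_filter_prod_le (Row 0 W X₂ r₂) (Row 0 W (W * X₂) r₃)
      (fun t => Scale R a t.1 ∧ Small T a t.1 t.2)
      (fun b => if Scale R a b then 12 * ((W : ℝ) * X₂) ^ 2 / R else 0) ?_
    · refine h1.trans ?_
      rw [← Finset.sum_filter, Finset.sum_const, nsmul_eq_mul]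
      calc _ ≤ (1280 * sig W r₁ r₂ * ((if Atyp W a then (W : ℝ) ^ 2 else 1) * α a) * R
            * (X₂ : ℝ) ^ 2 / ((W : ℝ) ^ 2 * X)) * (12 * ((W : ℝ) * X₂) ^ 2 / R) :=
            mul_le_mul_of_nonneg_right hb (by positivity)
        _ = _ := by field_simp; ring
    · intro b hb
      by_cases hs : Scale R a b
      · simp only [hs, true_and, if_true]
        exact count_c hW0 h2X ha hb T hT R hR0 hs
      · simp [hs]

end Vale.Agent.P036
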