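import Vale.Agent.P036.Digits
import Vale.Agent.P036.Free

/-! Counting modulo powers of the prime `M`. -/

namespace Vale.Agent.P036

open Finset

/-- Digits with prescribed residues modulo `p`. -/
def dg {p k h : ℕ} (β : ℕ → ZMod p) (f : Fin k → Fin h) : ℕ → ℤ :=
  fun i => ((β i).val : ℤ) + p * (if hi : i < k then ((f ⟨i, hi⟩ : ℕ) : ℤ) else 0)

theorem dg_bound {p k h : ℕ} [NeZero p] (hh : 0 < h) (β : ℕ → ZMod p) (f : Fin k → Fin h)
    (i : ℕ) : 0 ≤ dg β f i ∧ dg β f i < p * h := by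
  unfold dg
  have h1 : ((β i).val : ℤ) < p := by exact_mod_cast ZMod.val_lt (β i)
  have h0 : (0 : ℤ) ≤ (β i).val := Int.natCast_nonneg _
  have hp : (0 : ℤ) ≤ p := Int.natCast_nonneg _
  have hh' : (1 : ℤ) ≤ h := by exact_mod_cast hh
  split_ifs with hi
  · have h2 : ((f ⟨i, hi⟩ : ℕ) : ℤ) + 1 ≤ h := by exact_mod_cast (f ⟨i, hi⟩).2
    have h3 : (0 : ℤ) ≤ ((f ⟨i, hi⟩ : ℕ) : ℤ) := Int.natCast_nonneg _
    constructor
    · positivity
    · nlinarith
  · constructor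
    · linarith
    · nlinarith

theorem dg_cast {p k h : ℕ} [NeZero p] (β : ℕ → ZMod p) (f : Fin k → Fin h) (i : ℕ) :
    ((dg β f i : ℤ) : ZMod p) = β i := by
  unfold dg
  push_cast
  simp

theorem digits_eq (M : ℤ) (hM : 0 < M) (k : ℕ) (d d' : ℕ → ℤ) (hd : ∀ l, |d l - d' l| < M)
    (i : ℕ) (hi : i ≤ k) (h : M ^ i ∣ num M k d - num M k d') : ∀ l < i, d l = d' l := by
  induction i with
  | zero => intro l hl; omega
  | succ i ih =>
    have h1 := ih (by omega) ((pow_dvd_pow M (Nat.le_succ i)).trans h)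
    have h2 : M ^ (i + 1) ∣ (num M k d - num M k d') - (d i - d' i) * M ^ i := by
      have e : (d i - d' i) * M ^ i
          = ∑ l ∈ Finset.range k, if l = i then (d l - d' l) * M ^ l else 0 := by
        rw [Finset.sum_ite_eq' (Finset.range k) i (fun l => (d l - d' l) * M ^ l),
          if_pos (Finset.mem_range.mpr (by omega))]
      unfold num
      rw [e, ← Finset.sum_sub_distrib, ← Finset.sum_sub_distrib]
      apply Finset.dvd_sum
      intro l _
      rcases lt_trichotomy l i with hl | hl | hl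
      · rw [if_neg hl.ne, h1 l hl]; simp
      · rw [if_pos hl]
        have : d l * M ^ l - d' l * M ^ l - (d l - d' l) * M ^ l = 0 := by ring
        rw [this]; exact dvd_zero _
      · rw [if_neg hl.ne', sub_zero, ← sub_mul]
        exact Dvd.dvd.mul_left (pow_dvd_pow M hl) _
    have h3 : M ^ (i + 1) ∣ (d i - d' i) * M ^ i := by
      have := dvd_sub h h2
      simpa using this
    rw [pow_succ'] at h3
    have h4 : M ∣ d i - d' i := Int.dvd_of_mul_dvd_mul_right (by positivity) h3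
    have h5 := Int.eq_zero_of_abs_lt_dvd h4 (hd i)
    intro l hl
    rcases Nat.lt_succ_iff_lt_or_eq.mp hl with hl | hl
    · exact h1 l hl
    · rw [hl]; linarith

/-- The last `k - i` digits. -/
def tl {k h : ℕ} (i : ℕ) (f : Fin k → Fin h) : Fin (k - i) → Fin h :=
  fun l => f ⟨i + l, by have := l.2; omega⟩

theorem eq_of_tl {p k h : ℕ} [NeZero p] (hh : 0 < h) (M : ℤ) (hM : (p : ℤ) * h ≤ M)
    (β : ℕ → ZMod p) (f f' : Fin k → Fin h) (i : ℕ) (hi : i ≤ k)
    (hd : M ^ i ∣ num M k (dg β f) - num M k (dg β f')) (ht : tl i f = tl i f') : f = f' := by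
  have hp : (0 : ℤ) < p := by exact_mod_cast Nat.pos_of_ne_zero (NeZero.ne p)
  have hh' : (0 : ℤ) < h := by exact_mod_cast hh
  have hM0 : 0 < M := lt_of_lt_of_le (by positivity) hM
  have h1 := digits_eq M hM0 k (dg β f) (dg β f') (fun l => by
    have a := dg_bound hh β f l
    have b := dg_bound hh β f' l
    rw [abs_lt]; constructor <;> linarith [a.1, a.2, b.1, b.2]) i hi hd
  funext l
  rcases lt_or_ge (l : ℕ) i with hl | hl
  · have h2 := h1 l hl
    unfold dg at h2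
    rw [dif_pos l.2, dif_pos l.2] at h2
    have h3 := mul_left_cancel₀ hp.ne' (add_left_cancel h2)
    apply Fin.ext
    exact_mod_cast h3
  · have h2 := congrFun ht ⟨l - i, by have := l.2; omega⟩
    unfold tl at h2
    simp only at h2
    have e : (⟨i + (l - i), by have := l.2; omega⟩ : Fin k) = l := Fin.ext (by simp; omega)
    rwa [e] at h2

/-- The row of numbers with given labels and free digits. -/
def nB {p k h : ℕ} (M : ℤ) (β : Fin 3 → ℕ → ZMod p) (f : Fin 3 → Fin k → Fin h) : Fin 3 → ℤ :=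
  fun t => num M k (dg (β t) (f t))

/-- All entries of the cross product are divisible by `D`. -/
def DvdCr (D : ℤ) (a b : Fin 3 → ℤ) : Prop := ∀ t, D ∣ cr a b t

open Classical in
theorem count_cr {p k h : ℕ} [NeZero p] (hh : 0 < h) (M : ℤ) (hM : (p : ℤ) * h ≤ M)
    (A : Fin 3 → ℤ) (hA : IsCoprime (A 0) M) (β : Fin 3 → ℕ → ZMod p) (i : ℕ) (hi : i ≤ k) :
    ((Finset.univ.filter (fun f : Fin 3 → Fin k → Fin h => DvdCr (M ^ i) A (nB M β f))).card : ℝ)
      ≤ ((h : ℝ) ^ k) ^ 3 / ((h : ℝ) ^ i) ^ 2 := by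
  have h1 := Finset.card_le_card_of_injOn
    (s := Finset.univ.filter (fun f : Fin 3 → Fin k → Fin h => DvdCr (M ^ i) A (nB M β f)))
    (t := Finset.univ) (fun f => (f 0, tl i (f 1), tl i (f 2))) (fun _ _ => Finset.mem_univ _) ?_
  · rw [Finset.card_univ] at h1
    simp only [Fintype.card_prod, Fintype.card_fun, Fintype.card_fin] at h1
    have hr : (0 : ℝ) < h := by exact_mod_cast hh
    have e : ((h : ℝ) ^ k) ^ 3 / ((h : ℝ) ^ i) ^ 2 = h ^ k * (h ^ (k - i) * h ^ (k - i)) := by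
      obtain ⟨c, rfl⟩ := Nat.exists_eq_add_of_le hi
      rw [Nat.add_sub_cancel_left, pow_add]
      field_simp
    rw [e]
    exact_mod_cast h1
  · intro f hf f' hf' e
    rw [Finset.mem_coe, Finset.mem_filter] at hf hf'
    simp only [Prod.mk.injEq] at e
    obtain ⟨e0, e1, e2⟩ := e
    have hA' : IsCoprime (M ^ i) (A 0) := hA.symm.pow_left
    have b0 : nB M β f 0 = nB M β f' 0 := by unfold nB; rw [e0]
    have d1 : M ^ i ∣ nB M β f 1 - nB M β f' 1 := by
      apply hA'.dvd_of_dvd_mul_left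
      have := dvd_sub (hf.2 2) (hf'.2 2)
      simp only [cr_2, b0] at this
      obtain ⟨q, hq⟩ := this
      exact ⟨q, by linear_combination hq⟩
    have d2 : M ^ i ∣ nB M β f 2 - nB M β f' 2 := by
      apply hA'.dvd_of_dvd_mul_left
      have := dvd_sub (hf'.2 1) (hf.2 1)
      simp only [cr_1, b0] at this
      obtain ⟨q, hq⟩ := this
      exact ⟨q, by linear_combination hq⟩
    funext t; revert t; rw [forall3]
    exact ⟨e0, eq_of_tl hh M hM (β 1) _ _ i hi d1 e1, eq_of_tl hh M hM (β 2) _ _ i hi d2 e2⟩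

open Classical in
theorem count_dot {p k h : ℕ} [NeZero p] (hh : 0 < h) (M : ℕ) (hMp : M.Prime)
    (hM : (p : ℤ) * h ≤ M) (ξ : Fin 3 → ℤ) (hξ : Prim ξ) (γ : Fin 3 → ℕ → ZMod p) :
    ((Finset.univ.filter (fun g : Fin 3 → Fin k → Fin h =>
      (M : ℤ) ^ k ∣ dot ξ (nB M γ g))).card : ℝ) ≤ ((h : ℝ) ^ k) ^ 2 := by
  have key : ∀ t t' t'' : Fin 3, (∀ s, s = t ∨ s = t' ∨ s = t'') →
      (∀ u v : Fin 3 → ℤ, u t' = v t' → u t'' = v t'' → dot ξ u - dot ξ v = ξ t * (u t - v t)) →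
      ¬ (M : ℤ) ∣ ξ t →
      ((Finset.univ.filter (fun g : Fin 3 → Fin k → Fin h =>
        (M : ℤ) ^ k ∣ dot ξ (nB M γ g))).card : ℝ) ≤ ((h : ℝ) ^ k) ^ 2 := by
    intro t t' t'' hall hdot hnd
    have h1 := Finset.card_le_card_of_injOn
      (s := Finset.univ.filter (fun g : Fin 3 → Fin k → Fin h =>
        (M : ℤ) ^ k ∣ dot ξ (nB M γ g)))
      (t := Finset.univ) (fun g => (g t', g t'')) (fun _ _ => Finset.mem_univ _) ?_
    · rw [Finset.card_univ] at h1
      simp only [Fintype.card_prod, Fintype.card_fun, Fintype.card_fin] at h1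
      rw [sq]
      exact_mod_cast h1
    · intro g hg g' hg' e
      rw [Finset.mem_coe, Finset.mem_filter] at hg hg'
      simp only [Prod.mk.injEq] at e
      have hc : IsCoprime ((M : ℤ) ^ k) (ξ t) :=
        ((Nat.prime_iff_prime_int.mp hMp).irreducible.coprime_iff_not_dvd.mpr hnd).pow_left
      have d := dvd_sub hg.2 hg'.2
      rw [hdot _ _ (by unfold nB; rw [e.1]) (by unfold nB; rw [e.2])] at d
      have d1 := hc.dvd_of_dvd_mul_left d
      have e0 : g t = g' t := by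
        apply eq_of_tl hh M hM (γ t) _ _ k le_rfl d1
        funext l
        have := l.2
        omega
      funext s
      rcases hall s with rfl | rfl | rfl
      · exact e0
      · exact e.1
      · exact e.2
  have hex : ∃ t, ¬ (M : ℤ) ∣ ξ t := by
    by_contra hc
    push Not at hc
    obtain ⟨y, hy⟩ := hξ
    have : (M : ℤ) ∣ 1 := by
      rw [← hy]
      exact dvd_add (dvd_add ((hc 0).mul_left _) ((hc 1).mul_left _)) ((hc 2).mul_left _)
    exact (Nat.prime_iff_prime_int.mp hMp).not_dvd_one this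
  rcases exists3.mp hex with h0 | h0 | h0
  · refine key 0 1 2 (by decide) ?_ h0
    intro u v e1 e2; simp only [dot, e1, e2]; ring
  · refine key 1 0 2 (by decide) ?_ h0
    intro u v e1 e2; simp only [dot, e1, e2]; ring
  · refine key 2 0 1 (by decide) ?_ h0
    intro u v e1 e2; simp only [dot, e1, e2]; ring

theorem pow_dvd_of_exact {M : ℕ} (hMp : M.Prime) {i i' : ℕ} (hi : i' ≤ i) {v x : ℤ}
    (h1 : (M : ℤ) ^ i' ∣ v) (h2 : ¬ (M : ℤ) ^ (i' + 1) ∣ v) (h3 : (M : ℤ) ^ i ∣ x * v) :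
    (M : ℤ) ^ (i - i') ∣ x := by
  obtain ⟨w, rfl⟩ := h1
  have hM0 : (M : ℤ) ≠ 0 := by exact_mod_cast hMp.ne_zero
  have hw : ¬ (M : ℤ) ∣ w := by
    intro hw
    apply h2
    rw [pow_succ]
    exact mul_dvd_mul_left _ hw
  have hc : IsCoprime ((M : ℤ) ^ (i - i')) w :=
    ((Nat.prime_iff_prime_int.mp hMp).irreducible.coprime_iff_not_dvd.mpr hw).pow_left
  apply hc.dvd_of_dvd_mul_right
  obtain ⟨c, rfl⟩ := Nat.exists_eq_add_of_le hi
  rw [Nat.add_sub_cancel_left]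
  rw [pow_add, show x * ((M : ℤ) ^ i' * w) = (M : ℤ) ^ i' * (x * w) by ring] at h3
  exact Int.dvd_of_mul_dvd_mul_left (pow_ne_zero _ hM0) h3

open Classical in
/-- Averaging over the shear parameter. -/
theorem shear_count (M : ℕ) (hMp : M.Prime) (k i : ℕ) (hi : i ≤ k) (A B C : Fin 3 → ℤ) :
    (((Finset.range (M ^ k)).filter
      (fun lam : ℕ => DvdCr ((M : ℤ) ^ i) A (fun t => B t + lam * C t))).card : ℝ) * (M : ℝ) ^ i
      ≤ 2 * (M : ℝ) ^ k * ∑ i' ∈ Finset.range (k + 1),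
        if DvdCr ((M : ℤ) ^ i') A B ∧ DvdCr ((M : ℤ) ^ i') A C then (M : ℝ) ^ i' else 0 := by
  have hMr : (1 : ℝ) ≤ M := by exact_mod_cast hMp.one_le
  have hlin : ∀ (lam : ℤ) t, cr A (fun t => B t + lam * C t) t = cr A B t + lam * cr A C t := by
    intro lam
    rw [forall3]
    simp only [cr_0, cr_1, cr_2]
    exact ⟨by ring, by ring, by ring⟩
  have hnn : ∀ i' ∈ Finset.range (k + 1), (0 : ℝ) ≤
      if DvdCr ((M : ℤ) ^ i') A B ∧ DvdCr ((M : ℤ) ^ i') A C then (M : ℝ) ^ i' else 0 := by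
    intro i' _; split_ifs <;> positivity
  rcases ((Finset.range (M ^ k)).filter
      (fun lam : ℕ => DvdCr ((M : ℤ) ^ i) A (fun t => B t + lam * C t))).eq_empty_or_nonempty
    with h0 | ⟨l0, hl0⟩
  · rw [h0]
    simp only [Finset.card_empty, Nat.cast_zero, zero_mul]
    exact mul_nonneg (by positivity) (Finset.sum_nonneg hnn)
  rw [Finset.mem_filter] at hl0
  set i' := Nat.findGreatest (fun n => DvdCr ((M : ℤ) ^ n) A C) i with hi'
  have h1 : i' ≤ i := Nat.findGreatest_le i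
  have h2 : DvdCr ((M : ℤ) ^ i') A C :=
    Nat.findGreatest_spec (P := fun n => DvdCr ((M : ℤ) ^ n) A C) (Nat.zero_le i)
      (fun t => by simp)
  have h3 : DvdCr ((M : ℤ) ^ i') A B := by
    intro t
    have h4 := (pow_dvd_pow (M : ℤ) h1).trans (hl0.2 t)
    rw [hlin] at h4
    have := dvd_sub h4 ((h2 t).mul_left (l0 : ℤ))
    simpa using this
  have h5 : (M : ℝ) ^ i' ≤ ∑ i' ∈ Finset.range (k + 1),
      if DvdCr ((M : ℤ) ^ i') A B ∧ DvdCr ((M : ℤ) ^ i') A C then (M : ℝ) ^ i' else 0 := by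
    have := Finset.single_le_sum hnn (Finset.mem_range.mpr (show i' < k + 1 by omega))
    rwa [if_pos ⟨h3, h2⟩] at this
  have h6 : (((Finset.range (M ^ k)).filter
      (fun lam : ℕ => DvdCr ((M : ℤ) ^ i) A (fun t => B t + lam * C t))).card : ℝ)
      ≤ 2 * (M : ℝ) ^ k / (M : ℝ) ^ (i - i') := by
    have h7 := card_le_of_sep ((Finset.range (M ^ k)).filter
      (fun lam : ℕ => DvdCr ((M : ℤ) ^ i) A (fun t => B t + lam * C t))) (fun n => (n : ℤ))
      ((M : ℝ) ^ (i - i')) ((M : ℝ) ^ k) (by positivity) (by positivity) ?_ ?_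
    · refine h7.trans ?_
      have h8 : 1 ≤ (M : ℝ) ^ k / (M : ℝ) ^ (i - i') := by
        rw [le_div_iff₀ (by positivity), one_mul]
        exact pow_le_pow_right₀ hMr (by omega)
      have e : 2 * (M : ℝ) ^ k / (M : ℝ) ^ (i - i')
        = (M : ℝ) ^ k / (M : ℝ) ^ (i - i') + (M : ℝ) ^ k / (M : ℝ) ^ (i - i') := by ring
      linarith
    · intro u hu v hv hne
      rw [Finset.mem_filter] at hu hv
      have hne' : (u : ℤ) - v ≠ 0 := sub_ne_zero.mpr (by exact_mod_cast hne)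
      have hd : (M : ℤ) ^ (i - i') ∣ (u : ℤ) - v := by
        rcases Nat.eq_or_lt_of_le h1 with he | hlt
        · rw [he]; simp
        · have h9 : ¬ DvdCr ((M : ℤ) ^ (i' + 1)) A C :=
            Nat.findGreatest_is_greatest (P := fun n => DvdCr ((M : ℤ) ^ n) A C)
              (Nat.lt_succ_self i') hlt
          unfold DvdCr at h9
          push Not at h9
          obtain ⟨t, ht⟩ := h9
          apply pow_dvd_of_exact hMp h1 (h2 t) ht
          have := dvd_sub (hu.2 t) (hv.2 t)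
          rw [hlin, hlin] at this
          obtain ⟨q, hq⟩ := this
          exact ⟨q, by linear_combination hq⟩
      have := Int.le_of_dvd (abs_pos.mpr hne') ((dvd_abs _ _).mpr hd)
      exact_mod_cast this
    · intro u hu v hv
      rw [Finset.mem_filter, Finset.mem_range] at hu hv
      have a1 : (u : ℝ) < (M : ℝ) ^ k := by exact_mod_cast hu.1
      have a2 : (v : ℝ) < (M : ℝ) ^ k := by exact_mod_cast hv.1
      have a3 : (0 : ℝ) ≤ u := Nat.cast_nonneg _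
      have a4 : (0 : ℝ) ≤ v := Nat.cast_nonneg _
      push_cast
      rw [abs_le]; constructor <;> linarith
  calc _ ≤ 2 * (M : ℝ) ^ k / (M : ℝ) ^ (i - i') * (M : ℝ) ^ i :=
        mul_le_mul_of_nonneg_right h6 (by positivity)
    _ = 2 * (M : ℝ) ^ k * (M : ℝ) ^ i' := by
        obtain ⟨c, hc⟩ := Nat.exists_eq_add_of_le h1
        rw [hc, Nat.add_sub_cancel_left, pow_add]
        field_simp
    _ ≤ _ := mul_le_mul_of_nonneg_left h5 (by positivity)

/-- Counting vectors of a box coordinate by coordinate. -/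
theorem count3 (Y : ℕ) (S : Finset (Fin 3 → ℤ)) (hS : S ⊆ Box Y) (t₀ t₁ t₂ : Fin 3)
    (hall : ∀ s, s = t₀ ∨ s = t₁ ∨ s = t₂) (T₂ : Finset ℤ) (hT : ∀ ξ ∈ S, ξ t₂ ∈ T₂)
    (D₀ D₁ : ℕ) (h₀ : 0 < D₀) (h₁ : 0 < D₁)
    (k₁ : ∀ ξ ∈ S, ∀ ξ' ∈ S, ξ t₂ = ξ' t₂ → (D₁ : ℤ) ∣ ξ t₁ - ξ' t₁)
    (k₀ : ∀ ξ ∈ S, ∀ ξ' ∈ S, ξ t₂ = ξ' t₂ → ξ t₁ = ξ' t₁ → (D₀ : ℤ) ∣ ξ t₀ - ξ' t₀) :
    (S.card : ℝ) ≤ T₂.card * ((2 * Y / D₁ + 1) * (2 * Y / D₀ + 1)) := by
  classical
  have hdiam : ∀ ξ ∈ S, ∀ ξ' ∈ S, ∀ t, |((ξ t - ξ' t : ℤ) : ℝ)| ≤ 2 * Y := by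
    intro ξ hξ ξ' hξ' t
    have a1 := (abs_le_nrm ξ t).trans (mem_Box.mp (hS hξ))
    have a2 := (abs_le_nrm ξ' t).trans (mem_Box.mp (hS hξ'))
    have a3 := abs_sub (ξ t) (ξ' t)
    have : |ξ t - ξ' t| ≤ 2 * Y := by linarith
    exact_mod_cast this
  apply card_le_mul_of_fibers S T₂ (fun ξ => ξ t₂) _ hT
  intro x _
  have h1 := card_le_mul_of_fibers (S.filter (fun ξ => ξ t₂ = x))
    ((S.filter (fun ξ => ξ t₂ = x)).image (fun ξ => ξ t₁)) (fun ξ => ξ t₁) (2 * Y / D₀ + 1)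
    (fun u hu => Finset.mem_image_of_mem _ hu) ?_
  · refine h1.trans (mul_le_mul_of_nonneg_right ?_ (by positivity))
    apply card_le_of_sep _ id _ _ (by exact_mod_cast h₁) (by positivity)
    · intro a ha b hb hne
      obtain ⟨ξ, hξ, rfl⟩ := Finset.mem_image.mp ha
      obtain ⟨ξ', hξ', rfl⟩ := Finset.mem_image.mp hb
      rw [Finset.mem_filter] at hξ hξ'
      have hd := k₁ ξ hξ.1 ξ' hξ'.1 (hξ.2.trans hξ'.2.symm)
      have := Int.le_of_dvd (abs_pos.mpr (sub_ne_zero.mpr hne)) ((dvd_abs _ _).mpr hd)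
      simp only [id]
      exact_mod_cast this
    · intro a ha b hb
      obtain ⟨ξ, hξ, rfl⟩ := Finset.mem_image.mp ha
      obtain ⟨ξ', hξ', rfl⟩ := Finset.mem_image.mp hb
      rw [Finset.mem_filter] at hξ hξ'
      exact hdiam ξ hξ.1 ξ' hξ'.1 t₁
  · intro y _
    apply card_le_of_sep _ (fun ξ => ξ t₀) _ _ (by exact_mod_cast h₀) (by positivity)
    · intro ξ hξ ξ' hξ' hne
      simp only [Finset.mem_filter] at hξ hξ'
      have e2 : ξ t₂ = ξ' t₂ := hξ.1.2.trans hξ'.1.2.symm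
      have e1 : ξ t₁ = ξ' t₁ := hξ.2.trans hξ'.2.symm
      have hd := k₀ ξ hξ.1.1 ξ' hξ'.1.1 e2 e1
      have hne0 : ξ t₀ - ξ' t₀ ≠ 0 := by
        intro h0
        apply hne
        funext s
        rcases hall s with rfl | rfl | rfl
        · linarith
        · exact e1
        · exact e2
      have := Int.le_of_dvd (abs_pos.mpr hne0) ((dvd_abs _ _).mpr hd)
      exact_mod_cast this
    · intro ξ hξ ξ' hξ'
      simp only [Finset.mem_filter] at hξ hξ'
      exact hdiam ξ hξ.1.1 ξ' hξ'.1.1 t₀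

/-- Orthogonal to two rows modulo `D`. -/
def Perp2 (D : ℤ) (A B ξ : Fin 3 → ℤ) : Prop := D ∣ dot ξ A ∧ D ∣ dot ξ B

open Classical in
theorem count_perp (M : ℕ) (hMp : M.Prime) (k Y : ℕ) (A B : Fin 3 → ℤ)
    (hA : IsCoprime (A 0) (M : ℤ)) :
    (((Box Y).filter (Perp2 ((M : ℤ) ^ k) A B)).card : ℝ)
      ≤ (2 * Y + 1) * (2 * Y / (M : ℝ) ^ k + 1) ^ 2 * ∑ i ∈ Finset.range (k + 1),
        if DvdCr ((M : ℤ) ^ i) A B then (M : ℝ) ^ i else 0 := by
  have hMr : (1 : ℝ) ≤ M := by exact_mod_cast hMp.one_le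
  have hM0 : 0 < M := hMp.pos
  set i := Nat.findGreatest (fun n => DvdCr ((M : ℤ) ^ n) A B) k with hi
  have h1 : i ≤ k := Nat.findGreatest_le k
  have h2 : DvdCr ((M : ℤ) ^ i) A B :=
    Nat.findGreatest_spec (P := fun n => DvdCr ((M : ℤ) ^ n) A B) (Nat.zero_le k)
      (fun t => by simp)
  have h5 : (M : ℝ) ^ i ≤ ∑ i ∈ Finset.range (k + 1),
      if DvdCr ((M : ℤ) ^ i) A B then (M : ℝ) ^ i else 0 := by
    have := Finset.single_le_sum (f := fun i => if DvdCr ((M : ℤ) ^ i) A B then (M : ℝ) ^ i else 0)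
      (fun i' _ => by split_ifs <;> positivity)
      (Finset.mem_range.mpr (show i < k + 1 by omega))
    rwa [if_pos h2] at this
  have hA' : IsCoprime ((M : ℤ) ^ k) (A 0) := hA.symm.pow_left
  have hrel : ∀ ξ ∈ (Box Y).filter (Perp2 ((M : ℤ) ^ k) A B),
      (M : ℤ) ^ k ∣ ξ 1 * cr A B 2 - ξ 2 * cr A B 1 := by
    intro ξ hξ
    rw [Finset.mem_filter] at hξ
    obtain ⟨q, hq⟩ := dvd_sub (hξ.2.2.mul_left (A 0)) (hξ.2.1.mul_left (B 0))
    refine ⟨q, ?_⟩
    rw [← hq]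
    simp only [dot, cr_1, cr_2]
    ring
  have hT : ∀ t, ∀ ξ ∈ (Box Y).filter (Perp2 ((M : ℤ) ^ k) A B),
      ξ t ∈ Finset.Icc (-(Y : ℤ)) Y := by
    intro t ξ hξ
    rw [Finset.mem_filter] at hξ
    rw [Finset.mem_Icc, ← abs_le]
    exact (abs_le_nrm ξ t).trans (mem_Box.mp hξ.1)
  have hk0 : ∀ ξ ∈ (Box Y).filter (Perp2 ((M : ℤ) ^ k) A B),
      ∀ ξ' ∈ (Box Y).filter (Perp2 ((M : ℤ) ^ k) A B), ξ 1 = ξ' 1 → ξ 2 = ξ' 2 →
        ((M ^ k : ℕ) : ℤ) ∣ ξ 0 - ξ' 0 := by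
    intro ξ hξ ξ' hξ' e1 e2
    rw [Finset.mem_filter] at hξ hξ'
    push_cast
    apply hA'.dvd_of_dvd_mul_right
    obtain ⟨q, hq⟩ := dvd_sub hξ.2.1 hξ'.2.1
    refine ⟨q, ?_⟩
    rw [← hq]
    simp only [dot, e1, e2]
    ring
  have hmain : (((Box Y).filter (Perp2 ((M : ℤ) ^ k) A B)).card : ℝ) ≤
      (Finset.Icc (-(Y : ℤ)) Y).card *
        ((2 * Y / ((M ^ (k - i) : ℕ) : ℝ) + 1) * (2 * Y / ((M ^ k : ℕ) : ℝ) + 1)) := by
    by_cases hc : i < k ∧ ¬ (M : ℤ) ^ (i + 1) ∣ cr A B 1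
    · apply count3 Y _ (Finset.filter_subset _ _) 0 2 1 (by decide) _ (hT 1) _ _
        (by positivity) (by positivity)
      · intro ξ hξ ξ' hξ' e
        push_cast
        apply pow_dvd_of_exact hMp h1 (h2 1) hc.2
        obtain ⟨q, hq⟩ := dvd_sub (hrel ξ' hξ') (hrel ξ hξ)
        exact ⟨q, by rw [← hq, e]; ring⟩
      · intro ξ hξ ξ' hξ' e1 e2
        exact hk0 ξ hξ ξ' hξ' e1 e2
    · apply count3 Y _ (Finset.filter_subset _ _) 0 1 2 (by decide) _ (hT 2) _ _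
        (by positivity) (by positivity)
      · intro ξ hξ ξ' hξ' e
        push_cast
        rcases Nat.eq_or_lt_of_le h1 with he | hlt
        · rw [he]; simp
        · have h9 : ¬ DvdCr ((M : ℤ) ^ (i + 1)) A B :=
            Nat.findGreatest_is_greatest (P := fun n => DvdCr ((M : ℤ) ^ n) A B)
              (Nat.lt_succ_self i) hlt
          have c1 : (M : ℤ) ^ (i + 1) ∣ cr A B 1 := by
            by_contra hcon
            exact hc ⟨hlt, hcon⟩
          have c2 : ¬ (M : ℤ) ^ (i + 1) ∣ cr A B 2 := by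
            intro c2
            apply h9
            unfold DvdCr
            rw [forall3]
            refine ⟨?_, c1, c2⟩
            apply (hA.symm.pow_left (m := i + 1)).dvd_of_dvd_mul_left
            obtain ⟨q, hq⟩ := dvd_add (c1.mul_left (A 1)) (c2.mul_left (A 2))
            refine ⟨-q, ?_⟩
            rw [mul_neg, ← hq]
            simp only [cr_0, cr_1, cr_2]
            ring
          apply pow_dvd_of_exact hMp h1 (h2 2) c2
          obtain ⟨q, hq⟩ := dvd_sub (hrel ξ hξ) (hrel ξ' hξ')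
          exact ⟨q, by rw [← hq, e]; ring⟩
      · intro ξ hξ ξ' hξ' e1 e2
        exact hk0 ξ hξ ξ' hξ' e2 e1
  refine hmain.trans ?_
  have hc : ((Finset.Icc (-(Y : ℤ)) Y).card : ℝ) = 2 * Y + 1 := by
    rw [Int.card_Icc]
    have : ((Y : ℤ) + 1 - -(Y : ℤ)).toNat = 2 * Y + 1 := by omega
    rw [this]; push_cast; ring
  rw [hc]
  push_cast
  have h6 : 2 * (Y : ℝ) / (M : ℝ) ^ (k - i) + 1 ≤ (2 * Y / (M : ℝ) ^ k + 1) * (M : ℝ) ^ i := by
    obtain ⟨c, hc⟩ := Nat.exists_eq_add_of_le h1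
    have e : 2 * (Y : ℝ) / (M : ℝ) ^ (k - i) = 2 * Y / (M : ℝ) ^ k * (M : ℝ) ^ i := by
      rw [hc, Nat.add_sub_cancel_left, pow_add]
      field_simp
    rw [e, add_mul, one_mul]
    have : 1 ≤ (M : ℝ) ^ i := one_le_pow₀ hMr
    linarith
  calc _ ≤ (2 * (Y : ℝ) + 1) * (((2 * Y / (M : ℝ) ^ k + 1) * (M : ℝ) ^ i) *
        (2 * Y / (M : ℝ) ^ k + 1)) := by gcongr
    _ = (2 * Y + 1) * (2 * Y / (M : ℝ) ^ k + 1) ^ 2 * (M : ℝ) ^ i := by ring
    _ ≤ _ := mul_le_mul_of_nonneg_left h5 (by positivity)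

end Vale.Agent.P036
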