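import Vale.Agent.P036.ModM

/-! Counting modulo the prime `Q`: the elliptic quadric. -/

namespace Vale.Agent.P036

open Finset

section
variable {F : Type} [Field F] [Fintype F] [DecidableEq F]

omit [Fintype F] [DecidableEq F] in
theorem quad_roots (a b c : F) (ha : a ≠ 0) (S : Finset F)
    (h : ∀ x ∈ S, a * x ^ 2 + b * x + c = 0) : S.card ≤ 2 := by
  by_contra hc
  push Not at hc
  obtain ⟨x, y, z, hx, hy, hz, hxy, hxz, hyz⟩ := Finset.two_lt_card_iff.mp hc
  have e1 := h x hx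
  have e2 := h y hy
  have e3 := h z hz
  have f1 : a * (x + y) + b = 0 := by
    apply mul_left_cancel₀ (sub_ne_zero.mpr hxy)
    linear_combination e1 - e2
  have f2 : a * (x + z) + b = 0 := by
    apply mul_left_cancel₀ (sub_ne_zero.mpr hxz)
    linear_combination e1 - e3
  have f3 : a * (y - z) = 0 := by linear_combination f1 - f2
  exact hyz (sub_eq_zero.mp ((mul_eq_zero.mp f3).resolve_left ha))

/-- The third coordinate on the quadric. -/
def cq (ν : F) (u v : Fin 3 → F) : Fin 3 → F := fun t => u t ^ 2 - ν * v t ^ 2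

/-- The row of first coordinates. -/
def uu (x : (Fin 3 → Fˣ) × (Fin 3 → F)) : Fin 3 → F := fun t => (x.1 t : F)

/-- The determinant takes the value `s`. -/
def DetEq (ν s : F) (x : (Fin 3 → Fˣ) × (Fin 3 → F)) : Prop :=
  dot (cr (uu x) x.2) (cq ν (uu x) x.2) = s

/-- The first two rows are parallel. -/
def CrZero (x : (Fin 3 → Fˣ) × (Fin 3 → F)) : Prop := ∀ t, cr (uu x) x.2 t = 0

/-- `ξ` is orthogonal to the three rows. -/
def Rel (ν : F) (ξ : Fin 3 → F) (x : (Fin 3 → Fˣ) × (Fin 3 → F)) : Prop :=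
  dot ξ (uu x) = 0 ∧ dot ξ x.2 = 0 ∧ dot ξ (cq ν (uu x) x.2) = 0

theorem card_units_le : Fintype.card Fˣ ≤ Fintype.card F :=
  Fintype.card_le_of_injective Units.val Units.val_injective

open Classical in
theorem count_detEq (ν s : F) (hν : ν ≠ 0) :
    ((Finset.univ.filter (DetEq ν s)).card : ℝ) ≤ 3 * (Fintype.card F : ℝ) ^ 5 := by
  have hsub : Finset.univ.filter (DetEq ν s) ⊆
      (Finset.univ.filter (fun x : (Fin 3 → Fˣ) × (Fin 3 → F) => cr (uu x) x.2 2 = 0)) ∪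
      (Finset.univ.filter (fun x : (Fin 3 → Fˣ) × (Fin 3 → F) =>
        cr (uu x) x.2 2 ≠ 0 ∧ DetEq ν s x)) := by
    intro x hx
    simp only [Finset.mem_filter, Finset.mem_univ, true_and, Finset.mem_union] at hx ⊢
    tauto
  have hU : (Fintype.card Fˣ : ℝ) ≤ Fintype.card F := by exact_mod_cast card_units_le
  have hT : ((Finset.univ : Finset ((Fin 3 → Fˣ) × F × F)).card : ℝ)
      ≤ (Fintype.card F : ℝ) ^ 5 := by
    rw [Finset.card_univ]
    simp only [Fintype.card_prod, Fintype.card_fun, Fintype.card_fin]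
    push_cast
    calc _ ≤ (Fintype.card F : ℝ) ^ 3 * (Fintype.card F * Fintype.card F) := by gcongr
      _ = _ := by ring
  have h1 : ((Finset.univ.filter (fun x : (Fin 3 → Fˣ) × (Fin 3 → F) =>
      cr (uu x) x.2 2 = 0)).card : ℝ) ≤ (Fintype.card F : ℝ) ^ 5 := by
    refine le_trans ?_ hT
    have := Finset.card_le_card_of_injOn
      (s := Finset.univ.filter (fun x : (Fin 3 → Fˣ) × (Fin 3 → F) => cr (uu x) x.2 2 = 0))
      (t := Finset.univ) (fun x => (x.1, x.2 0, x.2 2)) (fun _ _ => Finset.mem_univ _) ?_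
    · exact_mod_cast this
    · intro x hx y hy e
      rw [Finset.mem_coe, Finset.mem_filter] at hx hy
      simp only [Prod.mk.injEq] at e
      obtain ⟨e1, e2, e3⟩ := e
      have hx2 := hx.2
      have hy2 := hy.2
      simp only [cr_2, uu] at hx2 hy2
      rw [e1, e2] at hx2
      have e4 : x.2 1 = y.2 1 := by
        apply mul_left_cancel₀ (y.1 0).ne_zero
        linear_combination hx2 - hy2
      refine Prod.ext e1 ?_
      funext t; revert t; rw [forall3]; exact ⟨e2, e4, e3⟩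
  have h2 : ((Finset.univ.filter (fun x : (Fin 3 → Fˣ) × (Fin 3 → F) =>
      cr (uu x) x.2 2 ≠ 0 ∧ DetEq ν s x)).card : ℝ) ≤ (Fintype.card F : ℝ) ^ 5 * 2 := by
    refine le_trans (card_le_mul_of_fibers _ Finset.univ (fun x => (x.1, x.2 0, x.2 1)) 2
      (fun _ _ => Finset.mem_univ _) ?_) (mul_le_mul_of_nonneg_right hT (by norm_num))
    rintro ⟨u, v0, v1⟩ _
    set S := (Finset.univ.filter (fun x : (Fin 3 → Fˣ) × (Fin 3 → F) =>
      cr (uu x) x.2 2 ≠ 0 ∧ DetEq ν s x)).filter (fun x => (x.1, x.2 0, x.2 1) = (u, v0, v1))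
      with hS
    have hmem : ∀ x ∈ S, x.1 = u ∧ x.2 0 = v0 ∧ x.2 1 = v1 ∧ cr (uu x) x.2 2 ≠ 0 ∧
        DetEq ν s x := by
      intro x hx
      rw [hS] at hx
      simp only [Finset.mem_filter, Finset.mem_univ, true_and, Prod.mk.injEq] at hx
      tauto
    have hinj : Set.InjOn (fun x : (Fin 3 → Fˣ) × (Fin 3 → F) => x.2 2) S := by
      intro x hx y hy e
      obtain ⟨a1, a2, a3, -⟩ := hmem x hx
      obtain ⟨b1, b2, b3, -⟩ := hmem y hy
      refine Prod.ext (a1.trans b1.symm) ?_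
      funext t; revert t; rw [forall3]; exact ⟨a2.trans b2.symm, a3.trans b3.symm, e⟩
    rw [← Finset.card_image_of_injOn hinj]
    rcases S.eq_empty_or_nonempty with h0 | ⟨x0, hx0⟩
    · rw [h0]; simp
    obtain ⟨a1, a2, a3, a4, -⟩ := hmem x0 hx0
    have hlead : -ν * ((u 0 : F) * v1 - u 1 * v0) ≠ 0 := by
      apply mul_ne_zero (neg_ne_zero.mpr hν)
      simp only [cr_2, uu, a1, a2, a3] at a4
      exact a4
    have := quad_roots _ ((u 1 : F) * ((u 0 : F) ^ 2 - ν * v0 ^ 2)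
      - (u 0 : F) * ((u 1 : F) ^ 2 - ν * v1 ^ 2))
      (-(u 2 : F) * v1 * ((u 0 : F) ^ 2 - ν * v0 ^ 2) + (u 2 : F) * v0 * ((u 1 : F) ^ 2 - ν * v1 ^ 2)
        + ((u 0 : F) * v1 - u 1 * v0) * (u 2 : F) ^ 2 - s) hlead
      (S.image (fun x => x.2 2)) ?_
    · exact_mod_cast this
    · intro y hy
      obtain ⟨x, hx, rfl⟩ := Finset.mem_image.mp hy
      obtain ⟨b1, b2, b3, -, b5⟩ := hmem x hx
      simp only [DetEq, dot, cr_0, cr_1, cr_2, cq, uu, b1, b2, b3] at b5
      linear_combination b5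
  have h3 := (Finset.card_le_card hsub).trans (Finset.card_union_le _ _)
  have h4 : ((Finset.univ.filter (DetEq ν s)).card : ℝ) ≤
      (Finset.univ.filter (fun x : (Fin 3 → Fˣ) × (Fin 3 → F) => cr (uu x) x.2 2 = 0)).card +
      (Finset.univ.filter (fun x : (Fin 3 → Fˣ) × (Fin 3 → F) =>
        cr (uu x) x.2 2 ≠ 0 ∧ DetEq ν s x)).card := by exact_mod_cast h3
  linarith

open Classical in
theorem count_crZero :
    ((Finset.univ.filter (CrZero (F := F))).card : ℝ) ≤ (Fintype.card F : ℝ) ^ 4 := by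
  have hU : (Fintype.card Fˣ : ℝ) ≤ Fintype.card F := by exact_mod_cast card_units_le
  have := Finset.card_le_card_of_injOn (s := Finset.univ.filter (CrZero (F := F)))
    (t := Finset.univ) (fun x => (x.1, x.2 0)) (fun _ _ => Finset.mem_univ _) ?_
  · rw [Finset.card_univ] at this
    simp only [Fintype.card_prod, Fintype.card_fun, Fintype.card_fin] at this
    have h1 : ((Finset.univ.filter (CrZero (F := F))).card : ℝ)
        ≤ (Fintype.card Fˣ : ℝ) ^ 3 * Fintype.card F := by exact_mod_cast this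
    calc _ ≤ _ := h1
      _ ≤ (Fintype.card F : ℝ) ^ 3 * Fintype.card F := by gcongr
      _ = _ := by ring
  · intro x hx y hy e
    rw [Finset.mem_coe, Finset.mem_filter] at hx hy
    simp only [Prod.mk.injEq] at e
    obtain ⟨e1, e2⟩ := e
    have hx1 := hx.2 1
    have hy1 := hy.2 1
    have hx2 := hx.2 2
    have hy2 := hy.2 2
    simp only [cr_1, cr_2, uu] at hx1 hy1 hx2 hy2
    rw [e1, e2] at hx1 hx2
    have e4 : x.2 1 = y.2 1 := by
      apply mul_left_cancel₀ (y.1 0).ne_zero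
      linear_combination hx2 - hy2
    have e5 : x.2 2 = y.2 2 := by
      apply mul_left_cancel₀ (y.1 0).ne_zero
      linear_combination hy1 - hx1
    refine Prod.ext e1 ?_
    funext t; revert t; rw [forall3]; exact ⟨e2, e4, e5⟩

open Classical in
theorem count_rel_inv (ν : F) (hν : ¬ IsSquare ν) (ξ : Fin 3 → F) (hξ : ∀ t, ξ t ≠ 0)
    (hs : ξ 0 + ξ 1 + ξ 2 = 0) :
    ((Finset.univ.filter (Rel ν ξ)).card : ℝ) ≤ (Fintype.card F : ℝ) ^ 2 := by
  have hU : (Fintype.card Fˣ : ℝ) ≤ Fintype.card F := by exact_mod_cast card_units_le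
  have key : ∀ x : (Fin 3 → Fˣ) × (Fin 3 → F), Rel ν ξ x →
      x.1 1 = x.1 0 ∧ x.1 2 = x.1 0 ∧ x.2 1 = x.2 0 ∧ x.2 2 = x.2 0 := by
    rintro x ⟨h1, h2, h3⟩
    simp only [dot, uu, cq] at h1 h2 h3
    have e0 : ξ 0 = -ξ 1 - ξ 2 := by linear_combination hs
    rw [e0] at h1 h2 h3
    have hq : ((x.1 1 : F) - x.1 0) ^ 2 - ν * (x.2 1 - x.2 0) ^ 2 = 0 := by
      have hne : ξ 1 * (ξ 1 + ξ 2) ≠ 0 := by
        apply mul_ne_zero (hξ 1)
        intro h
        apply hξ 0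
        linear_combination hs - h
      apply mul_left_cancel₀ hne
      linear_combination (ξ 2) * h3 - (2 * ξ 2 * (x.1 0 : F) + ξ 2 * ((x.1 2 : F) - x.1 0)
        - ξ 1 * ((x.1 1 : F) - x.1 0)) * h1 + ν * (2 * ξ 2 * x.2 0 + ξ 2 * (x.2 2 - x.2 0)
        - ξ 1 * (x.2 1 - x.2 0)) * h2
    have hv : x.2 1 - x.2 0 = 0 := by
      by_contra hc
      apply hν
      refine ⟨((x.1 1 : F) - x.1 0) / (x.2 1 - x.2 0), ?_⟩
      field_simp
      linear_combination -hq
    have hu : (x.1 1 : F) - x.1 0 = 0 := by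
      rw [hv] at hq
      simpa using hq
    have hu2 : (x.1 2 : F) - x.1 0 = 0 := by
      apply mul_left_cancel₀ (hξ 2)
      linear_combination h1 - ξ 1 * hu
    have hv2 : x.2 2 - x.2 0 = 0 := by
      apply mul_left_cancel₀ (hξ 2)
      linear_combination h2 - ξ 1 * hv
    exact ⟨Units.val_injective (sub_eq_zero.mp hu), Units.val_injective (sub_eq_zero.mp hu2),
      sub_eq_zero.mp hv, sub_eq_zero.mp hv2⟩
  have := Finset.card_le_card_of_injOn (s := Finset.univ.filter (Rel ν ξ))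
    (t := Finset.univ) (fun x => (x.1 0, x.2 0)) (fun _ _ => Finset.mem_univ _) ?_
  · rw [Finset.card_univ] at this
    simp only [Fintype.card_prod] at this
    have h1 : ((Finset.univ.filter (Rel ν ξ)).card : ℝ)
        ≤ (Fintype.card Fˣ : ℝ) * Fintype.card F := by exact_mod_cast this
    calc _ ≤ _ := h1
      _ ≤ (Fintype.card F : ℝ) * Fintype.card F := by gcongr
      _ = _ := by ring
  · intro x hx y hy e
    rw [Finset.mem_coe, Finset.mem_filter] at hx hy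
    simp only [Prod.mk.injEq] at e
    obtain ⟨a1, a2, a3, a4⟩ := key x hx.2
    obtain ⟨b1, b2, b3, b4⟩ := key y hy.2
    refine Prod.ext ?_ ?_
    · funext t; revert t; rw [forall3]
      exact ⟨e.1, by rw [a1, b1, e.1], by rw [a2, b2, e.1]⟩
    · funext t; revert t; rw [forall3]
      exact ⟨e.2, by rw [a3, b3, e.2], by rw [a4, b4, e.2]⟩

theorem fun3_ext {α : Type} {i j l : Fin 3} (hall : ∀ s, s = i ∨ s = j ∨ s = l)
    {f g : Fin 3 → α} (h1 : f i = g i) (h2 : f j = g j) (h3 : f l = g l) : f = g := by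
  funext s
  rcases hall s with rfl | rfl | rfl
  · exact h1
  · exact h2
  · exact h3

open Classical in
theorem count_rel_any' (ν : F) (ξ : Fin 3 → F) (i j l : Fin 3)
    (hall : ∀ s, s = i ∨ s = j ∨ s = l)
    (hdot : ∀ a b : Fin 3 → F, dot a b = a i * b i + a j * b j + a l * b l) (hi : ξ i ≠ 0) :
    ((Finset.univ.filter (Rel ν ξ)).card : ℝ) ≤ (Fintype.card F : ℝ) ^ 4 := by
  have hU : (Fintype.card Fˣ : ℝ) ≤ Fintype.card F := by exact_mod_cast card_units_le
  have := Finset.card_le_card_of_injOn (s := Finset.univ.filter (Rel ν ξ))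
    (t := Finset.univ) (fun x => (x.1 j, x.1 l, x.2 j, x.2 l)) (fun _ _ => Finset.mem_univ _) ?_
  · rw [Finset.card_univ] at this
    simp only [Fintype.card_prod] at this
    have h1 : ((Finset.univ.filter (Rel ν ξ)).card : ℝ)
        ≤ (Fintype.card Fˣ : ℝ) * (Fintype.card Fˣ * (Fintype.card F * Fintype.card F)) := by
      exact_mod_cast this
    calc _ ≤ _ := h1
      _ ≤ (Fintype.card F : ℝ) * (Fintype.card F * (Fintype.card F * Fintype.card F)) := by
          gcongr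
      _ = _ := by ring
  · intro x hx y hy e
    rw [Finset.mem_coe, Finset.mem_filter] at hx hy
    simp only [Prod.mk.injEq] at e
    obtain ⟨e1, e2, e3, e4⟩ := e
    obtain ⟨a1, a2, -⟩ := hx.2
    obtain ⟨b1, b2, -⟩ := hy.2
    rw [hdot] at a1 a2 b1 b2
    simp only [uu] at a1 b1
    rw [e1, e2] at a1
    rw [e3, e4] at a2
    refine Prod.ext (fun3_ext hall ?_ e1 e2) (fun3_ext hall ?_ e3 e4)
    · apply Units.val_injective
      apply mul_left_cancel₀ hi
      linear_combination a1 - b1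
    · apply mul_left_cancel₀ hi
      linear_combination a2 - b2

open Classical in
theorem count_rel_any (ν : F) (ξ : Fin 3 → F) (hξ : ∃ t, ξ t ≠ 0) :
    ((Finset.univ.filter (Rel ν ξ)).card : ℝ) ≤ (Fintype.card F : ℝ) ^ 4 := by
  rcases exists3.mp hξ with h | h | h
  · exact count_rel_any' ν ξ 0 1 2 (by decide) (fun a b => by simp only [dot]) h
  · exact count_rel_any' ν ξ 1 0 2 (by decide) (fun a b => by simp only [dot]; ring) h
  · exact count_rel_any' ν ξ 2 0 1 (by decide) (fun a b => by simp only [dot]; ring) h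

open Classical in
theorem count_rel_good' (ν : F) (hν : ν ≠ 0) (ξ : Fin 3 → F) (i j l : Fin 3)
    (hall : ∀ s, s = i ∨ s = j ∨ s = l)
    (hdot : ∀ a b : Fin 3 → F, dot a b = a i * b i + a j * b j + a l * b l)
    (hi : ξ i ≠ 0) (hj : ξ j ≠ 0) (hij : ξ i + ξ j ≠ 0) :
    ((Finset.univ.filter (Rel ν ξ)).card : ℝ) ≤ 2 * (Fintype.card F : ℝ) ^ 3 := by
  have hU : (Fintype.card Fˣ : ℝ) ≤ Fintype.card F := by exact_mod_cast card_units_le
  have hT : ((Finset.univ : Finset (Fˣ × Fˣ × F)).card : ℝ) ≤ (Fintype.card F : ℝ) ^ 3 := by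
    rw [Finset.card_univ]
    simp only [Fintype.card_prod]
    push_cast
    calc _ ≤ (Fintype.card F : ℝ) * (Fintype.card F * Fintype.card F) := by gcongr
      _ = _ := by ring
  rw [mul_comm]
  refine le_trans (card_le_mul_of_fibers _ Finset.univ (fun x => (x.1 j, x.1 l, x.2 l)) 2
    (fun _ _ => Finset.mem_univ _) ?_) (mul_le_mul_of_nonneg_right hT (by norm_num))
  rintro ⟨uj, ul, vl⟩ _
  set S := (Finset.univ.filter (Rel ν ξ)).filter
    (fun x => (x.1 j, x.1 l, x.2 l) = (uj, ul, vl)) with hS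
  have hmem : ∀ x ∈ S, x.1 j = uj ∧ x.1 l = ul ∧ x.2 l = vl ∧
      ξ i * x.1 i + ξ j * uj + ξ l * ul = 0 ∧ ξ i * x.2 i + ξ j * x.2 j + ξ l * vl = 0 ∧
      ξ i * ((x.1 i : F) ^ 2 - ν * x.2 i ^ 2) + ξ j * ((uj : F) ^ 2 - ν * x.2 j ^ 2)
        + ξ l * ((ul : F) ^ 2 - ν * vl ^ 2) = 0 := by
    intro x hx
    rw [hS] at hx
    simp only [Finset.mem_filter, Finset.mem_univ, true_and, Prod.mk.injEq] at hx
    obtain ⟨⟨a1, a2, a3⟩, e1, e2, e3⟩ := hx
    rw [hdot] at a1 a2 a3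
    simp only [uu, cq, e1, e2, e3] at a1 a2 a3
    exact ⟨e1, e2, e3, a1, a2, a3⟩
  have hinj : Set.InjOn (fun x : (Fin 3 → Fˣ) × (Fin 3 → F) => x.2 i) S := by
    intro x hx y hy e
    obtain ⟨a1, a2, a3, a4, a5, -⟩ := hmem x hx
    obtain ⟨b1, b2, b3, b4, b5, -⟩ := hmem y hy
    simp only at e
    refine Prod.ext (fun3_ext hall ?_ (a1.trans b1.symm) (a2.trans b2.symm))
      (fun3_ext hall e ?_ (a3.trans b3.symm))
    · apply Units.val_injective
      apply mul_left_cancel₀ hi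
      linear_combination a4 - b4
    · apply mul_left_cancel₀ hj
      rw [e] at a5
      linear_combination a5 - b5
  rw [← Finset.card_image_of_injOn hinj]
  rcases S.eq_empty_or_nonempty with h0 | ⟨x0, hx0⟩
  · rw [h0]; simp
  obtain ⟨-, -, -, c4, -⟩ := hmem x0 hx0
  have hlead : -ν * (ξ i * (ξ i + ξ j)) ≠ 0 :=
    mul_ne_zero (neg_ne_zero.mpr hν) (mul_ne_zero hi hij)
  have := quad_roots _ (-ν * (2 * ξ i * ξ l * vl))
    (ξ j * (ξ i * (x0.1 i : F) ^ 2 + ξ j * (uj : F) ^ 2 + ξ l * ((ul : F) ^ 2 - ν * vl ^ 2))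
      - ν * (ξ l * vl) ^ 2) hlead (S.image (fun x => x.2 i)) ?_
  · exact_mod_cast this
  · intro y hy
    obtain ⟨x, hx, rfl⟩ := Finset.mem_image.mp hy
    obtain ⟨-, -, -, a4, a5, a6⟩ := hmem x hx
    have e : (x.1 i : F) = x0.1 i := by
      apply mul_left_cancel₀ hi
      linear_combination a4 - c4
    rw [e] at a6
    linear_combination ξ j * a6 + ν * (ξ j * x.2 j - ξ i * x.2 i - ξ l * vl) * a5

open Classical in
theorem count_rel_one (ν : F) (ξ : Fin 3 → F) (i j l : Fin 3)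
    (hdot : ∀ a b : Fin 3 → F, dot a b = a i * b i + a j * b j + a l * b l)
    (hi : ξ i ≠ 0) (hj : ξ j = 0) (hl : ξ l = 0) :
    ((Finset.univ.filter (Rel ν ξ)).card : ℝ) ≤ 2 * (Fintype.card F : ℝ) ^ 3 := by
  rw [Finset.filter_false_of_mem]
  · simp
  · rintro x _ ⟨a1, -, -⟩
    rw [hdot, hj, hl] at a1
    simp only [uu, zero_mul, add_zero] at a1
    exact (mul_ne_zero hi (x.1 i).ne_zero) a1

open Classical in
theorem count_rel_good (h2 : (2 : F) ≠ 0) (ν : F) (hν : ν ≠ 0) (ξ : Fin 3 → F)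
    (hξ : ∃ t, ξ t ≠ 0) (hgood : ¬ ∃ t, ξ t = 0 ∧ ξ 0 + ξ 1 + ξ 2 = 0) :
    ((Finset.univ.filter (Rel ν ξ)).card : ℝ) ≤ 2 * (Fintype.card F : ℝ) ^ 3 := by
  have d012 : ∀ a b : Fin 3 → F, dot a b = a 0 * b 0 + a 1 * b 1 + a 2 * b 2 := fun a b => rfl
  have d021 : ∀ a b : Fin 3 → F, dot a b = a 0 * b 0 + a 2 * b 2 + a 1 * b 1 :=
    fun a b => by simp only [dot]; ring
  have d120 : ∀ a b : Fin 3 → F, dot a b = a 1 * b 1 + a 2 * b 2 + a 0 * b 0 :=
    fun a b => by simp only [dot]; ring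
  have d201 : ∀ a b : Fin 3 → F, dot a b = a 2 * b 2 + a 0 * b 0 + a 1 * b 1 :=
    fun a b => by simp only [dot]; ring
  push Not at hgood
  by_cases h0 : ξ 0 = 0 <;> by_cases h1 : ξ 1 = 0 <;> by_cases h2' : ξ 2 = 0
  · rcases exists3.mp hξ with h | h | h <;> contradiction
  · exact count_rel_one ν ξ 2 0 1 d201 h2' h0 h1
  · exact count_rel_one ν ξ 1 2 0 d120 h1 h2' h0
  · refine count_rel_good' ν hν ξ 1 2 0 (by decide) d120 h1 h2' ?_
    intro h; apply hgood 0 h0; linear_combination h + h0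
  · exact count_rel_one ν ξ 0 1 2 d012 h0 h1 h2'
  · refine count_rel_good' ν hν ξ 0 2 1 (by decide) d021 h0 h2' ?_
    intro h; apply hgood 1 h1; linear_combination h + h1
  · refine count_rel_good' ν hν ξ 0 1 2 (by decide) d012 h0 h1 ?_
    intro h; apply hgood 2 h2'; linear_combination h + h2'
  · by_cases a : ξ 0 + ξ 1 = 0
    · by_cases b : ξ 0 + ξ 2 = 0
      · refine count_rel_good' ν hν ξ 1 2 0 (by decide) d120 h1 h2' ?_
        intro c
        apply mul_ne_zero h2 h0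
        linear_combination a + b - c
      · exact count_rel_good' ν hν ξ 0 2 1 (by decide) d021 h0 h2' b
    · exact count_rel_good' ν hν ξ 0 1 2 (by decide) d012 h0 h1 a

end

/-- An entry and the sum of the entries are divisible by `Q`. -/
def Bad2 (Q : ℕ) (ξ : Fin 3 → ℤ) : Prop :=
  (∀ t, ξ t ≠ 0) ∧ ∃ t, (Q : ℤ) ∣ ξ t ∧ (Q : ℤ) ∣ ξ 0 + ξ 1 + ξ 2

open Classical in
theorem count_bad2 (Q Y : ℕ) (hQ : 0 < Q) :
    (((Box Y).filter (Bad2 Q)).card : ℝ) ≤ 54 * (Y : ℝ) ^ 3 / (Q : ℝ) ^ 2 := by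
  have hQr : (0 : ℝ) < Q := by exact_mod_cast hQ
  have key : ∀ t t' t'' : Fin 3, (∀ s, s = t'' ∨ s = t' ∨ s = t) →
      (∀ ξ : Fin 3 → ℤ, ξ 0 + ξ 1 + ξ 2 = ξ t + ξ t' + ξ t'') →
      (((Box Y).filter (fun ξ => ξ t ≠ 0 ∧ (Q : ℤ) ∣ ξ t ∧ (Q : ℤ) ∣ ξ 0 + ξ 1 + ξ 2)).card : ℝ)
        ≤ 18 * (Y : ℝ) ^ 3 / (Q : ℝ) ^ 2 := by
    intro t t' t'' hall hsum
    rcases lt_or_ge Y Q with hY | hY
    · rw [Finset.filter_false_of_mem]
      · simp; positivity
      · rintro ξ hξ ⟨h1, h2, -⟩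
        apply h1
        apply Int.eq_zero_of_abs_lt_dvd h2
        have := (abs_le_nrm ξ t).trans (mem_Box.mp hξ)
        have h3 : (Y : ℤ) < Q := by exact_mod_cast hY
        linarith
    have hYr : (Q : ℝ) ≤ Y := by exact_mod_cast hY
    have hQ1 : (1 : ℝ) ≤ Q := by exact_mod_cast hQ
    have h1 := count3 Y ((Box Y).filter
      (fun ξ => ξ t ≠ 0 ∧ (Q : ℤ) ∣ ξ t ∧ (Q : ℤ) ∣ ξ 0 + ξ 1 + ξ 2)) (Finset.filter_subset _ _)
      t'' t' t hall (((Finset.Icc (-(Y : ℤ)) Y).filter (fun x => (Q : ℤ) ∣ x)).erase 0) ?_ Q 1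
      hQ one_pos (by simp) ?_
    · refine h1.trans ?_
      have h0 : (0 : ℤ) ∈ (Finset.Icc (-(Y : ℤ)) Y).filter (fun x => (Q : ℤ) ∣ x) := by simp
      have h2 := card_le_of_sep ((Finset.Icc (-(Y : ℤ)) Y).filter (fun x => (Q : ℤ) ∣ x)) id Q
        (2 * Y) hQr (by positivity) ?_ ?_
      · have h3 := Finset.card_erase_add_one h0
        have h4 : ((((Finset.Icc (-(Y : ℤ)) Y).filter (fun x => (Q : ℤ) ∣ x)).erase 0).card : ℝ)
            ≤ 2 * Y / Q := by
          have : ((((Finset.Icc (-(Y : ℤ)) Y).filter (fun x => (Q : ℤ) ∣ x)).erase 0).card : ℝ)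
            + 1 = ((Finset.Icc (-(Y : ℤ)) Y).filter (fun x => (Q : ℤ) ∣ x)).card := by
            exact_mod_cast h3
          linarith
        have h5 : 2 * (Y : ℝ) / ((1 : ℕ) : ℝ) + 1 ≤ 3 * Y := by
          push_cast; linarith
        have h6 : 2 * (Y : ℝ) / Q + 1 ≤ 3 * Y / Q := by
          have : 1 ≤ (Y : ℝ) / Q := by rw [le_div_iff₀ hQr]; linarith
          have e : 3 * (Y : ℝ) / Q = 2 * Y / Q + Y / Q := by ring
          linarith
        calc _ ≤ (2 * (Y : ℝ) / Q) * ((3 * Y) * (3 * Y / Q)) := by gcongr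
          _ = _ := by field_simp; ring
      · intro u hu v hv hne
        rw [Finset.mem_filter] at hu hv
        have := Int.le_of_dvd (abs_pos.mpr (sub_ne_zero.mpr hne))
          ((dvd_abs _ _).mpr (dvd_sub hu.2 hv.2))
        simp only [id]
        exact_mod_cast this
      · intro u hu v hv
        rw [Finset.mem_filter, Finset.mem_Icc] at hu hv
        have : |u - v| ≤ 2 * Y := by
          rw [abs_le]; constructor <;> linarith [hu.1.1, hu.1.2, hv.1.1, hv.1.2]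
        simp only [id]
        exact_mod_cast this
    · intro ξ hξ
      rw [Finset.mem_filter] at hξ
      rw [Finset.mem_erase, Finset.mem_filter, Finset.mem_Icc, ← abs_le]
      exact ⟨hξ.2.1, (abs_le_nrm ξ t).trans (mem_Box.mp hξ.1), hξ.2.2.1⟩
    · intro ξ hξ ξ' hξ' e1 e2
      rw [Finset.mem_filter] at hξ hξ'
      have := dvd_sub hξ.2.2.2 hξ'.2.2.2
      rw [hsum, hsum, e1, e2] at this
      simpa using this
  have h := card_le_sum_of_cover ((Box Y).filter (Bad2 Q)) Finset.univ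
    (fun t : Fin 3 => (Box Y).filter
      (fun ξ => ξ t ≠ 0 ∧ (Q : ℤ) ∣ ξ t ∧ (Q : ℤ) ∣ ξ 0 + ξ 1 + ξ 2)) ?_
  · rw [Fin.sum_univ_three] at h
    have k0 := key 0 1 2 (by decide) (fun ξ => rfl)
    have k1 := key 1 0 2 (by decide) (fun ξ => by ring)
    have k2 := key 2 0 1 (by decide) (fun ξ => by ring)
    have e : 54 * (Y : ℝ) ^ 3 / (Q : ℝ) ^ 2 = 18 * (Y : ℝ) ^ 3 / (Q : ℝ) ^ 2
      + 18 * (Y : ℝ) ^ 3 / (Q : ℝ) ^ 2 + 18 * (Y : ℝ) ^ 3 / (Q : ℝ) ^ 2 := by ring
    linarith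
  · intro ξ hξ
    rw [Finset.mem_filter] at hξ
    obtain ⟨h1, t, h2⟩ := hξ.2
    exact ⟨t, Finset.mem_univ _, Finset.mem_filter.mpr ⟨hξ.1, h1 t, h2⟩⟩

end Vale.Agent.P036
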