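import Vale.Agent.P036.Basic

/-! Residue classes in boxes, and basic counts. -/

namespace Vale.Agent.P036

open Finset

/-- A residue class inside an interval of length `W * X`. -/
noncomputable def Cl (lo : ℤ) (W X : ℕ) (r : ℤ) : Finset ℤ :=
  (Finset.Ico lo (lo + W * X)).filter (fun u => (W : ℤ) ∣ u - r)

/-- A residue class of integer vectors inside a cube. -/
noncomputable def Row (lo : ℤ) (W X : ℕ) (r : Fin 3 → ℤ) : Finset (Fin 3 → ℤ) :=
  Fintype.piFinset (fun i => Cl lo W X (r i))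

theorem mem_Cl {lo : ℤ} {W X : ℕ} {r u : ℤ} :
    u ∈ Cl lo W X r ↔ (lo ≤ u ∧ u < lo + W * X) ∧ (W : ℤ) ∣ u - r := by
  simp [Cl]

theorem mem_Row {lo : ℤ} {W X : ℕ} {r u : Fin 3 → ℤ} :
    u ∈ Row lo W X r ↔ ∀ i, (lo ≤ u i ∧ u i < lo + W * X) ∧ (W : ℤ) ∣ u i - r i := by
  simp [Row, mem_Cl]

theorem Cl_dvd {lo : ℤ} {W X : ℕ} {r u v : ℤ} (hu : u ∈ Cl lo W X r) (hv : v ∈ Cl lo W X r) :
    (W : ℤ) ∣ u - v := by
  rw [mem_Cl] at hu hv
  have := dvd_sub hu.2 hv.2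
  simpa using this

theorem Cl_diam {lo : ℤ} {W X : ℕ} {r u v : ℤ} (hu : u ∈ Cl lo W X r) (hv : v ∈ Cl lo W X r) :
    |u - v| ≤ W * X := by
  rw [mem_Cl] at hu hv
  rw [abs_le]; constructor <;> linarith [hu.1.1, hu.1.2, hv.1.1, hv.1.2]

theorem Row_mem_Cl {lo : ℤ} {W X : ℕ} {r u : Fin 3 → ℤ} (hu : u ∈ Row lo W X r) (i : Fin 3) :
    u i ∈ Cl lo W X (r i) := by
  rw [mem_Cl]; exact mem_Row.mp hu i

theorem card_Cl_le (lo : ℤ) (W X : ℕ) (hW : 0 < W) (r : ℤ) : (Cl lo W X r).card ≤ X := by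
  have hW' : (0 : ℤ) < W := by exact_mod_cast hW
  have h := Finset.card_le_card_of_injOn (s := Cl lo W X r) (t := Finset.range X)
    (fun u => ((u - lo) / W).toNat) ?_ ?_
  · simpa using h
  · intro u hu
    have hu' := mem_Cl.mp hu
    simp only [Finset.coe_range, Set.mem_Iio]
    have h0 : 0 ≤ (u - lo) / W := Int.ediv_nonneg (by linarith [hu'.1.1]) hW'.le
    have h1 : (u - lo) / W < X := by
      apply Int.ediv_lt_of_lt_mul hW'
      linarith [hu'.1.2]
    omega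
  · intro u hu v hv huv
    have hu' := mem_Cl.mp hu
    have hv' := mem_Cl.mp hv
    have h0 : 0 ≤ (u - lo) / W := Int.ediv_nonneg (by linarith [hu'.1.1]) hW'.le
    have h1 : 0 ≤ (v - lo) / W := Int.ediv_nonneg (by linarith [hv'.1.1]) hW'.le
    have h2 : (u - lo) / W = (v - lo) / W := by
      simp only at huv
      omega
    obtain ⟨c, hc⟩ := Cl_dvd hu hv
    have h3 : u - lo = (v - lo) + W * c := by linarith
    rw [h3, Int.add_mul_ediv_left _ _ hW'.ne'] at h2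
    have : c = 0 := by linarith
    rw [this] at hc
    linarith

theorem card_Cl_le' (lo : ℤ) (W X : ℕ) (hW : 0 < W) (r : ℤ) :
    ((Cl lo W X r).card : ℝ) ≤ X := by exact_mod_cast card_Cl_le lo W X hW r

theorem card_Row_le (lo : ℤ) (W X : ℕ) (hW : 0 < W) (r : Fin 3 → ℤ) :
    ((Row lo W X r).card : ℝ) ≤ (X : ℝ) ^ 3 := by
  unfold Row
  rw [Fintype.card_piFinset, Fin.prod_univ_three]
  push_cast
  have h0 := card_Cl_le' lo W X hW (r 0)
  have h1 := card_Cl_le' lo W X hW (r 1)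
  have h2 := card_Cl_le' lo W X hW (r 2)
  calc _ ≤ (X : ℝ) * X * X := by gcongr
    _ = _ := by ring

theorem card_le_sum_of_cover {α β : Type} [DecidableEq α] (S : Finset α) (T : Finset β)
    (F : β → Finset α) (h : ∀ u ∈ S, ∃ t ∈ T, u ∈ F t) :
    (S.card : ℝ) ≤ ∑ t ∈ T, ((F t).card : ℝ) := by
  have h1 : S ⊆ T.biUnion F := by
    intro u hu
    rw [Finset.mem_biUnion]
    exact h u hu
  have h2 := (Finset.card_le_card h1).trans Finset.card_biUnion_le
  exact_mod_cast h2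

theorem card_filter_prod_le {α β : Type} (A : Finset α) (B : Finset β) (P : α × β → Prop)
    [DecidablePred P] (f : α → ℝ)
    (h : ∀ a ∈ A, ((B.filter (fun b => P (a, b))).card : ℝ) ≤ f a) :
    (((A ×ˢ B).filter P).card : ℝ) ≤ ∑ a ∈ A, f a := by
  classical
  rw [Finset.card_filter, Finset.sum_product]
  push_cast
  apply Finset.sum_le_sum
  intro a ha
  have := h a ha
  rw [Finset.card_filter] at this
  push_cast at this
  exact this

/-- Rescaling a set of pairwise congruent vectors. -/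
theorem exists_scaled (S : Finset (Fin 3 → ℤ)) (D : ℤ) (_hD : D ≠ 0)
    (hdiv : ∀ u ∈ S, ∀ u' ∈ S, ∀ i, D ∣ u i - u' i) :
    ∃ S' : Finset (Fin 3 → ℤ), S'.card = S.card ∧ ∀ w ∈ S', ∀ w' ∈ S', ∃ u ∈ S, ∃ u' ∈ S,
      ∀ i, u i - u' i = D * (w i - w' i) := by
  classical
  rcases S.eq_empty_or_nonempty with rfl | ⟨u0, hu0⟩
  · exact ⟨∅, rfl, by simp⟩
  let φ : (Fin 3 → ℤ) → (Fin 3 → ℤ) := fun u i => (u i - u0 i) / D
  have hφ : ∀ u ∈ S, ∀ i, u i - u0 i = D * φ u i := by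
    intro u hu i
    exact (Int.mul_ediv_cancel' (hdiv u hu u0 hu0 i)).symm
  refine ⟨S.image φ, ?_, ?_⟩
  · apply Finset.card_image_of_injOn
    intro u hu u' hu' h
    funext i
    have h1 := hφ u hu i
    have h2 := hφ u' hu' i
    rw [h] at h1
    linarith
  · intro w hw w' hw'
    obtain ⟨u, hu, rfl⟩ := Finset.mem_image.mp hw
    obtain ⟨u', hu', rfl⟩ := Finset.mem_image.mp hw'
    refine ⟨u, hu, u', hu', fun i => ?_⟩
    have h1 := hφ u hu i
    have h2 := hφ u' hu' i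
    linear_combination h1 - h2

theorem scaled_facts {n u u' w w' : Fin 3 → ℤ} {D : ℤ} (hD : 0 < D) {Z : ℝ}
    (h : ∀ i, u i - u' i = D * (w i - w' i)) (hperp : dot n (u - u') = 0)
    (hdiam : (nrm (u - u') : ℝ) ≤ D * Z) :
    dot n (w - w') = 0 ∧ (nrm (w - w') : ℝ) ≤ Z := by
  constructor
  · apply mul_left_cancel₀ hD.ne'
    simp only [dot, Pi.sub_apply] at hperp ⊢
    rw [h 0, h 1, h 2] at hperp
    linear_combination hperp
  · have e : u - u' = fun i => D * (w - w') i := by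
      funext i; simp only [Pi.sub_apply]; exact h i
    rw [e, nrm_mul, abs_of_pos hD] at hdiam
    push_cast at hdiam
    have hD' : (0 : ℝ) < D := by exact_mod_cast hD
    exact le_of_mul_le_mul_left hdiam hD'

theorem plane_count_div (n : Fin 3 → ℤ) (hn : Prim n) (lam : ℝ) (hlam : 0 < lam)
    (hshort : ∀ w : Fin 3 → ℤ, w ≠ 0 → dot n w = 0 → lam ≤ nrm w)
    (S : Finset (Fin 3 → ℤ)) (D : ℤ) (hD : 0 < D) (Z : ℝ) (hZ : 0 ≤ Z)
    (hdiv : ∀ u ∈ S, ∀ u' ∈ S, ∀ i, D ∣ u i - u' i)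
    (hperp : ∀ u ∈ S, ∀ u' ∈ S, dot n (u - u') = 0)
    (hdiam : ∀ u ∈ S, ∀ u' ∈ S, (nrm (u - u') : ℝ) ≤ D * Z) :
    (S.card : ℝ) ≤ 1 + 2 * Z / lam + 8 * Z ^ 2 / nrm n := by
  obtain ⟨S', hc, hS'⟩ := exists_scaled S D hD.ne' hdiv
  rw [← hc]
  apply plane_count n hn lam hlam hshort S' Z hZ
  · intro w hw w' hw'
    obtain ⟨u, hu, u', hu', h⟩ := hS' w hw w' hw'
    exact (scaled_facts hD h (hperp u hu u' hu') (hdiam u hu u' hu')).1
  · intro w hw w' hw'
    obtain ⟨u, hu, u', hu', h⟩ := hS' w hw w' hw'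
    exact (scaled_facts hD h (hperp u hu u' hu') (hdiam u hu u' hu')).2

theorem Row_diam {lo : ℤ} {W X : ℕ} {r u v : Fin 3 → ℤ} (hu : u ∈ Row lo W X r)
    (hv : v ∈ Row lo W X r) : nrm (u - v) ≤ W * X := by
  rw [nrm_le_iff]
  intro i
  exact Cl_diam (Row_mem_Cl hu i) (Row_mem_Cl hv i)

/-- Sharp count of the points of a class on a plane. -/
theorem row_plane_sharp (n : Fin 3 → ℤ) (hn : Prim n) (w₁ w₂ : Fin 3 → ℤ)
    (h₁ : dot n w₁ = 0) (h₂ : dot n w₂ = 0) (hind : ∃ i, cr w₁ w₂ i ≠ 0)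
    (lo : ℤ) (W X : ℕ) (hW : 0 < W) (r : Fin 3 → ℤ)
    (S : Finset (Fin 3 → ℤ)) (hS : S ⊆ Row lo W X r)
    (hw₁ : nrm w₁ ≤ X) (hw₂ : nrm w₂ ≤ X)
    (hperp : ∀ u ∈ S, ∀ u' ∈ S, dot n (u - u') = 0) :
    (S.card : ℝ) ≤ 12 * (X : ℝ) ^ 2 / nrm n := by
  have hW' : (0 : ℤ) < W := by exact_mod_cast hW
  obtain ⟨S', hc, hS'⟩ := exists_scaled S W hW'.ne'
    (fun u hu u' hu' i => Cl_dvd (Row_mem_Cl (hS hu) i) (Row_mem_Cl (hS hu') i))
  rw [← hc]
  have hd : ∀ u ∈ S, ∀ u' ∈ S, (nrm (u - u') : ℝ) ≤ ((W : ℤ) : ℝ) * (X : ℝ) := by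
    intro u hu u' hu'
    exact_mod_cast Row_diam (hS hu) (hS hu')
  apply plane_sharp n hn w₁ w₂ h₁ h₂ hind S' X (by exact_mod_cast hw₁) (by exact_mod_cast hw₂)
  · intro w hw w' hw'
    obtain ⟨u, hu, u', hu', h⟩ := hS' w hw w' hw'
    exact (scaled_facts hW' h (hperp u hu u' hu') (hd u hu u' hu')).1
  · intro w hw w' hw'
    obtain ⟨u, hu, u', hu', h⟩ := hS' w hw w' hw'
    exact (scaled_facts hW' h (hperp u hu u' hu') (hd u hu u' hu')).2

/-- Crude count of the points of a class on a plane. -/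
theorem row_plane_crude (n : Fin 3 → ℤ) (hn : n ≠ 0)
    (lo : ℤ) (W X : ℕ) (hW : 0 < W) (r : Fin 3 → ℤ)
    (S : Finset (Fin 3 → ℤ)) (hS : S ⊆ Row lo W X r)
    (hperp : ∀ u ∈ S, ∀ u' ∈ S, dot n (u - u') = 0) :
    (S.card : ℝ) ≤ (X : ℝ) ^ 2 := by
  have key : ∀ i j : Fin 3, (∀ u ∈ S, ∀ u' ∈ S, u i = u' i → u j = u' j → u = u') →
      (S.card : ℝ) ≤ (X : ℝ) ^ 2 := by
    intro i j h
    have h1 := Finset.card_le_card_of_injOn (s := S) (t := Cl lo W X (r i) ×ˢ Cl lo W X (r j))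
      (fun u => (u i, u j)) ?_ ?_
    · rw [Finset.card_product] at h1
      have h2 : (S.card : ℝ) ≤ (Cl lo W X (r i)).card * (Cl lo W X (r j)).card := by
        exact_mod_cast h1
      have h3 := card_Cl_le' lo W X hW (r i)
      have h4 := card_Cl_le' lo W X hW (r j)
      calc _ ≤ _ := h2
        _ ≤ (X : ℝ) * X := by gcongr
        _ = _ := by ring
    · intro u hu
      simp only [Finset.coe_product, Set.mem_prod, Finset.mem_coe]
      exact ⟨Row_mem_Cl (hS hu) i, Row_mem_Cl (hS hu) j⟩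
    · intro u hu u' hu' he
      simp only [Prod.mk.injEq] at he
      exact h u hu u' hu' he.1 he.2
  have hex : ∃ l, n l ≠ 0 := by
    by_contra hc
    push Not at hc
    exact hn (funext hc)
  rcases exists3.mp hex with h0 | h0 | h0
  · apply key 1 2
    intro u hu u' hu' e1 e2
    have := hperp u hu u' hu'
    simp only [dot, Pi.sub_apply, e1, e2, sub_self, mul_zero, add_zero] at this
    have e0 : u 0 = u' 0 := sub_eq_zero.mp ((mul_eq_zero.mp this).resolve_left h0)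
    funext i; revert i; rw [forall3]; exact ⟨e0, e1, e2⟩
  · apply key 0 2
    intro u hu u' hu' e1 e2
    have := hperp u hu u' hu'
    simp only [dot, Pi.sub_apply, e1, e2, sub_self, mul_zero, add_zero, zero_add] at this
    have e0 : u 1 = u' 1 := sub_eq_zero.mp ((mul_eq_zero.mp this).resolve_left h0)
    funext i; revert i; rw [forall3]; exact ⟨e1, e0, e2⟩
  · apply key 0 1
    intro u hu u' hu' e1 e2
    have := hperp u hu u' hu'
    simp only [dot, Pi.sub_apply, e1, e2, sub_self, mul_zero, add_zero, zero_add] at this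
    have e0 : u 2 = u' 2 := sub_eq_zero.mp ((mul_eq_zero.mp this).resolve_left h0)
    funext i; revert i; rw [forall3]; exact ⟨e1, e2, e0⟩

/-- Multiples of `d` inside a class of units. -/
theorem card_Cl_dvd (lo : ℤ) (W X : ℕ) (hW : 0 < W) (r : ℤ) (hr : IsCoprime r (W : ℤ))
    (d : ℕ) (hd : 0 < d) :
    (((Cl lo W X r).filter (fun u => (d : ℤ) ∣ u)).card : ℝ) ≤ X / d + 1 := by
  have hWr : (0 : ℝ) < W := by exact_mod_cast hW
  have hdr : (0 : ℝ) < d := by exact_mod_cast hd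
  have h := card_le_of_sep ((Cl lo W X r).filter (fun u => (d : ℤ) ∣ u)) id (W * d) (W * X)
    (by positivity) (by positivity) ?_ ?_
  · have e : (W : ℝ) * X / (W * d) = X / d := by field_simp
    rwa [e] at h
  · intro u hu v hv hne
    rw [Finset.mem_filter] at hu hv
    have h1 := Cl_dvd hu.1 hv.1
    have h2 : (d : ℤ) ∣ u - v := dvd_sub hu.2 hv.2
    have hcu : IsCoprime u (W : ℤ) := by
      obtain ⟨c, hc⟩ := (mem_Cl.mp hu.1).2
      have : u = r + W * c := by linarith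
      rw [this]
      exact hr.add_mul_left_left c
    have hcd : IsCoprime (W : ℤ) (d : ℤ) := (hcu.of_isCoprime_of_dvd_left hu.2).symm
    have h3 : (W : ℤ) * d ∣ u - v := hcd.mul_dvd h1 h2
    have h4 : (W : ℤ) * d ≤ |u - v| :=
      Int.le_of_dvd (abs_pos.mpr (sub_ne_zero.mpr hne)) ((dvd_abs _ _).mpr h3)
    simp only [id]
    exact_mod_cast h4
  · intro u hu v hv
    rw [Finset.mem_filter] at hu hv
    simp only [id]
    exact_mod_cast Cl_diam hu.1 hv.1

end Vale.Agent.P036
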