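import Vale.Agent.P036.ModQ
import Vale.Agent.P036.Free

/-! Splitting the conditions modulo `m * Q` into the two coprime parts. -/

namespace Vale.Agent.P036

open Finset

/-- The integer row `r` is `A` modulo `m` and `u` modulo `Q`. -/
def Lift (m Q : ℕ) (r A : Fin 3 → ℤ) (u : Fin 3 → ZMod Q) : Prop :=
  ∀ t, (m : ℤ) ∣ r t - A t ∧ ((r t : ℤ) : ZMod Q) = u t

/-- Reduction of a row modulo `Q`. -/
def red (Q : ℕ) (a : Fin 3 → ℤ) : Fin 3 → ZMod Q := fun t => (a t : ZMod Q)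

theorem dot_red (Q : ℕ) (a b : Fin 3 → ℤ) :
    ((dot a b : ℤ) : ZMod Q) = dot (red Q a) (red Q b) := by
  simp [dot, red]

theorem cr_red (Q : ℕ) (a b : Fin 3 → ℤ) : red Q (cr a b) = cr (red Q a) (red Q b) := by
  funext t; revert t; rw [forall3]
  simp [red]

theorem Lift.red {m Q : ℕ} {r A : Fin 3 → ℤ} {u : Fin 3 → ZMod Q} (h : Lift m Q r A u) :
    red Q r = u := funext fun t => (h t).2

theorem Lift.dvd {m Q : ℕ} {r A : Fin 3 → ℤ} {u : Fin 3 → ZMod Q} (h : Lift m Q r A u) :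
    ∀ t, (m : ℤ) ∣ r t - A t := fun t => (h t).1

theorem exists_crt (m Q : ℕ) [NeZero Q] (h : Nat.Coprime m Q) :
    ∃ crt : ℤ → ZMod Q → ℤ, ∀ A u, (m : ℤ) ∣ crt A u - A ∧ ((crt A u : ℤ) : ZMod Q) = u := by
  obtain ⟨a, b, hab⟩ := Nat.isCoprime_iff_coprime.mpr h
  refine ⟨fun A u => A * (b * Q) + (u.val : ℤ) * (a * m), fun A u => ⟨?_, ?_⟩⟩
  · exact ⟨(u.val - A) * a, by linear_combination A * hab⟩
  · have h1 : ((a * m : ℤ) : ZMod Q) = 1 := by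
      have := congrArg (fun z : ℤ => (z : ZMod Q)) hab
      simpa using this
    rw [Int.cast_add, Int.cast_mul, Int.cast_mul (u.val : ℤ), h1]
    simp

/-- The part modulo `m` of the condition on relation vectors. -/
def XiM (m : ℤ) (A B C ξ : Fin 3 → ℤ) : Prop :=
  Prim ξ ∧ (∀ i, ξ i ≠ 0) ∧ m ∣ dot ξ A ∧ m ∣ dot ξ B ∧ m ∣ dot ξ C

theorem dvd_dot_of_lift {m Q : ℕ} {r A ξ : Fin 3 → ℤ} {u : Fin 3 → ZMod Q}
    (h : Lift m Q r A u) (hd : ((m * Q : ℕ) : ℤ) ∣ dot ξ r) :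
    (m : ℤ) ∣ dot ξ A ∧ dot (red Q ξ) u = 0 := by
  push_cast at hd
  constructor
  · have h1 : (m : ℤ) ∣ dot ξ r - dot ξ A := dot_congr (fun i => by simp) h.dvd
    have h2 : (m : ℤ) ∣ dot ξ r := (Dvd.intro _ rfl).trans hd
    have := dvd_sub h2 h1
    simpa using this
  · have h2 : (Q : ℤ) ∣ dot ξ r := (Dvd.intro_left _ rfl).trans hd
    rw [← h.red, ← dot_red]
    exact (ZMod.intCast_zmod_eq_zero_iff_dvd _ _).mpr h2

theorem xi_split {m Q : ℕ} [Fact Q.Prime] {ν : ZMod Q} {r₁ r₂ r₃ A B C ξ : Fin 3 → ℤ} {lam : ℤ}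
    {x : (Fin 3 → (ZMod Q)ˣ) × (Fin 3 → ZMod Q)} (h₁ : Lift m Q r₁ A (uu x))
    (h₂ : Lift m Q r₂ (fun t => B t + lam * C t) x.2) (h₃ : Lift m Q r₃ C (cq ν (uu x) x.2))
    (h : XiP (m * Q) r₁ r₂ r₃ ξ) : XiM m A B C ξ ∧ Rel ν (red Q ξ) x := by
  obtain ⟨a1, a2, a3, a4, a5⟩ := h
  obtain ⟨b1, c1⟩ := dvd_dot_of_lift h₁ a3
  obtain ⟨b2, c2⟩ := dvd_dot_of_lift h₂ a4
  obtain ⟨b3, c3⟩ := dvd_dot_of_lift h₃ a5
  refine ⟨⟨a1, a2, b1, ?_, b3⟩, c1, c2, c3⟩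
  have e : dot ξ B = dot ξ (fun t => B t + lam * C t) - lam * dot ξ C := by
    simp only [dot]; ring
  rw [e]
  exact dvd_sub b2 (Dvd.dvd.mul_left b3 _)

/-- The part modulo `m` of the solvability condition. -/
def SolvM (m : ℤ) (T : ℕ) (A B C : Fin 3 → ℤ) (s : ℤ) : Prop :=
  |s| ≤ T ∧ m ∣ dot (cr A B) C - s

theorem solv_split {m Q T : ℕ} [Fact Q.Prime] {ν : ZMod Q} {r₁ r₂ r₃ A B C : Fin 3 → ℤ}
    {lam : ℤ} {x : (Fin 3 → (ZMod Q)ˣ) × (Fin 3 → ZMod Q)} (h₁ : Lift m Q r₁ A (uu x))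
    (h₂ : Lift m Q r₂ (fun t => B t + lam * C t) x.2) (h₃ : Lift m Q r₃ C (cq ν (uu x) x.2))
    (h : Solv (m * Q) T r₁ r₂ r₃) : ∃ s, SolvM m T A B C s ∧ DetEq ν (s : ZMod Q) x := by
  obtain ⟨s, hs, hd⟩ := h
  push_cast at hd
  refine ⟨s, ⟨hs, ?_⟩, ?_⟩
  · have h1 : (m : ℤ) ∣ dot (cr r₁ r₂) r₃ - dot (cr A (fun t => B t + lam * C t)) C :=
      dot_congr (cr_congr h₁.dvd h₂.dvd) h₃.dvd
    have h2 : (m : ℤ) ∣ dot (cr r₁ r₂) r₃ - s := (Dvd.intro _ rfl).trans hd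
    have e : dot (cr A (fun t => B t + lam * C t)) C = dot (cr A B) C := by
      simp only [dot, cr_0, cr_1, cr_2]; ring
    rw [e] at h1
    have := dvd_sub h2 h1
    have e2 : dot (cr r₁ r₂) r₃ - s - (dot (cr r₁ r₂) r₃ - dot (cr A B) C)
      = dot (cr A B) C - s := by ring
    rwa [e2] at this
  · have h2 : (Q : ℤ) ∣ dot (cr r₁ r₂) r₃ - s := (Dvd.intro_left _ rfl).trans hd
    have h3 := (ZMod.intCast_zmod_eq_zero_iff_dvd _ _).mpr h2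
    rw [Int.cast_sub, dot_red, cr_red, h₁.red, h₂.red, h₃.red, sub_eq_zero] at h3
    exact h3

open Classical in
/-- The part modulo `m` of the divisor sum. -/
noncomputable def sigM (M k : ℕ) (A B : Fin 3 → ℤ) : ℝ :=
  ∑ i ∈ Finset.range (k + 1), if DvdCr ((M : ℤ) ^ i) A B then (M : ℝ) ^ i else 0

theorem sigM_nonneg (M k : ℕ) (A B : Fin 3 → ℤ) : 0 ≤ sigM M k A B := by
  unfold sigM
  apply Finset.sum_nonneg
  intro i _
  split_ifs <;> positivity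

open Classical in
theorem sig_split {M k Q : ℕ} (hM : M.Prime) [hQ : Fact Q.Prime] {r₁ r₂ A B : Fin 3 → ℤ}
    {x : (Fin 3 → (ZMod Q)ˣ) × (Fin 3 → ZMod Q)} (h₁ : Lift (M ^ k) Q r₁ A (uu x))
    (h₂ : Lift (M ^ k) Q r₂ B x.2) :
    sig (M ^ k * Q) r₁ r₂ ≤ sigM M k A B * (1 + if CrZero x then (Q : ℝ) else 0) := by
  set T : Finset (ℕ × Bool) := ((Finset.range (k + 1)) ×ˢ (Finset.univ : Finset Bool)).filter
    (fun z => DvdCr ((M : ℤ) ^ z.1) A B ∧ (z.2 = true → CrZero x)) with hT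
  set T' : Finset ℕ := T.image (fun z => M ^ z.1 * (if z.2 then Q else 1)) with hT'
  have hsub : (M ^ k * Q).divisors.filter (fun g : ℕ => ∀ i, (g : ℤ) ∣ cr r₁ r₂ i) ⊆ T' := by
    intro g hg
    rw [Finset.mem_filter, Nat.mem_divisors] at hg
    obtain ⟨⟨hg1, -⟩, hg2⟩ := hg
    obtain ⟨a, b, ha, hb, rfl⟩ := (Nat.dvd_mul).mp hg1
    obtain ⟨i, hi, rfl⟩ := (Nat.dvd_prime_pow hM).mp ha
    have hcr : DvdCr ((M : ℤ) ^ i) A B := by
      intro t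
      have e1 := cr_congr h₁.dvd h₂.dvd t
      have e2 : (M : ℤ) ^ i ∣ ((M ^ k : ℕ) : ℤ) := by
        push_cast; exact pow_dvd_pow _ hi
      have e3 : (M : ℤ) ^ i ∣ cr r₁ r₂ t := by
        have := hg2 t
        push_cast at this
        exact (Dvd.intro _ rfl).trans this
      have := dvd_sub e3 (e2.trans e1)
      simpa using this
    rw [hT', Finset.mem_image]
    rcases (Nat.dvd_prime hQ.out).mp hb with rfl | rfl
    · refine ⟨(i, false), ?_, by simp⟩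
      rw [hT, Finset.mem_filter]
      refine ⟨by simp; omega, hcr, by simp⟩
    · refine ⟨(i, true), ?_, by simp⟩
      rw [hT, Finset.mem_filter]
      refine ⟨by simp; omega, hcr, fun _ t => ?_⟩
      rw [← h₁.red, ← h₂.red, ← cr_red]
      have := hg2 t
      push_cast at this
      exact (ZMod.intCast_zmod_eq_zero_iff_dvd _ _).mpr ((Dvd.intro_left _ rfl).trans this)
  have h1 : sig (M ^ k * Q) r₁ r₂
      ≤ ∑ g ∈ T', (g : ℝ) :=
    Finset.sum_le_sum_of_subset_of_nonneg hsub (fun _ _ _ => Nat.cast_nonneg _)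
  have h2 : ∑ g ∈ T', (g : ℝ)
      ≤ ∑ z ∈ T, ((M ^ z.1 * (if z.2 then Q else 1) : ℕ) : ℝ) :=
    Finset.sum_image_le_of_nonneg (f := fun g : ℕ => (g : ℝ)) (fun _ _ => Nat.cast_nonneg _)
  refine h1.trans (h2.trans (le_of_eq ?_))
  rw [hT, Finset.sum_filter, Finset.sum_product, sigM, Finset.sum_mul]
  apply Finset.sum_congr rfl
  intro i _
  rw [Fintype.sum_bool]
  by_cases a : DvdCr ((M : ℤ) ^ i) A B <;> by_cases b : CrZero x <;> simp [a, b]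
  ring

end Vale.Agent.P036
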